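import Vale.Agent.P182.H588.SDicho
import Vale.Agent.P182.H922.DichoCfg

/-!
# Realisation of first order variations, for versal and for special configurations

`RealU 𝒟 u σ`: the first order variations of the flags and of `Ω` which kill the vector `σ` are
realised; `u` is the vector of coefficients of the condition `∑ u_l r_l = 0`.
-/

namespace Vale.Agent.P182.H578

open Module Matrix Vale.Agent.P182.H533 Vale.Agent.P182.B1 Vale.Agent.P182.H922
  Vale.Agent.P182.H338 Vale.Agent.P182.H588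

variable {L V J : Type*} [Field L] [AddCommGroup V] [Module L V] [Fintype J] [DecidableEq J]

/-- the realisation property -/
structure RealU (𝒟 : Cfg L V J) (u σ : J → L) : Prop where
  real : ∀ X : Fin 3 → End L V, (∀ s, IsSk 𝒟.q (X s)) → ∀ η : Matrix J J L, ηᵀ = -η →
    η *ᵥ σ = 0 → ∃ n : H533.Conn 𝒟.q, (∀ s i, ∀ v ∈ 𝒟.F s i, n.δ v - X s v ∈ 𝒟.F s i) ∧
      ∀ l k, n.d (𝒟.Ω l k) = η l k
  gm : ∀ a, ∃ c : L, Gm 𝒟.arm 𝒟.Ω a *ᵥ σ = c • u
  stab : ∀ (n : H533.Conn 𝒟.q) (X : Fin 3 → End L V) (z : J → V),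
    (∀ l, ∑ k, n.d (𝒟.Ω l k) * σ k = 0) → ∑ l, u l • z l = 0 →
    (∀ l, ∑ k, n.d (𝒟.Ω l k) • z k =
      X (𝒟.arm l) (𝒟.om z l) - ∑ k, 𝒟.Ω l k • X (𝒟.arm k) (z k)) →
    ∑ l, u l • (n.δ (z l) - X (𝒟.arm l) (z l)) = 0

variable {𝒟 : Cfg L V J}

/-- versal configurations -/
theorem realU_versal (hV : 𝒟.Versal) : RealU 𝒟 0 0 where
  real X hX η hη _ := hV X hX η hη
  gm a := ⟨0, by rw [Matrix.mulVec_zero, smul_zero]⟩
  stab n X z _ _ _ := by simp

/-- special configurations -/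
theorem realU_spin (h2 : (2 : L) ≠ 0) {c0 c1 : J} (hs : SpinC 𝒟 c0 c1) (hG : 𝒟.Good)
    (hV : SVersal 𝒟 c0 c1) :
    RealU 𝒟 (uz 𝒟 c0 c1) (Pi.single c0 1 - Pi.single c1 1) where
  real X hX η hη hσ := by
    refine hV X hX η hη fun l => ?_
    have h1 := congrFun hσ l
    rw [Matrix.mulVec_sub, Matrix.mulVec_single_one, Matrix.mulVec_single_one, Pi.sub_apply,
      Matrix.col_apply, Matrix.col_apply, Pi.zero_apply, sub_eq_zero] at h1
    rw [skew_apply hη c0 l, skew_apply hη c1 l, h1]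
  gm a := by
    refine ⟨(if (0 : Fin 3) = a then 1 else 0) - (if (1 : Fin 3) = a then 1 else 0), ?_⟩
    funext l
    rw [Matrix.mulVec_sub, Matrix.mulVec_single_one, Matrix.mulVec_single_one, Pi.sub_apply,
      Matrix.col_apply, Matrix.col_apply, Pi.smul_apply, Gm_apply, Gm_apply, hs.arm0, hs.arm1,
      smul_eq_mul, uz]
    have hne := (spO_of_spinC hs hG).ne h2
    by_cases h0 : l = c0
    · subst h0
      rw [hs.arm0, skew_diag h2 hG.skew, if_pos rfl, skew_apply hG.skew c1 l]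
      ring
    by_cases h1 : l = c1
    · subst h1
      rw [hs.arm1, skew_diag h2 hG.skew,
        if_neg (show ¬ (1 : Fin 3) = 0 by decide), skew_apply hG.skew l c0]
      ring
    · rw [skew_apply hG.skew l c0, skew_apply hG.skew l c1, hs.sp l h0 h1]
      split_ifs <;> ring
  stab n X z hσ hz hrel := by
    have hd : n.d (𝒟.Ω c0 c1) = 0 := by
      have h1 := hσ c0
      have h3 : ∀ k, n.d (𝒟.Ω c0 k) * (Pi.single c0 1 - Pi.single c1 1 : J → L) k =
          (if k = c0 then n.d (𝒟.Ω c0 c0) else 0) - (if k = c1 then n.d (𝒟.Ω c0 c1) else 0) := by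
        intro k
        rw [Pi.sub_apply, mul_sub, Pi.single_apply, Pi.single_apply]
        split_ifs with h4 h5 h5
        · rw [← h4, ← h5]; ring
        · rw [h4]; ring
        · rw [h5]; ring
        · ring
      rw [Finset.sum_congr rfl fun k _ => h3 k, Finset.sum_sub_distrib, Finset.sum_ite_eq',
        Finset.sum_ite_eq', if_pos (Finset.mem_univ _), if_pos (Finset.mem_univ _),
        skew_diag h2 hG.skew, map_zero, zero_sub, neg_eq_zero] at h1
      exact h1
    have e0 : ∀ z : J → V, ∑ l, uz 𝒟 c0 c1 l • z l = 𝒟.om z c0 - 𝒟.Ω c0 c1 • z c0 := fun z =>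
      uzM_eq h2 hs hG z
    rw [e0, sub_eq_zero] at hz
    rw [e0, sub_eq_zero]
    have hom : 𝒟.om (fun l => n.δ (z l) - X (𝒟.arm l) (z l)) c0 =
        n.δ (𝒟.om z c0) - X (𝒟.arm c0) (𝒟.om z c0) := by
      rw [conn_om]
      have h3 : 𝒟.om (fun l => n.δ (z l) - X (𝒟.arm l) (z l)) c0 =
          𝒟.om (fun l => n.δ (z l)) c0 - ∑ k, 𝒟.Ω c0 k • X (𝒟.arm k) (z k) := by
        simp only [Cfg.om, smul_sub, Finset.sum_sub_distrib]
      rw [h3, hrel]
      abel
    rw [hom, hz, n.smul, hd, zero_smul, zero_add, map_smul, smul_sub]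

end Vale.Agent.P182.H578
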