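import Vale.Agent.P182.H258.RealR
import Vale.Agent.P182.H578.NullU1
import Vale.Agent.P182.H588.Uu

/-!
# Block [R] for a subspace of the kernel
-/

namespace Vale.Agent.P182.H578

open Module Matrix Filter Vale.Agent.P182.H533 Vale.Agent.P182.B1 Vale.Agent.P182.H922
  Vale.Agent.P182.H250 Vale.Agent.P182.H258 Vale.Agent.P182.H588

variable {L V J : Type*} [Field L] [AddCommGroup V] [Module L V] [Fintype J] [DecidableEq J]
  {𝒟 : Cfg L V J}

/-- an element with a core of maximal dimension -/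
theorem exists_maxCore_sub [FiniteDimensional L V] (K0 : Submodule L (J → V)) :
    ∃ t : J → V, t ∈ K0 ∧ ∀ t' ∈ K0, ∀ C : Core 𝒟.q (Res 𝒟 t), ∀ C' : Core 𝒟.q (Res 𝒟 t'),
      finrank L C'.V1 ≤ finrank L C.V1 := by
  classical
  let P : ℕ → Prop := fun d => ∃ t ∈ K0, ∃ C : Core 𝒟.q (Res 𝒟 t), finrank L C.V1 = d
  have hP : ∃ d, P d := by
    obtain ⟨C⟩ := exists_core 𝒟.q (Res 𝒟 (0 : J → V))
    exact ⟨_, 0, Submodule.zero_mem _, C, rfl⟩
  have hb : ∀ d, P d → d ≤ finrank L V := by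
    rintro d ⟨t, -, C, rfl⟩
    exact Submodule.finrank_le _
  obtain ⟨t, ht, C0, hC0⟩ := Nat.findGreatest_spec (P := P) (hb _ hP.choose_spec) hP.choose_spec
  refine ⟨t, ht, fun t' ht' C C' => ?_⟩
  rw [finrank_core' C C0, hC0]
  exact Nat.le_findGreatest (Submodule.finrank_le _) ⟨t', ht', C', rfl⟩

/-- the kernel with a condition is stable under the connections preserving everything -/
theorem isD_Ku {u σ : J → L} (hR : RealU 𝒟 u σ) {c : H533.Conn 𝒟.q} (hc : IsD 𝒟 c) {z : J → V}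
    (hz : z ∈ Ku 𝒟 u) : (fun l => c.δ (z l)) ∈ Ku 𝒟 u := by
  refine ⟨isD_K hc hz.1, ?_⟩
  have h1 := hR.stab c (fun _ => 0) z (fun l => Finset.sum_eq_zero fun k _ => by
      rw [hc.2, zero_mul]) (mem_Uu.1 hz.2) (fun l => by
      simp only [hc.2, zero_smul, LinearMap.zero_apply, smul_zero, Finset.sum_const_zero,
        sub_zero])
  rw [SetLike.mem_coe, mem_Uu]
  simpa only [LinearMap.zero_apply, sub_zero] using h1

variable [CharZero L]

/-- **Block [R], first half.** -/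
theorem exists_gen_sub [FiniteDimensional L V] (hG : 𝒟.Good) (hR : 𝒟.Rich)
    (K0 : Submodule L (J → V))
    (hst : ∀ c : H533.Conn 𝒟.q, IsD 𝒟 c → ∀ z ∈ K0, (fun l => c.δ (z l)) ∈ K0)
    (hd : finrank L K0 = 2) : ∃ t : J → V, (t ∈ K0 ∧ ∀ t' ∈ K0, ∀ C : Core 𝒟.q (Res 𝒟 t),
      ∀ C' : Core 𝒟.q (Res 𝒟 t'), finrank L C'.V1 ≤ finrank L C.V1) ∧
      ∀ z ∈ K0, ∃ n : H533.Conn 𝒟.q, (∀ s i, ∀ f ∈ 𝒟.F s i, n.δ f ∈ 𝒟.F s i) ∧
        (∀ l k, n.d (𝒟.Ω l k) = 0) ∧ ∀ l, n.δ (t l) = z l := by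
  classical
  have hq := hG.form
  let k := finBasisOfFinrankEq L K0 hd
  obtain ⟨n, τ, hn1, hn2, hn3⟩ := hR 2
  have hn : ∀ a, IsD 𝒟 (n a) := fun a => ⟨fun s i v hv => hn1 a s i v hv, fun l k => hn2 a l k⟩
  let α : Fin 2 → Fin 2 → Fin 2 → L := fun a i j => k.repr ⟨_, hst _ (hn a) _ (k i).2⟩ j
  have hα : ∀ a i l, (n a).δ ((k i : J → V) l) = ∑ j, α a i j • (k j : J → V) l := by
    intro a i l
    have h1 := congrArg (fun x : K0 => (x : J → V) l)
      (k.sum_repr ⟨_, hst _ (hn a) _ (k i).2⟩)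
    simp only [AddSubmonoidClass.coe_finsetSum, Submodule.coe_smul, Finset.sum_apply,
      Pi.smul_apply] at h1
    exact h1.symm
  have hspan : ∀ z ∈ K0, ∃ ζ : Fin 2 → L, z = ζ 0 • (k 0 : J → V) + ζ 1 • (k 1 : J → V) := by
    intro z hz
    have h1 := congrArg Subtype.val (k.sum_repr ⟨z, hz⟩)
    rw [Fin.sum_univ_two] at h1
    exact ⟨_, h1.symm⟩
  obtain ⟨t0, ht0⟩ := exists_maxCore_sub (𝒟 := 𝒟) K0
  obtain ⟨C0⟩ := exists_core 𝒟.q (Res 𝒟 t0)
  obtain ⟨ζ, hζ⟩ := hspan t0 ht0.1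
  let M : L → L → Matrix (Fin 2) (Fin 2) L := fun x y a j =>
    (if a = j then 1 else 0) + x * α a 0 j + y * α a 1 j
  have hMx : ∀ y, IsPoly fun x => (M x y).det := by
    intro y
    have h1 : ∀ a j, IsPoly fun x => M x y a j := fun a j =>
      ((H250.IsPoly.const _).add (H250.IsPoly.id.mul (H250.IsPoly.const _))).add
        (H250.IsPoly.const _)
    have h2 : (fun x => (M x y).det) =
        fun x => M x y 0 0 * M x y 1 1 - M x y 0 1 * M x y 1 0 := by
      funext x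
      rw [Matrix.det_fin_two]
    rw [h2]
    exact ((h1 0 0).mul (h1 1 1)).sub ((h1 0 1).mul (h1 1 0))
  have hMy : ∀ x, IsPoly fun y => (M x y).det := by
    intro x
    have h1 : ∀ a j, IsPoly fun y => M x y a j := fun a j =>
      (H250.IsPoly.const _).add (H250.IsPoly.id.mul (H250.IsPoly.const _))
    have h2 : (fun y => (M x y).det) =
        fun y => M x y 0 0 * M x y 1 1 - M x y 0 1 * M x y 1 0 := by
      funext y
      rw [Matrix.det_fin_two]
    rw [h2]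
    exact ((h1 0 0).mul (h1 1 1)).sub ((h1 0 1).mul (h1 1 0))
  have hM0 : (M 0 0).det ≠ 0 := by
    have h1 : M 0 0 = 1 := by
      ext a j
      simp only [M, zero_mul, add_zero, Matrix.one_apply]
    rw [h1, Matrix.det_one]
    exact one_ne_zero
  -- the second coordinate
  have hty : t0 = ζ 0 • (k 0 : J → V) + ζ 1 • (k 1 : J → V) := hζ
  have C0' : Core 𝒟.q fun s => Res 𝒟 (ζ 0 • (k 0 : J → V) + ζ 1 • (k 1 : J → V)) s := by
    rw [← hty]; exact C0
  obtain ⟨m1, hm1a, hm1b⟩ := exists_nat_of_cofinite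
    ((eventually_core hq _ (fun s => isPoly_Res (𝒟 := 𝒟) (ζ 0 • (k 0 : J → V)) (k 1 : J → V) s)
      (ζ 1) C0').and ((hMy 0).eventually_ne_zero hM0)) (τ 1)
  set y := τ 1 + (m1 : L) with hy
  obtain ⟨C1⟩ := exists_core 𝒟.q (fun s => Res 𝒟 (ζ 0 • (k 0 : J → V) + y • (k 1 : J → V)) s)
  have C1' : Core 𝒟.q fun s => Res 𝒟 (y • (k 1 : J → V) + ζ 0 • (k 0 : J → V)) s := by
    rw [add_comm (y • _)]; exact C1
  obtain ⟨m0, hm0a, hm0b⟩ := exists_nat_of_cofinite
    ((eventually_core hq _ (fun s => isPoly_Res (𝒟 := 𝒟) (y • (k 1 : J → V)) (k 0 : J → V) s)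
      (ζ 0) C1').and ((hMx y).eventually_ne_zero hm1b)) (τ 0)
  set x := τ 0 + (m0 : L) with hx
  refine ⟨y • (k 1 : J → V) + x • (k 0 : J → V), ⟨?_, ?_⟩, ?_⟩
  · exact Submodule.add_mem _ (Submodule.smul_mem _ _ (k 1).2) (Submodule.smul_mem _ _ (k 0).2)
  · intro t' ht' C C'
    have e1 : finrank L C'.V1 ≤ finrank L C0.V1 := ht0.2 t' ht' C0 C'
    have e2 : finrank L C0.V1 = finrank L C0'.V1 := by
      have key : ∀ (t1 : J → V) (_ : t0 = t1) (D : Core 𝒟.q fun s => Res 𝒟 t1 s),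
          finrank L C0.V1 = finrank L D.V1 := by
        rintro _ rfl D
        exact finrank_core' C0 D
      exact key _ hty C0'
    have e3 : finrank L C0'.V1 ≤ finrank L C1.V1 := hm1a C1
    have e4 : finrank L C1.V1 = finrank L C1'.V1 := by
      have key : ∀ (t1 : J → V) (_ : ζ 0 • (k 0 : J → V) + y • (k 1 : J → V) = t1)
          (D : Core 𝒟.q fun s => Res 𝒟 t1 s), finrank L C1.V1 = finrank L D.V1 := by
        rintro _ rfl D
        exact finrank_core' C1 D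
      exact key _ (add_comm _ _) C1'
    have e5 : finrank L C1'.V1 ≤ finrank L C.V1 := hm0a C
    omega
  · have hdx : ∀ a, (n a).d x = if a = 0 then 1 else 0 := fun a => by
      rw [hx, map_add, conn_nat, add_zero, hn3]
    have hdy : ∀ a, (n a).d y = if a = 1 then 1 else 0 := fun a => by
      rw [hy, map_add, conn_nat, add_zero, hn3]
    have hδ : ∀ a l, (n a).δ ((y • (k 1 : J → V) + x • (k 0 : J → V)) l) =
        ∑ j, M x y a j • (k j : J → V) l := by
      intro a l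
      rw [Pi.add_apply, Pi.smul_apply, Pi.smul_apply, map_add, (n a).smul, (n a).smul, hα, hα,
        hdx, hdy]
      simp only [M, Fin.sum_univ_two]
      fin_cases a <;> simp [add_smul, mul_smul, smul_add] <;> abel
    intro z hz
    obtain ⟨ξ, hξ⟩ := hspan z hz
    have hu : IsUnit (M x y).det := isUnit_iff_ne_zero.mpr hm0b
    set c : Fin 2 → L := ξ ᵥ* (M x y)⁻¹ with hc
    have hcM : c ᵥ* M x y = ξ := by
      rw [hc, Matrix.vecMul_vecMul, Matrix.nonsing_inv_mul _ hu, Matrix.vecMul_one]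
    have hcj : ∀ j, c 0 * M x y 0 j + c 1 * M x y 1 j = ξ j := by
      intro j
      have h1 := congrFun hcM j
      rw [Matrix.vecMul, dotProduct, Fin.sum_univ_two] at h1
      exact h1
    have hD := (hn 0).ccomb (hn 1) (c 0) (c 1)
    refine ⟨ccomb (c 0) (n 0) (c 1) (n 1), hD.1, hD.2, fun l => ?_⟩
    rw [ccomb_δ, hδ, hδ, hξ, Fin.sum_univ_two, Fin.sum_univ_two, Pi.add_apply, Pi.smul_apply,
      Pi.smul_apply, ← hcj 0, ← hcj 1]
    module

end Vale.Agent.P182.H578
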