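import Vale.Agent.P182.H258.RealR
import Vale.Agent.P182.H588.SDicho

/-!
# Exact realisation on the core, for special configurations
-/

namespace Vale.Agent.P182.H578

open Module Matrix Vale.Agent.P182.H533 Vale.Agent.P182.B1 Vale.Agent.P182.H922
  Vale.Agent.P182.H338 Vale.Agent.P182.H588 Vale.Agent.P182.H258

variable {L V J : Type*} [Field L] [AddCommGroup V] [Module L V] [Fintype J] [DecidableEq J]
  {𝒟 : Cfg L V J} {c0 c1 : J}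

/-- **Exact realisation on the core**, special configurations. -/
theorem realS_core_s [CharZero L] [FiniteDimensional L V] (hs : SpinC 𝒟 c0 c1) (hG : 𝒟.Good)
    (hV : SVersal 𝒟 c0 c1) {t : J → V} (ht : t ∈ Ks 𝒟 c0 c1)
    (hm : ∀ z ∈ Ks 𝒟 c0 c1, ∃ n : H533.Conn 𝒟.q, (∀ s i, ∀ f ∈ 𝒟.F s i, n.δ f ∈ 𝒟.F s i) ∧
      (∀ l k, n.d (𝒟.Ω l k) = 0) ∧ ∀ l, n.δ (t l) = z l) (C : Core 𝒟.q (Res 𝒟 t)) :
    H89.RealS C.q1 (C.S1 hG.form) := by
  intro A hA hsum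
  obtain ⟨X, hX, hXI, hXA, η, hη, hηs, hT⟩ :=
    exists_lift_s hG.form two_ne_zero (Tt L t) (spO_of_spinC hs hG)
      (kl_Tt two_ne_zero hs hG ht) C hA hsum
  obtain ⟨n, R, ⟨r, hr, rfl⟩, h1, h2⟩ := realC_s two_ne_zero hs hG hV ht X η hX hη hηs hT
  obtain ⟨m, hm1, hm2, hm3⟩ := hm r hr
  have h1' : ∀ j, (ccomb 1 n (-1) m).δ (Tt L t (Pi.single j 1)) =
      X (𝒟.arm j) (Tt L t (Pi.single j 1)) := by
    intro j
    rw [ccomb_δ, h1, Tt_single, Tt_single, hm3]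
    module
  have h2' : ∀ i j, (ccomb 1 n (-1) m).d (𝒟.Ω i j) = η i j := by
    intro i j
    rw [ccomb_d, h2, hm2]
    ring
  obtain ⟨c1, -, hc1⟩ := C.exists_conn hG.form (Sop_SA 𝒟.arm hG.form (Tt L t) hG.skew) hX hXI hXA
    (ccomb 1 n (-1) m) (delta_Sop 𝒟.arm (Tt L t) hG.skew hX hη hT _ h1' h2')
  exact ⟨c1, hc1⟩

end Vale.Agent.P182.H578
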