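import Vale.Agent.P182.H578.DerU
import Vale.Agent.P182.H922.NullL

/-!
# The null case in the common context: `HHU s` contains the commutants, and the end
-/

namespace Vale.Agent.P182.H578.U

open Module Matrix Vale.Agent.P182.H533 Vale.Agent.P182.B1 Vale.Agent.P182.H922
  Vale.Agent.P182.H578 Vale.Agent.P182.H588

variable {L V J : Type*} [Field L] [AddCommGroup V] [Module L V] [FiniteDimensional L V]
  [Fintype J] [DecidableEq J] {𝒟 : Cfg L V J} {u : J → L}

omit [FiniteDimensional L V] in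
/-- the first order relations -/
theorem rel_of_krel (hK : KRel 𝒟.arm 𝒟.q 𝒟.Ω (Tt L '' (Ku 𝒟 u : Set (J → V)))) {t t' : J → V}
    (ht : t ∈ Ku 𝒟 u) (ht' : t' ∈ Ku 𝒟 u) : Rel 𝒟 t t' := by
  have hX : Tt L t ∈ Tt L '' (Ku 𝒟 u : Set (J → V)) := ⟨t, ht, rfl⟩
  have hY : Tt L t' ∈ Tt L '' (Ku 𝒟 u : Set (J → V)) := ⟨t', ht', rfl⟩
  constructor
  · intro l k
    have h1 := hK.F1 _ hX _ hY (Pi.single l 1) (Pi.single k 1)
    rwa [Tt_single, Tt_single, Tt_single, Tt_single] at h1
  · intro s v w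
    exact hK.F2 _ hX _ hY s v w

section base

variable (hC : Ctx 𝒟 u) {t t' : J → V} (C : Core 𝒟.q (Res 𝒟 t)) {D : End L C.V1}
  (hI : C.I = ⊥) (ht : Rel 𝒟 t t') (hDs : IsSA C.q1 D)
  (hDc : ∀ s, D * C.S1 hC.good.form s = C.S1 hC.good.form s * D)
  (hD : ∀ l, C.P hC.good.form (t' l) = D (C.P hC.good.form (t l)))

include hC hI ht hDs hDc hD

/-- **(A)** -/
theorem mem_HHU {x : L} (hx : GoodL hC.good (t' := t') C D x)
    (hxK : t + x • t' ∈ Ku 𝒟 u) (s : Fin 3) {β : End L C.V1} (hβ : IsSA C.q1 β)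
    (hc : β * ((1 + x • D) ^ 2 * C.S1 hC.good.form s) = (1 + x • D) ^ 2 * C.S1 hC.good.form s * β) :
    β * (1 + x • D) ∈ HHU hC.good u C s := by
  have hG := hC.good
  have hq := hG.form
  set β' : End L V := C.V1.subtype ∘ₗ β ∘ₗ C.P hq with hβ'
  have hβa : ∀ v, β' v = (β (C.P hq v) : V) := fun v => rfl
  have hcx := compat_tx hG ht x
  have hSAx : ∀ s, IsSA 𝒟.q (Res 𝒟 (t + x • t') s) := hcx.sa
  have hPS : ∀ v, C.P hq (Res 𝒟 (t + x • t') s v) =
      ((1 + x • D) ^ 2 * C.S1 hq s : End L C.V1) (C.P hq v) := by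
    intro v
    have h3 : C.P hq (Res 𝒟 (t + x • t') s (v - C.P hq v)) = 0 :=
      C.P_eq_zero hq (hcx.map_perp C s (sub_P C hq hI v))
    rw [map_sub, map_sub, sub_eq_zero] at h3
    rw [h3, P_Resx hG C hDs hDc hD]
  have hSAβ : IsSA 𝒟.q β' := by
    have e : ∀ (a : C.V1) (v : V), 𝒟.q (a : V) v = C.q1 a (C.P hq v) := fun a v => by
      rw [hq.symm, ← C.q_P hq, (C.isForm hq).symm]
    intro u v
    rw [hβa, hβa, e, hq.symm u, e, hβ, (C.isForm hq).symm]
  have hcomm : β' * Res 𝒟 (t + x • t') s = Res 𝒟 (t + x • t') s * β' := by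
    refine LinearMap.ext fun v => ?_
    rw [Module.End.mul_apply, Module.End.mul_apply, hβa, hβa, hPS,
      Resx_V1 hG C hI ht hDs hDc hD, ← Module.End.mul_apply, hc]
    rfl
  obtain ⟨r, hru, hF1, hF2, hr⟩ := hC.surj _ hxK (fun s' => if s' = s then β' else 0)
    (fun s' => by
      by_cases h : s' = s
      · simpa [h] using hSAβ
      · intro u v; simp [h])
    (fun s' => by
      by_cases h : s' = s
      · subst h; simpa using hcomm
      · simp [h])
    (fun k hk => by
      refine Finset.sum_eq_zero fun s' _ => ?_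
      by_cases h : s' = s
      · subst h
        rw [if_pos rfl]
        obtain ⟨M, h1, h3, h4, -, -⟩ := core_eqx hG C hI ht hDs hDc hD hx (rel_of_krel hC.krel hxK hk)
        set X := opr 𝒟.q (Tt L (t + x • t')) (Gm 𝒟.arm 𝒟.Ω s') (Tt L k) with hX
        set τ := (1 + x • D) ^ 2 * C.S1 hC.good.form s' with hτ
        have e1 : LinearMap.trace L V (β' * X) = LinearMap.trace L C.V1 (β * C.res hq X) := by
          have e2 : β' * X = C.V1.subtype ∘ₗ ((β ∘ₗ C.P hq) ∘ₗ X) := rfl
          rw [e2, LinearMap.trace_comp_comm']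
          rfl
        rw [e1, h4, ← mul_assoc, hc, mul_assoc]
        have h5 : Commute τ (β * M) := by
          show τ * (β * M) = β * M * τ
          rw [← mul_assoc, ← hc, mul_assoc, ← h3, ← mul_assoc]
        have h6 : IsNilpotent τ := by
          obtain ⟨m, hm⟩ := nilp_Res hG hxK.1 s'
          refine ⟨m, ?_⟩
          have h7a : ∀ v : C.V1, (τ v : V) = Res 𝒟 (t + x • t') s' v := fun v =>
            (Resx_V1 hG C hI ht hDs hDc hD x s' v).symm
          have h7 : ∀ n (v : C.V1), ((τ ^ n) v : V) = (Res 𝒟 (t + x • t') s' ^ n) v := by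
            intro n
            induction n with
            | zero => intro v; rfl
            | succ n ih =>
              intro v
              rw [pow_succ, pow_succ, Module.End.mul_apply (τ ^ n) τ v, ih, h7a]
              rfl
          refine LinearMap.ext fun v => Subtype.ext ?_
          rw [h7, hm]
          rfl
        obtain ⟨m, hm⟩ := h6
        have h8 : IsNilpotent (τ * (β * M)) := ⟨m, by rw [h5.mul_pow, hm, zero_mul]⟩
        exact (LinearMap.isNilpotent_trace_of_isNilpotent h8).eq_zero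
      · simp [h])
  refine ⟨r, hru, rm_of_rel hG C hI ht hDs hDc hD hx ⟨hF1, hF2⟩, fun l hl => ?_, fun l hl => ?_⟩
  · have h3 := hr l
    rw [if_pos hl, hβa, hβa, P_tx hG C hD, P_omx hG C hD] at h3
    exact h3
  · have h3 := hr l
    rw [if_neg hl, LinearMap.zero_apply, LinearMap.zero_apply, zero_sub, zero_sub, neg_mem_iff,
      neg_mem_iff] at h3
    exact h3

omit hI ht hDc in
/-- **(C)** -/
theorem HHU_end (htu : t ∈ Uu V u) (hK : ∀ k ∈ Ku 𝒟 u, ∃ a b : L, k = a • t + b • t') {h : End L C.V1}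
    (hh : ∀ s, h ∈ HHU hC.good u C s) : IsSA C.q1 h := by
  have hG := hC.good
  have hq := hG.form
  choose r hr0 hr1 hr2 hr3 using hh
  set k : J → V := fun l => (h (C.P hq (t l)) : V) - ∑ s, r s l with hk
  have homk : ∀ l, 𝒟.om k l = (h (C.P hq (𝒟.om t l)) : V) - ∑ s, 𝒟.om (r s) l := by
    intro l
    have e1 : (h (C.P hq (𝒟.om t l)) : V) = (C.V1.subtype ∘ₗ h ∘ₗ C.P hq) (𝒟.om t l) := rfl
    rw [e1, om_lin]
    unfold Cfg.om
    rw [Finset.sum_comm, ← Finset.sum_sub_distrib]
    refine Finset.sum_congr rfl fun j _ => ?_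
    rw [← Finset.smul_sum, ← smul_sub]
    rfl
  have hkU : k ∈ Uu V u := by
    have e1 : k = (fun l => (h (C.P hq (t l)) : V)) - ∑ s, r s := by
      funext l
      rw [Pi.sub_apply, Finset.sum_apply]
    rw [e1]
    exact sub_mem (map_Uu htu (C.V1.subtype ∘ₗ h ∘ₗ C.P hq))
      (Submodule.sum_mem _ fun s _ => hr0 s)
  have hkK : k ∈ Ku 𝒟 u := by
    refine ⟨⟨fun l => ?_, fun l => ?_⟩, hkU⟩
    · have h1 := (hr2 (𝒟.arm l) l rfl).1
      have h2 : k l = ((h (C.P hq (t l)) : V) - r (𝒟.arm l) l) -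
          ∑ s ∈ Finset.univ.erase (𝒟.arm l), r s l := by
        rw [hk]
        have := Finset.add_sum_erase Finset.univ (fun s => r s l) (Finset.mem_univ (𝒟.arm l))
        dsimp only at this ⊢
        rw [← this]
        abel
      rw [h2]
      refine sub_mem h1 (Submodule.sum_mem _ fun s hs => (hr3 s l ?_).1)
      exact fun he => (Finset.mem_erase.mp hs).1 he.symm
    · have h1 := (hr2 (𝒟.arm l) l rfl).2
      have h2 : 𝒟.om k l = ((h (C.P hq (𝒟.om t l)) : V) - 𝒟.om (r (𝒟.arm l)) l) -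
          ∑ s ∈ Finset.univ.erase (𝒟.arm l), 𝒟.om (r s) l := by
        rw [homk]
        have := Finset.add_sum_erase Finset.univ (fun s => 𝒟.om (r s) l)
          (Finset.mem_univ (𝒟.arm l))
        rw [← this]
        abel
      show 𝒟.om k l ∈ _
      rw [h2]
      refine sub_mem h1 (Submodule.sum_mem _ fun s hs => (hr3 s l ?_).2)
      exact fun he => (Finset.mem_erase.mp hs).1 he.symm
  obtain ⟨a, b, hab⟩ := hK k hkK
  have hM := fun s => (hr1 s).core
  choose M hM1 hM2 hM3 using hM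
  have key : h = (∑ s, M s) + a • (1 : End L C.V1) + b • D := by
    apply ext_core hG C
    intro l
    have h1 : C.P hq (k l) = h (C.P hq (t l)) - ∑ s, M s (C.P hq (t l)) := by
      show C.P hq ((h (C.P hq (t l)) : V) - ∑ s, r s l) = _
      rw [map_sub, C.P_coe, map_sum]
      congr 1
      exact Finset.sum_congr rfl fun s _ => hM3 s l
    have h2 : C.P hq (k l) = a • C.P hq (t l) + b • D (C.P hq (t l)) := by
      rw [hab, Pi.add_apply, Pi.smul_apply, Pi.smul_apply, map_add, map_smul, map_smul, hD]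
    rw [LinearMap.add_apply, LinearMap.add_apply, LinearMap.sum_apply, LinearMap.smul_apply,
      LinearMap.smul_apply, Module.End.one_apply, add_assoc, ← h2, h1]
    abel
  rw [key]
  intro u v
  simp only [LinearMap.add_apply, LinearMap.sum_apply, LinearMap.smul_apply, map_add, map_sum,
    map_smul, Module.End.one_apply]
  congr 1
  · congr 1
    exact Finset.sum_congr rfl fun s _ => hM1 s u v
  · rw [hDs]

end base

end Vale.Agent.P182.H578.U
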