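import Vale.Agent.P182.H578.F1Cfg
import Vale.Agent.P182.H922.Crit

/-!
# Block B5
-/

namespace Vale.Agent.P182.H578

open Vale.Agent.P182.H922

universe u v w

/-- **Block B5.** -/
theorem hypF1 (L : Type u) (J : Type w) [Field L] [Fintype J] [DecidableEq J] [IsAlgClosed L]
    [CharZero L] : HypF1.{u, v, w} L J := by
  intro V _ _ _ 𝒟 σ h x hx hn y hy l k
  exact F1_general h.good h.versal h.semi hx hy hn l k

end Vale.Agent.P182.H578
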