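import Vale.Agent.P182.H578.Restr
import Vale.Agent.P182.H922.DichoCfg

/-!
# F1 (general): strongly nilpotent elements of the kernel are orthogonal to the kernel
-/

namespace Vale.Agent.P182.H578

open Module Matrix Vale.Agent.P182.H533 Vale.Agent.P182.H922 Vale.Agent.P182.B1

variable {L V J : Type*} [Field L] [AddCommGroup V] [Module L V] [FiniteDimensional L V]
  [Fintype J] {𝒟 : Cfg L V J}

open Classical in
/-- semistability bounds the number of nonzero columns of an arm -/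
theorem card_of_semistable (hG : 𝒟.Good) (hS : 𝒟.Semistable) (s : Fin 3) :
    2 * (Finset.univ.filter fun l => 𝒟.C l ≠ ⊥ ∧ 𝒟.arm l = s).card ≤
      (Finset.univ.filter fun l => 𝒟.C l ≠ ⊥).card := by
  by_cases hne : ∃ l, 𝒟.C l ≠ ⊥ ∧ 𝒟.arm l = s
  swap
  · have : (Finset.univ.filter fun l => 𝒟.C l ≠ ⊥ ∧ 𝒟.arm l = s) = ∅ := by
      rw [Finset.filter_eq_empty_iff]
      intro l _ h
      exact hne ⟨l, h⟩
    rw [this, Finset.card_empty, mul_zero]
    exact Nat.zero_le _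
  obtain ⟨l0, hl0, hl0s⟩ := hne
  have hex : ∃ i, 𝒟.F s i ≠ ⊥ := ⟨𝒟.c l0, by rw [← hl0s]; exact hl0⟩
  let i0 := Nat.find hex
  have hi0 : 𝒟.F s i0 ≠ ⊥ := Nat.find_spec hex
  have hmin : ∀ i, i < i0 → 𝒟.F s i = ⊥ := fun i hi => not_not.1 (Nat.find_min hex hi)
  set S := 𝒟.F s i0 with hSdef
  have hd : 1 ≤ finrank L S := by
    rw [Nat.one_le_iff_ne_zero, Ne, Submodule.finrank_eq_zero]
    exact hi0
  have hθ := hS S (hG.iso s i0)
  have hbot : ∀ l, 𝒟.C l = ⊥ → 𝒟.th (𝒟.arm l) (𝒟.c l) S = 0 := by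
    intro l hl
    unfold Cfg.th
    have h1 : 𝒟.F (𝒟.arm l) (𝒟.c l) = ⊥ := hl
    have h2 : perp 𝒟.q (⊥ : Submodule L V) = ⊤ := by
      rw [eq_top_iff]
      intro v _ w hw
      rw [(Submodule.mem_bot L).1 hw, map_zero]
    rw [h1, h2, inf_bot_eq, inf_top_eq, finrank_bot]
    simp
  have hin : ∀ l, 𝒟.C l ≠ ⊥ → 𝒟.arm l = s → 𝒟.th (𝒟.arm l) (𝒟.c l) S = finrank L S := by
    intro l hl hls
    have h1 : i0 ≤ 𝒟.c l := by
      by_contra h
      apply hl
      show 𝒟.F (𝒟.arm l) (𝒟.c l) = ⊥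
      rw [hls]
      exact hmin _ (by omega)
    have h2 : S ≤ 𝒟.F (𝒟.arm l) (𝒟.c l) := by
      rw [hls]
      exact hG.mono s h1
    have h3 : S ≤ perp 𝒟.q (𝒟.F (𝒟.arm l) (𝒟.c l)) := h2.trans (hG.iso _ _)
    unfold Cfg.th
    rw [inf_eq_left.2 h2, inf_eq_left.2 h3]
    ring
  have hout : ∀ l, -(finrank L S : ℤ) ≤ 𝒟.th (𝒟.arm l) (𝒟.c l) S := by
    intro l
    unfold Cfg.th
    have : (0 : ℤ) ≤ finrank L (S ⊓ 𝒟.F (𝒟.arm l) (𝒟.c l) : Submodule L V) := by positivity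
    have : (0 : ℤ) ≤ finrank L (S ⊓ perp 𝒟.q (𝒟.F (𝒟.arm l) (𝒟.c l)) : Submodule L V) := by
      positivity
    linarith
  -- the sum
  set A := Finset.univ.filter fun l => 𝒟.C l ≠ ⊥ ∧ 𝒟.arm l = s with hA
  set N := Finset.univ.filter fun l => 𝒟.C l ≠ ⊥ with hN
  have hAN : A ⊆ N := by
    intro l hl
    rw [hA, Finset.mem_filter] at hl
    rw [hN, Finset.mem_filter]
    exact ⟨hl.1, hl.2.1⟩
  have e1 : 𝒟.theta S = ∑ l ∈ N, 𝒟.th (𝒟.arm l) (𝒟.c l) S := by
    unfold Cfg.theta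
    rw [hN, Finset.sum_filter]
    refine Finset.sum_congr rfl fun l _ => ?_
    by_cases h : 𝒟.C l ≠ ⊥
    · rw [if_pos h]
    · rw [if_neg h, hbot l (not_not.1 h)]
  have e2 : ∑ l ∈ A, 𝒟.th (𝒟.arm l) (𝒟.c l) S = A.card * finrank L S := by
    rw [Finset.sum_congr rfl fun l hl => hin l (Finset.mem_filter.1 hl).2.1
      (Finset.mem_filter.1 hl).2.2, Finset.sum_const, nsmul_eq_mul]
  have e3 : -((N.card - A.card : ℤ) * finrank L S) ≤
      ∑ l ∈ N \ A, 𝒟.th (𝒟.arm l) (𝒟.c l) S := by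
    have h1 : ∑ l ∈ N \ A, (-(finrank L S : ℤ)) ≤ ∑ l ∈ N \ A, 𝒟.th (𝒟.arm l) (𝒟.c l) S :=
      Finset.sum_le_sum fun l _ => hout l
    rw [Finset.sum_const, nsmul_eq_mul, Finset.card_sdiff_of_subset hAN,
      Nat.cast_sub (Finset.card_le_card hAN)] at h1
    linarith
  rw [← Finset.sum_sdiff hAN] at e1
  have h4 : (A.card : ℤ) * finrank L S ≤ (N.card - A.card) * finrank L S := by linarith
  have h5 : (0 : ℤ) < finrank L S := by exact_mod_cast hd
  have h6 := le_of_mul_le_mul_right h4 h5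
  omega

omit [FiniteDimensional L V] in
theorem vder_of_versal (hV : 𝒟.Versal) : VDer 𝒟.Ω := by
  intro η hη
  obtain ⟨n, -, hn⟩ := hV (fun _ => 0) (fun s u v => by simp) η hη
  exact ⟨n.d, n.leib, hn⟩

variable [DecidableEq J]

/-- **F1, general.** A strongly nilpotent element of the kernel is orthogonal to the kernel. -/
theorem F1_general [IsAlgClosed L] [CharZero L] (hG : 𝒟.Good) (hV : 𝒟.Versal)
    (hS : 𝒟.Semistable) {x y : J → V} (hx : x ∈ 𝒟.K) (hy : y ∈ 𝒟.K)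
    (hn : ∀ a : Fin 3 → L, IsNilpotent (lc (Res 𝒟 x) a)) (l k : J) : 𝒟.q (x l) (y k) = 0 := by
  classical
  have hK := kRelC hG hV
  have hX : Tt L x ∈ Tt L '' (𝒟.K : Set (J → V)) := ⟨x, hx, rfl⟩
  have hY : Tt L y ∈ Tt L '' (𝒟.K : Set (J → V)) := ⟨y, hy, rfl⟩
  have hg : ∀ l k, gram 𝒟.q (Tt L x) (Tt L y) l k = 𝒟.q (x l) (y k) := fun l k => by
    rw [gram_apply, Tt_single, Tt_single]
  have hsym : ∀ l k, 𝒟.q (x l) (y k) = 𝒟.q (x k) (y l) := by
    intro l k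
    have h1 := hK.F1 _ hX _ hY (Pi.single l 1) (Pi.single k 1)
    rw [Tt_single, Tt_single, Tt_single, Tt_single] at h1
    rw [h1, hG.form.symm]
  have hx0 : ∀ l, 𝒟.C l = ⊥ → x l = 0 := fun l h => by
    have := hx.1 l
    rw [h] at this
    exact this
  let c' : J → ℕ := fun l => if 𝒟.C l = ⊥ then 0 else 𝒟.c l
  have hc0 : ∀ l, 𝒟.c l = 0 → 𝒟.C l = ⊥ := fun l h => by
    show 𝒟.F (𝒟.arm l) (𝒟.c l) = ⊥
    rw [h, hG.zero]
  have hc' : ∀ l, 1 ≤ c' l ↔ 𝒟.C l ≠ ⊥ := by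
    intro l
    by_cases h : 𝒟.C l = ⊥
    · simp [c', h]
    · simp only [c', if_neg h, ne_eq, h, not_false_eq_true, iff_true]
      rw [Nat.one_le_iff_ne_zero]
      exact fun h' => h (hc0 l h')
  have hmain : gram 𝒟.q (Tt L x) (Tt L y) = 0 := by
    refine N1_general (arm := 𝒟.arm) (c := c') hG.skew (vder_of_versal hV) ?_ ?_ ?_ ?_ ?_ ?_
    · intro s
      have h1 := card_of_semistable hG hS s
      simp only [hc']
      exact h1
    · ext l k
      rw [Matrix.transpose_apply, hg, hg]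
      exact hsym k l
    · intro l k hlk
      rw [hg]
      have h1 : x l ∈ 𝒟.F (𝒟.arm l) (max (𝒟.c l) (𝒟.c k)) :=
        hG.mono _ (le_max_left _ _) (hx.1 l)
      have h2 : y k ∈ 𝒟.F (𝒟.arm l) (max (𝒟.c l) (𝒟.c k)) := by
        rw [hlk]
        exact hG.mono _ (le_max_right _ _) (hy.1 k)
      exact hG.iso _ _ h1 _ h2
    · intro l k hlk hc
      have h1 : (gram 𝒟.q (Tt L x) (Tt L y) * 𝒟.Ω) l k = - 𝒟.q (x l) (𝒟.om y k) := by
        rw [Matrix.mul_apply]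
        unfold Cfg.om
        rw [map_sum, ← Finset.sum_neg_distrib]
        refine Finset.sum_congr rfl fun j _ => ?_
        have := congrFun (congrFun hG.skew k) j
        rw [Matrix.transpose_apply, Matrix.neg_apply] at this
        rw [hg, map_smul, smul_eq_mul, this]
        ring
      rw [h1, neg_eq_zero]
      by_cases hl : 𝒟.C l = ⊥
      · rw [hx0 l hl, map_zero, LinearMap.zero_apply]
      · have h2 : 𝒟.c l ≤ 𝒟.c k := by
          have h3 : c' l = 𝒟.c l := if_neg hl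
          have h4 : c' k ≤ 𝒟.c k := by
            show (if 𝒟.C k = ⊥ then 0 else 𝒟.c k) ≤ 𝒟.c k
            split_ifs <;> omega
          omega
        have h5 : x l ∈ 𝒟.C k := by
          have := hG.mono (𝒟.arm l) h2 (hx.1 l)
          rw [hlk] at this
          exact this
        rw [hG.form.symm]
        exact hy.2 k _ h5
    · intro l k hl
      have : 𝒟.C l = ⊥ := by
        by_contra h
        have := (hc' l).2 h
        omega
      rw [hg, hx0 l this, map_zero, LinearMap.zero_apply]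
    · intro a
      exact nilp_of_rel hG.form hG.skew hK hX hY a (hn a)
  have := congrFun (congrFun hmain l) k
  rw [hg] at this
  exact this

end Vale.Agent.P182.H578
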