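import Vale.Agent.P182.H578.Swap
import Vale.Agent.P182.H430.Pair

/-!
Local analysis of connections, and the data of a versal self-dual bundle.
-/

namespace Vale.Agent.P182.H578

open LinearMap Submodule Module Vale.Agent.P182.H430

universe u

variable {k F P : Type*} [Field k] [Field F] [Algebra k F] {C : Curve k F P}
  {E : Type u} [AddCommGroup E] [Module F E] [Module k E] [IsScalarTower k F E]
  [FiniteDimensional F E]

/-- commutator of a connection with an operator -/
def commL {δ : Derivation ℤ F F} {D : E → E} (h : IsConn δ D) (T : E →ₗ[F] E) : E →ₗ[F] E where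
  toFun x := D (T x) - T (D x)
  map_add' x y := by
    rw [map_add, h.1, h.1, map_add]
    abel
  map_smul' f x := by
    rw [map_smul, h.2, h.2, map_add, map_smul, map_smul, RingHom.id_apply, smul_sub]
    abel

/-- difference of two connections -/
def diffL {δ : Derivation ℤ F F} {D D' : E → E} (h : IsConn δ D) (h' : IsConn δ D') :
    E →ₗ[F] E where
  toFun x := D x - D' x
  map_add' x y := by
    rw [h.1, h'.1]
    abel
  map_smul' f x := by
    rw [h.2, h'.2, RingHom.id_apply, smul_sub]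
    abel

/-- A family of derivations with integral connections at every place, such that every section of
`so ⊗ K` orthogonal to all Kodaira-Spencer classes vanishes. -/
structure Vers (N : Bun C E) (B : LinearMap.BilinForm F E) (κ : P → ℤ) (I : Type*) where
  δ : I → Derivation ℤ F F
  D : I → P → E → E
  conn : ∀ i p, IsConn (δ i) (D i p)
  comm : ∀ i p (c : ℤ), (c = 0 ∨ c = -κ p) → ∀ T ∈ ((N.hom N).ch p).L c,
    commL (conn i p) T ∈ ((N.hom N).ch p).L c
  vers : ∀ Y ∈ adj B (-1), (∀ p, Y ∈ ((N.hom N).ch p).L (-κ p)) →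
    (∀ i, ∃ D0 : E → E, ∃ h0 : IsConn (δ i) D0, IsMetric B (δ i) D0 ∧
      ∀ p, trace F E (Y * diffL (conn i p) h0) ∈ C.I κ p) → Y = 0

section loc

variable {N : Bun C E} {B : LinearMap.BilinForm F E} {fil : ℤ → Submodule F E} {p : P}

/-- nested level-preserving projections -/
theorem exists_projs (N : Bun C E) (p : P) (hf : Antitone fil) {M : ℕ} (hM : fil (-M) = ⊤) :
    ∃ e : ℕ → (E →ₗ[F] E), e 0 = 1 ∧ (∀ (n : ℕ) x, e n x ∈ fil (-M + n)) ∧
      (∀ n : ℕ, ∀ x ∈ fil (-M + n), e n x = x) ∧ (∀ n, e n ∈ ((N.hom N).ch p).L 0) ∧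
      ∀ n x, e (n + 1) (e n x) = e (n + 1) x := by
  choose q hq1 hq2 hq3 using fun n : ℕ => (N.ch p).exists_proj (fil (-M + n))
  let e : ℕ → (E →ₗ[F] E) := fun n => Nat.rec 1 (fun n f => q (n + 1) * f) n
  have e0 : e 0 = 1 := rfl
  have es : ∀ n, e (n + 1) = q (n + 1) * e n := fun n => rfl
  have key : ∀ n : ℕ, (∀ x, e n x ∈ fil (-M + n)) ∧ (∀ x ∈ fil (-M + n), e n x = x) ∧
      e n ∈ ((N.hom N).ch p).L 0 := by
    intro n
    induction n with
    | zero =>
      refine ⟨fun x => ?_, fun x _ => ?_, ?_⟩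
      · rw [show (-(M : ℤ) + ((0 : ℕ) : ℤ)) = -M by simp, hM]; trivial
      · rw [e0]; rfl
      · rw [e0]; exact LChain.id_mem _
    | succ n ih =>
      refine ⟨fun x => ?_, fun x hx => ?_, ?_⟩
      · rw [es]; exact hq1 _ _
      · rw [es, Module.End.mul_apply, ih.2.1 x (hf (by push_cast; omega) hx), hq2 _ x hx]
      · rw [es]
        have h1 : q (n + 1) ∈ ((N.hom N).ch p).L 0 := fun b x hx => by
          rw [add_zero]; exact hq3 _ b x hx
        have := LChain.comp_mem _ _ _ ih.2.2 h1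
        rwa [add_zero] at this
  refine ⟨e, e0, fun n => (key n).1, fun n => (key n).2.1, fun n => (key n).2.2, fun n x => ?_⟩
  rw [es, Module.End.mul_apply, Module.End.mul_apply, (key n).2.1 _ ((key n).1 x)]

/-- THE LOCAL LEMMA: a strictly triangular operator pairs integrally with the difference of a
local connection and a global connection preserving the filtration. -/
theorem trace_local {κ : ℤ} (hf : Antitone fil)
    (hb : ∃ M : ℕ, fil (-M) = ⊤ ∧ fil (M + 1) = ⊥) {δ : Derivation ℤ F F} {D D0 : E → E}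
    (hD : IsConn δ D) (h0 : IsConn δ D0) (hfil : ∀ i, ∀ x ∈ fil i, D0 x ∈ fil i)
    (hc : ∀ T ∈ ((N.hom N).ch p).L 0, commL hD T ∈ ((N.hom N).ch p).L 0)
    {y : E →ₗ[F] E} (hy : y ∈ Ef fil 1) (hyκ : y ∈ ((N.hom N).ch p).L κ) :
    trace F E (y * diffL hD h0) ∈ (C.pl p).M (C.per p) κ := by
  obtain ⟨M, hM1, hM2⟩ := hb
  obtain ⟨e, e0, er, ei, el, en⟩ := exists_projs N p hf hM1
  set Z := diffL hD h0 with hZ
  have hZx : ∀ x, Z x = D x - D0 x := fun x => rfl
  let ε : ℕ → (E →ₗ[F] E) := fun n => e n - e (n + 1)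
  have hεr : ∀ (n : ℕ) x, ε n x ∈ fil (-M + n) := fun n x => by
    show e n x - e (n + 1) x ∈ _
    exact Submodule.sub_mem _ (er n x) (hf (by push_cast; omega) (er (n + 1) x))
  have hεl : ∀ n, ε n ∈ ((N.hom N).ch p).L 0 := fun n => Submodule.sub_mem _ (el n) (el (n + 1))
  have hsum : ∑ n ∈ Finset.range (2 * M + 1), ε n = 1 := by
    rw [Finset.sum_range_sub', e0]
    have : e (2 * M + 1) = 0 := by
      apply LinearMap.ext
      intro x
      have h1 := er (2 * M + 1) x
      rw [show (-(M : ℤ) + ((2 * M + 1 : ℕ) : ℤ)) = M + 1 by push_cast; ring, hM2] at h1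
      exact h1
    rw [this, sub_zero]
  -- the integral part
  have hpart : ∀ n, (1 - e n) * Z * ε n = (1 - e n) * commL hD (ε n) := by
    intro n
    apply LinearMap.ext
    intro x
    have h1 : (1 - e n) (D0 (ε n x)) = 0 := by
      rw [LinearMap.sub_apply, Module.End.one_apply, ei n _ (hfil _ _ (hεr n x)), sub_self]
    have h2 : ∀ z, (1 - e n) (ε n z) = 0 := by
      intro z
      rw [LinearMap.sub_apply, Module.End.one_apply, ei n _ (hεr n z), sub_self]
    show (1 - e n) (Z (ε n x)) = (1 - e n) (D (ε n x) - ε n (D x))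
    rw [hZx, map_sub, map_sub, h1, h2]
  let Z' : E →ₗ[F] E := ∑ n ∈ Finset.range (2 * M + 1), (1 - e n) * Z * ε n
  have hZ' : Z' ∈ ((N.hom N).ch p).L 0 := by
    refine Submodule.sum_mem _ fun n _ => ?_
    rw [hpart]
    have h1 : (1 - e n) ∈ ((N.hom N).ch p).L 0 := Submodule.sub_mem _ (LChain.id_mem _) (el n)
    have := LChain.comp_mem _ _ _ (hc _ (hεl n)) h1
    rwa [add_zero] at this
  let G : E →ₗ[F] E := ∑ n ∈ Finset.range (2 * M + 1), e n * Z * ε n
  have hG : G ∈ Ef fil 0 := by
    refine Submodule.sum_mem _ fun n _ => ?_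
    intro i x hx
    rw [add_zero]
    rcases le_or_gt i (-(M : ℤ) + n) with hi | hi
    · exact hf hi (er n _)
    · have h1 : ε n x = 0 := by
        show e n x - e (n + 1) x = 0
        rw [ei n x (hf hi.le hx), ei (n + 1) x (hf (by push_cast; omega) hx), sub_self]
      show e n (Z (ε n x)) ∈ fil i
      rw [h1, map_zero, map_zero]
      exact Submodule.zero_mem _
  have hZG : Z = Z' + G := by
    have h1 : Z = ∑ n ∈ Finset.range (2 * M + 1), Z * ε n := by
      rw [← Finset.mul_sum, hsum, mul_one]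
    conv_lhs => rw [h1]
    rw [← Finset.sum_add_distrib]
    refine Finset.sum_congr rfl fun n _ => ?_
    rw [← add_mul, ← add_mul, sub_add_cancel, one_mul]
  rw [hZG, mul_add, map_add]
  have h3 : trace F E (y * G) = 0 := by
    have := Ef_mul hy hG
    exact trace_Ef hf ⟨M, hM1, hM2⟩ (a := 1 + 0) (by omega) this
  rw [h3, add_zero]
  refine trace_mem (N.ch p) ?_
  have := LChain.comp_mem _ _ _ hZ' hyκ
  rwa [zero_add] at this

end loc

end Vale.Agent.P182.H578
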