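import Vale.Agent.P182.H578.N1
import Vale.Agent.P182.H62.Adams2

/-!
The theorem on nilpotent self-adjoint Higgs fields, in the form of vanishing of cohomology.
-/

namespace Vale.Agent.P182.H578

open LinearMap Submodule Module Vale.Agent.P182.H430

universe u

variable {k F P : Type*} [Field k] [Field F] [Algebra k F] {C : Curve k F P}
  {E : Type u} [AddCommGroup E] [Module F E] [Module k E] [IsScalarTower k F E]
  [FiniteDimensional F E] {N : Bun C E} {B : LinearMap.BilinForm F E}

section chiF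

variable {Q : Type u} [AddCommGroup Q] [Module F Q] [Module k Q] [IsScalarTower k F Q]
  [FiniteDimensional F Q]

/-- comparison of the two models of bilinear forms -/
def toFrm (F : Type*) [Field F] (Q : Type*) [AddCommGroup Q] [Module F Q] (ε : F) :
    formsE F Q ε ≃ₗ[F] fm F Q ε where
  toFun A := ⟨(LinearMap.mk₂ F (fun y x => (A : Q →ₗ[F] Du F Q) x y)
    (fun _ _ _ => Du.map_add _ _ _) (fun _ _ _ => Du.map_smul _ _ _)
    (fun y x x' => by rw [map_add]; rfl) (fun c y x => by rw [map_smul]; rfl) :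
    Q →ₗ[F] Q →ₗ[F] F), fun x y => A.2 x y⟩
  map_add' A A' := by
    apply Subtype.ext
    apply Frm.ext'
    intro x y
    rfl
  map_smul' c A := by
    apply Subtype.ext
    apply Frm.ext'
    intro x y
    rfl
  invFun β := ⟨
    { toFun := fun x => Du.equiv.symm (β.1.toL.flip x)
      map_add' := fun x x' => by rw [map_add]; rfl
      map_smul' := fun c x => by rw [map_smul]; rfl }, fun x y => β.2 x y⟩
  left_inv A := rfl
  right_inv β := rfl

omit [FiniteDimensional F Q] in
theorem toFrm_apply (ε : F) (A : formsE F Q ε) (x y : Q) :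
    (toFrm F Q ε A).1.ap x y = (A : Q →ₗ[F] Du F Q) y x := rfl

theorem chi_frm (M : Bun C Q) (ε : F) : chi ((frm M).sub (fm F Q ε)).lat = M.chiF ε := by
  refine ((M.bl.sub (formsE F Q ε)).chi_eq_of_equiv ((frm M).sub (fm F Q ε))
    (toFrm F Q ε) ?_).1.symm
  intro p A
  show (A : Q →ₗ[F] Du F Q) ∈ M.bl.lat p ↔ (toFrm F Q ε A).1 ∈ (frm M).lat p
  rw [Bun.mem_bl_lat]
  have h1 : (toFrm F Q ε A).1 ∈ (frm M).lat p ↔ ∀ a x, x ∈ (M.ch p).L a →
      ∀ b y, y ∈ (M.ch p).L b → (toFrm F Q ε A).1.ap x y ∈ (C.pl p).M (C.per p) (a + b) := by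
    have := (M.ch p).mem_bil (c := 0) (B := (toFrm F Q ε A).1.toL)
    simp only [add_zero] at this
    exact this
  rw [h1]
  constructor
  · intro h a x hx b y hy
    have := h b y hy a x hx
    rwa [add_comm] at this
  · intro h a x hx b y hy
    have := h b y hy a x hx
    rwa [add_comm] at this

end chiF

section shift

variable {θ : P → ℤ}

theorem mem_hom_twist (hθ : {p | θ p ≠ 0}.Finite) (p : P) (c : ℤ) (T : E →ₗ[F] E) :
    T ∈ (((N.twist θ hθ).hom (N.twist θ hθ)).ch p).L c ↔ T ∈ ((N.hom N).ch p).L c := by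
  constructor
  · intro h b x hx
    have h1 := h (b + θ p) x (by
      show x ∈ (N.ch p).L (b + θ p + -θ p)
      rwa [add_neg_cancel_right])
    have h2 : T x ∈ (N.ch p).L (b + θ p + c + -θ p) := h1
    rwa [show b + θ p + c + -θ p = b + c by ring] at h2
  · intro h b x hx
    show T x ∈ (N.ch p).L (b + c + -θ p)
    have h1 := h (b + -θ p) x hx
    rwa [show b + -θ p + c = b + c + -θ p by ring] at h1

omit [IsScalarTower k F E] [FiniteDimensional F E] in
/-- the twist of a `κ`-self-dual bundle by a theta characteristic is self-dual -/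
theorem selfDual_twist (hθ : {p | θ p ≠ 0}.Finite)
    (hs : ∀ p a x, x ∈ (N.ch p).L a ↔ ∀ c y, y ∈ (N.ch p).L c →
      B x y ∈ (C.pl p).M (C.per p) (a + c + 2 * θ p)) : SelfDual (N.twist θ hθ) B := by
  intro p a x
  show x ∈ (N.ch p).L (a + -θ p) ↔ ∀ b y, y ∈ (N.ch p).L (b + -θ p) →
    B x y ∈ (C.pl p).M (C.per p) (a + b)
  rw [hs]
  constructor
  · intro h b y hy
    have := h _ y hy
    rwa [show a + -θ p + (b + -θ p) + 2 * θ p = a + b by ring] at this
  · intro h c y hy
    have := h (c + θ p) y (by rwa [add_neg_cancel_right])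
    rwa [show a + (c + θ p) = a + -θ p + c + 2 * θ p by ring] at this

/-- transport of versality to the twist -/
def Vers.twist {κ : P → ℤ} {I : Type*} (V : Vers N B κ I) (hθ : {p | θ p ≠ 0}.Finite) :
    Vers (N.twist θ hθ) B κ I where
  δ := V.δ
  D := V.D
  conn := V.conn
  comm i p c hc T hT := by
    rw [mem_hom_twist] at hT ⊢
    exact V.comm i p c hc T hT
  vers Y hY hp h := by
    refine V.vers Y hY (fun p => ?_) h
    have := hp p
    rwa [mem_hom_twist] at this

/-- vanishing of `H¹` of a twist -/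
theorem h1_twist_eq_zero {κ : P → ℤ} (hκ : Dualizing C κ) {n : P → ℤ}
    (hn : {p | n p ≠ 0}.Finite)
    (h : ∀ φ : E →ₗ[F] F, (∀ p a x, x ∈ (N.ch p).L a →
      φ x ∈ (C.pl p).M (C.per p) (a + n p - κ p)) → φ = 0) :
    Vale.Agent.P182.H430.h1 (N.twist n hn).lat = 0 := by
  rw [← ((N.twist n hn).serre hκ).1]
  unfold h0
  have hbot : HZ ((N.twist n hn).dl κ) = ⊥ := by
    rw [eq_bot_iff]
    intro φ hφ
    rw [Submodule.mem_bot]
    apply h φ
    intro p a x hx
    have h1 := mem_HZ.1 hφ p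
    have h2 : φ ∈ ((N.twist n hn).ch p).dual.L (-κ p) := by
      rw [mem_dual_iff _ (hκ.cong p)]
      exact h1
    have h3 := h2 (a + n p) x (by
      show x ∈ (N.ch p).L (a + n p + -n p)
      rwa [add_neg_cancel_right])
    exact h3
  rw [hbot]
  exact finrank_bot k _

/-- self-dual bundles: duals of subbundles are quotients -/
theorem chi_du_sub_nonneg {M : Bun C E} (hnd : ∀ x, (∀ y, B x y = 0) → x = 0) (Q : Submodule F E)
    {n : P → ℤ} (hn : {p | n p ≠ 0}.Finite)
    (hs : ∀ p a x, x ∈ (M.ch p).L a → ∀ b y, y ∈ (M.ch p).L b →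
      B x y ∈ (C.pl p).M (C.per p) (a + b))
    (h : Vale.Agent.P182.H430.h1 (M.twist n hn).lat = 0) :
    0 ≤ chi ((M.sub Q).du.twist n hn).lat := by
  let g : E →ₗ[F] Du F Q :=
    { toFun := fun x => Du.equiv.symm ((B x) ∘ₗ Q.subtype)
      map_add' := fun x y => by
        ext z
        show B (x + y) z = B x z + B y z
        rw [map_add, LinearMap.add_apply]
      map_smul' := fun c x => by
        ext z
        show B (c • x) z = c * B x z
        rw [map_smul, LinearMap.smul_apply, smul_eq_mul] }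
  have hg : ∀ x (z : Q), g x z = B x z := fun x z => rfl
  have hinj : Function.Injective B := by
    rw [injective_iff_map_eq_zero]
    intro x hx
    exact hnd x fun y => by rw [hx]; rfl
  have hd : Module.finrank F E = Module.finrank F (E →ₗ[F] F) :=
    (Subspace.dual_finrank_eq (K := F) (V := E)).symm
  have hsurj : Function.Surjective g := by
    intro φ
    obtain ⟨ψ, hψ⟩ := LinearMap.exists_extend (Du.equiv φ)
    obtain ⟨x, rfl⟩ := (LinearMap.injective_iff_surjective_of_finrank_eq_finrank hd).1 hinj ψ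
    refine ⟨x, ?_⟩
    ext z
    rw [hg]
    exact LinearMap.congr_fun hψ z
  have hm : Maps (g.restrictScalars k) (M.twist n hn).lat ((M.sub Q).du.twist n hn).lat := by
    intro p x hx
    have hx' := (M.mem_twist_lat n hn p x).1 hx
    refine ((M.sub Q).du.mem_twist_lat n hn p _).2 ?_
    intro a z hz
    have := hs p _ x hx' a z hz
    rwa [add_comm] at this
  have h1 := h1_le_of_surjective (M.twist n hn).finCoh (g.restrictScalars k) hm hsurj
  unfold chi
  omega

end shift

/-- THEOREM N1': a versal bundle with a nondegenerate symmetric form `N ⊗ N → K⁻¹` such that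
`H⁰(N*) = 0 = H¹(N θ)` has no nonzero nilpotent self-adjoint Higgs field. -/
theorem no_nilpotent' {I : Type*} {θ : P → ℤ} (hθ : Theta C θ) (h2 : (2 : F) ≠ 0)
    (h2k : ((2 : k)⁻¹ * 2 : k) = 1)
    (hs : ∀ p a x, x ∈ (N.ch p).L a ↔ ∀ c y, y ∈ (N.ch p).L c →
      B x y ∈ (C.pl p).M (C.per p) (a + c + 2 * θ p))
    (hB : ∀ x y, B x y = B y x) (hnd : ∀ x, (∀ y, B x y = 0) → x = 0)
    (V : Vers N B (fun p => 2 * θ p) I)
    (hN0 : ∀ φ : E →ₗ[F] F, (∀ p a x, x ∈ (N.ch p).L a →
      φ x ∈ (C.pl p).M (C.per p) a) → φ = 0)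
    (hN1 : ∀ φ : E →ₗ[F] F, (∀ p a x, x ∈ (N.ch p).L a →
      φ x ∈ (C.pl p).M (C.per p) (a - θ p)) → φ = 0)
    {Θ : E →ₗ[F] E} (hΘ : ∀ x y, B (Θ x) y = B x (Θ y))
    (hΘp : ∀ p, Θ ∈ ((N.hom N).ch p).L (-(2 * θ p)))
    (hn : IsNilpotent Θ) : Θ = 0 := by
  have hsd := selfDual_twist (N := N) (B := B) hθ.fin hs
  refine no_nilpotent h2 h2k hθ.dualizing hsd hB hnd (V.twist hθ.fin) ?_ hΘ ?_ hn
  · intro Q
    rw [chi_frm, chi_frm]
    have h := ((N.twist θ hθ.fin).sub Q).adams hθ h2
    have h00 : {p : P | (0 : P → ℤ) p ≠ 0}.Finite := by simp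
    have hz : Vale.Agent.P182.H430.h1 (N.twist θ hθ.fin).lat = 0 := by
      refine h1_twist_eq_zero hθ.dualizing hθ.fin fun φ hφ => hN1 φ fun p a x hx => ?_
      have := hφ p a x hx
      rwa [show a + θ p - 2 * θ p = a - θ p by ring] at this
    have hz' : Vale.Agent.P182.H430.h1 ((N.twist θ hθ.fin).twist θ hθ.fin).lat = 0 := by
      refine h1_twist_eq_zero hθ.dualizing hθ.fin fun φ hφ => hN0 φ fun p a x hx => ?_
      have := hφ p (a + θ p) x (by
        show x ∈ (N.ch p).L (a + θ p + -θ p)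
        rwa [add_neg_cancel_right])
      rwa [show a + θ p + θ p - 2 * θ p = a by ring] at this
    have e1 := chi_du_sub_nonneg (M := N.twist θ hθ.fin) hnd Q hθ.fin
      (fun p a x hx => (hsd p a x).1 hx) hz'
    have hz0 : Vale.Agent.P182.H430.h1 ((N.twist θ hθ.fin).twist 0 h00).lat = 0 := by
      have e : ((N.twist θ hθ.fin).twist 0 h00).lat = (N.twist θ hθ.fin).lat := by
        funext p
        ext x
        rw [Bun.mem_twist_lat]
        simp [Bun.lat]
      rw [e]
      exact hz
    have e2 := chi_du_sub_nonneg (M := N.twist θ hθ.fin) hnd Q h00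
      (fun p a x hx => (hsd p a x).1 hx) hz0
    have e3 : (((N.twist θ hθ.fin).sub Q).du.twist 0 h00).lat =
        ((N.twist θ hθ.fin).sub Q).du.lat := by
      funext p
      ext x
      rw [Bun.mem_twist_lat]
      simp [Bun.lat]
    rw [e3] at e2
    linarith
  · intro p
    rw [mem_hom_twist]
    exact hΘp p

end Vale.Agent.P182.H578
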