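import Vale.Agent.P182.H578.Loc

/-!
A versal self-dual bundle has no nilpotent self-adjoint Higgs field.
-/

namespace Vale.Agent.P182.H578

open LinearMap Submodule Module Vale.Agent.P182.H430

universe u

variable {k F P : Type*} [Field k] [Field F] [Algebra k F] {C : Curve k F P}
  {E : Type u} [AddCommGroup E] [Module F E] [Module k E] [IsScalarTower k F E]
  [FiniteDimensional F E] {N : Bun C E} {B : LinearMap.BilinForm F E}
  {fil : ℤ → Submodule F E} {Θ : E →ₗ[F] E}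

/-- the trace pairing -/
noncomputable def mu (F E : Type*) [Field F] [AddCommGroup E] [Module F E] :
    (E →ₗ[F] E) →ₗ[F] (E →ₗ[F] E) →ₗ[F] F :=
  LinearMap.mk₂ F (fun Y T => trace F E (Y * T))
    (fun a b c => by rw [add_mul, map_add])
    (fun c a b => by rw [smul_mul_assoc, map_smul])
    (fun a b c => by rw [mul_add, map_add])
    (fun c a b => by rw [mul_smul_comm, map_smul])

omit [Module k E] [IsScalarTower k F E] [FiniteDimensional F E] in
theorem mu_apply (Y T : E →ₗ[F] E) : mu F E Y T = trace F E (Y * T) := rfl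

/-- `ad Θ` -/
def adT (Θ : E →ₗ[F] E) : (E →ₗ[F] E) →ₗ[F] (E →ₗ[F] E) where
  toFun s := Θ * s - s * Θ
  map_add' s t := by
    rw [mul_add, add_mul]
    abel
  map_smul' c s := by
    rw [mul_smul_comm, smul_mul_assoc, RingHom.id_apply, smul_sub]

omit [Module k E] [IsScalarTower k F E] [FiniteDimensional F E] in
theorem adT_apply (s : E →ₗ[F] E) : adT Θ s = Θ * s - s * Θ := rfl

omit [Module k E] [IsScalarTower k F E] in
/-- nondegeneracy of the trace on `ε`-adjoint operators -/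
theorem eq_zero_of_trace (h2 : (2 : F) ≠ 0) {ε : F} (hε : ε * ε = 1)
    (hB : ∀ x y, B x y = B y x) (hnd : ∀ x, (∀ y, B x y = 0) → x = 0) {Y : E →ₗ[F] E}
    (hY : Y ∈ adj B ε) (h : ∀ T ∈ adj B ε, trace F E (Y * T) = 0) : Y = 0 := by
  apply LinearMap.ext
  intro x
  apply hnd
  intro y
  have h3 := h _ (elem_mem hε hB x y)
  rw [trace_elem_adj hε hB hY] at h3
  rcases mul_eq_zero.1 h3 with h | h
  · exact absurd h h2
  · exact h

omit [Module k E] [IsScalarTower k F E] in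
/-- every functional on the `ε`-adjoint operators is a trace -/
theorem exists_repr (h2 : (2 : F) ≠ 0) {ε : F} (hε : ε * ε = 1)
    (hB : ∀ x y, B x y = B y x) (hnd : ∀ x, (∀ y, B x y = 0) → x = 0)
    (ξ : Module.Dual F (adj B ε)) : ∃ Y : adj B ε, ∀ T, ξ T = trace F E ((Y : E →ₗ[F] E) * T) := by
  let f : adj B ε →ₗ[F] Module.Dual F (adj B ε) :=
    { toFun := fun Y => (mu F E Y) ∘ₗ (adj B ε).subtype
      map_add' := fun Y Z => by
        apply LinearMap.ext
        intro T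
        show mu F E (Y + Z : E →ₗ[F] E) T = mu F E Y T + mu F E Z T
        rw [map_add]
        rfl
      map_smul' := fun c Y => by
        apply LinearMap.ext
        intro T
        show mu F E (c • (Y : E →ₗ[F] E)) T = c • mu F E Y T
        rw [map_smul]
        rfl }
  have hf : Function.Injective f := by
    rw [injective_iff_map_eq_zero]
    intro Y hY
    apply Subtype.ext
    apply eq_zero_of_trace h2 hε hB hnd Y.2
    intro T hT
    exact LinearMap.congr_fun hY ⟨T, hT⟩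
  have hs : Function.Surjective f :=
    (LinearMap.injective_iff_surjective_of_finrank_eq_finrank
      (Subspace.dual_finrank_eq (K := F) (V := adj B ε)).symm).1 hf
  obtain ⟨Y, rfl⟩ := hs ξ
  exact ⟨Y, fun T => rfl⟩

/-- the skew part of an integral operator is integral -/
theorem exists_parts (h2k : ((2 : k)⁻¹ * 2 : k) = 1) (hs : SelfDual N B)
    (hB : ∀ x y, B x y = B y x) (hnd : ∀ x, (∀ y, B x y = 0) → x = 0) {p : P} {c : ℤ}
    {T : E →ₗ[F] E} (hT : T ∈ ((N.hom N).ch p).L c) :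
    ∃ S ∈ adj B 1, ∃ A ∈ adj B (-1), T = S + A ∧ S ∈ ((N.hom N).ch p).L c ∧
      A ∈ ((N.hom N).ch p).L c := by
  obtain ⟨T', hT'⟩ := exists_adj hnd T
  have hT'p := hs.adj_mem hT' hT
  have e : (algebraMap k F (2 : k)⁻¹) * 2 = 1 := by
    have := congrArg (algebraMap k F) h2k
    rwa [map_mul, map_one, map_ofNat] at this
  have hT'' : ∀ x y, B (T x) y = B x (T' y) := fun x y => by rw [hB, ← hT', hB]
  refine ⟨(2 : k)⁻¹ • (T + T'), ?_, (2 : k)⁻¹ • (T - T'), ?_, ?_, ?_, ?_⟩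
  · rw [← algebraMap_smul F]
    apply Submodule.smul_mem
    intro x y
    rw [LinearMap.add_apply, LinearMap.add_apply, map_add, map_add, LinearMap.add_apply, hT',
      hT'']
    ring
  · rw [← algebraMap_smul F]
    apply Submodule.smul_mem
    intro x y
    rw [LinearMap.sub_apply, LinearMap.sub_apply, map_sub, map_sub, LinearMap.sub_apply, hT',
      hT'']
    ring
  · rw [← smul_add]
    have h1 : T + T' + (T - T') = (2 : F) • T := by
      rw [two_smul]
      abel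
    rw [h1, ← algebraMap_smul F, smul_smul, e, one_smul]
  · exact Submodule.smul_mem _ _ (Submodule.add_mem _ hT hT'p)
  · exact Submodule.smul_mem _ _ (Submodule.sub_mem _ hT hT'p)

/-- an operator whose trace pairings with integral skew operators are integral -/
theorem mem_of_trace (h2 : (2 : F) ≠ 0) (h2k : ((2 : k)⁻¹ * 2 : k) = 1) (hs : SelfDual N B)
    (hB : ∀ x y, B x y = B y x) (hnd : ∀ x, (∀ y, B x y = 0) → x = 0) {p : P} {κ : ℤ}
    (hκ : κ % C.per p = C.per p - 1) {Y : E →ₗ[F] E} (hY : Y ∈ adj B (-1))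
    (h : ∀ T ∈ adj B (-1), T ∈ (N.hom N).lat p →
      trace F E (Y * T) ∈ (C.pl p).M (C.per p) (-κ)) : Y ∈ ((N.hom N).ch p).L (-κ) := by
  have h3 : mu F E Y ∈ ((N.hom N).ch p).dual.L (-κ) := by
    rw [mem_dual_iff _ hκ]
    intro T hT
    obtain ⟨S, hS, A, hA, hSA, -, hAp⟩ := exists_parts h2k hs hB hnd hT
    rw [hSA, map_add, mu_apply, mu_apply]
    have h4 : trace F E (Y * S) = 0 := by
      rw [trace_mul_comm]
      exact trace_adj_mul h2 hnd hS hY
    rw [h4, zero_add]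
    exact h A hA hAp
  show Y ∈ ((N.ch p).hom (N.ch p)).L (-κ)
  rw [mem_hom_iff_trace]
  intro a φ hφ
  exact h3 a φ hφ

section main

variable {κ : P → ℤ}

/-- the pairing of `s` with skew operators through `ad Θ` -/
noncomputable def bet (B : LinearMap.BilinForm F E) (Θ : E →ₗ[F] E)
    (S : Submodule F (adj B (-1))) : adj B 1 →ₗ[F] Module.Dual F S where
  toFun s := (mu F E (adT Θ s)) ∘ₗ ((adj B (-1)).subtype ∘ₗ S.subtype)
  map_add' s t := by
    apply LinearMap.ext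
    intro T
    show mu F E (adT Θ ((s : E →ₗ[F] E) + t)) _ = mu F E (adT Θ s) _ + mu F E (adT Θ t) _
    rw [map_add, map_add]
    rfl
  map_smul' c s := by
    apply LinearMap.ext
    intro T
    show mu F E (adT Θ (c • (s : E →ₗ[F] E))) _ = c • mu F E (adT Θ s) _
    rw [map_smul, map_smul]
    rfl

omit [Module k E] [IsScalarTower k F E] [FiniteDimensional F E] in
theorem bet_apply (S : Submodule F (adj B (-1))) (s : adj B 1) (T : S) :
    bet B Θ S s T = trace F E (adT Θ (s : E →ₗ[F] E) * (T : E →ₗ[F] E)) := rfl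

omit [Module k E] [IsScalarTower k F E] [FiniteDimensional F E] in
theorem adT_mem (hΘ : Θ ∈ adj B 1) {s : E →ₗ[F] E} (hs : s ∈ adj B 1) :
    adT Θ s ∈ adj B (-1) := by
  intro x y
  rw [adT_apply, LinearMap.sub_apply, LinearMap.sub_apply, map_sub, map_sub,
    LinearMap.sub_apply, Module.End.mul_apply, Module.End.mul_apply, Module.End.mul_apply,
    Module.End.mul_apply, hΘ, hs, hs, hΘ]
  ring

omit [FiniteDimensional F E] in
theorem adT_lat [FiniteDimensional F E] {p : P} {c d : ℤ} {s : E →ₗ[F] E}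
    (hΘ : Θ ∈ ((N.hom N).ch p).L c) (hs : s ∈ ((N.hom N).ch p).L d) :
    adT Θ s ∈ ((N.hom N).ch p).L (c + d) := by
  rw [adT_apply]
  refine Submodule.sub_mem _ ?_ ?_
  · have := LChain.comp_mem _ _ _ hs hΘ
    rwa [add_comm] at this
  · exact LChain.comp_mem _ _ _ hΘ hs

omit [Module k E] [IsScalarTower k F E] [FiniteDimensional F E] in
theorem adT_Ef {a b : ℤ} {s : E →ₗ[F] E} (hΘ : Θ ∈ Ef fil a) (hs : s ∈ Ef fil b) :
    adT Θ s ∈ Ef fil (a + b) := by
  rw [adT_apply]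
  refine Submodule.sub_mem _ (Ef_mul hΘ hs) ?_
  have := Ef_mul hs hΘ
  rwa [add_comm] at this

/-- THE MAIN INEQUALITY -/
theorem main_ineq {I : Type*} (h2 : (2 : F) ≠ 0) (h2k : ((2 : k)⁻¹ * 2 : k) = 1)
    (hκ : Dualizing C κ) (hs : SelfDual N B)
    (hB : ∀ x y, B x y = B y x) (hnd : ∀ x, (∀ y, B x y = 0) → x = 0)
    (V : Vers N B κ I) (hΘ : Θ ∈ adj B 1) (hΘp : ∀ p, Θ ∈ ((N.hom N).ch p).L (-κ p))
    (hΘ0 : Θ ≠ 0) (J : JM B Θ fil) {c : ℤ} (hc1 : -1 ≤ c) (hc : c ≤ 0) :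
    1 + (cs (N.hom N) (adj B 1) - cs (N.hom N) (adj B 1 ⊓ Ef fil (-1 - c))) ≤
      cs (N.hom N) (adj B (-1)) - cs (N.hom N) (adj B (-1) ⊓ Ef fil c) := by
  have e1 : (1 : F) * 1 = 1 := one_mul 1
  have e2 : (-1 : F) * (-1) = 1 := by ring
  rw [← cs_quo (N.hom N) (inf_le_left : adj B 1 ⊓ Ef fil (-1 - c) ≤ adj B 1),
    ← cs_quo (N.hom N) (inf_le_left : adj B (-1) ⊓ Ef fil c ≤ adj B (-1))]
  set 𝒜 := (N.hom N).sub (adj B (-1)) with h𝒜
  set 𝒮 := (N.hom N).sub (adj B 1) with h𝒮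
  set S : Submodule F (adj B (-1)) := (adj B (-1) ⊓ Ef fil c).comap (adj B (-1)).subtype with hS
  set S' : Submodule F (adj B 1) := (adj B 1 ⊓ Ef fil (-1 - c)).comap (adj B 1).subtype with hS'
  have hSm : ∀ T : adj B (-1), T ∈ S ↔ (T : E →ₗ[F] E) ∈ Ef fil c := fun T =>
    ⟨fun h => (Submodule.mem_inf.1 h).2, fun h => Submodule.mem_inf.2 ⟨T.2, h⟩⟩
  have hS'm : ∀ T : adj B 1, T ∈ S' ↔ (T : E →ₗ[F] E) ∈ Ef fil (-1 - c) := fun T =>
    ⟨fun h => (Submodule.mem_inf.1 h).2, fun h => Submodule.mem_inf.2 ⟨T.2, h⟩⟩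
  have htr0 : ∀ {a : ℤ} {T : E →ₗ[F] E}, 1 ≤ a → T ∈ Ef fil a → trace F E T = 0 :=
    fun ha hT => trace_Ef J.anti J.bdd ha hT
  -- the map `ζ`
  have hβ : S' ≤ LinearMap.ker (bet B Θ S) := by
    intro s hs'
    rw [LinearMap.mem_ker]
    apply LinearMap.ext
    intro T
    rw [bet_apply, LinearMap.zero_apply]
    have h1 := adT_Ef J.deg ((hS'm s).1 hs')
    have h3 := Ef_mul h1 ((hSm T.1).1 T.2)
    exact htr0 (by omega) h3
  let ζ : (adj B 1 ⧸ S') →ₗ[F] Module.Dual F S := S'.liftQ (bet B Θ S) hβ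
  have hζm : Maps (ζ.restrictScalars k) (𝒮.quo S').lat ((𝒜.sub S).dl κ) := by
    rintro p z ⟨s, hsp, rfl⟩ T hT
    show trace F E (adT Θ (s : E →ₗ[F] E) * (T : E →ₗ[F] E)) ∈ _
    refine trace_mem (N.ch p) ?_
    have h1 := adT_lat (hΘp p) (show (s : E →ₗ[F] E) ∈ ((N.hom N).ch p).L 0 from hsp)
    have h3 := LChain.comp_mem _ _ _
      (show (T : E →ₗ[F] E) ∈ ((N.hom N).ch p).L 0 from hT) h1
    rwa [add_zero, zero_add] at h3
  -- the two maps on sections
  have hfam := Bun.dl_famSES hκ.fin 𝒜 S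
  let a : HZ (𝒜.dl κ) →ₗ[k] HZ ((𝒜.sub S).dl κ) :=
    hzMap (S.subtype.dualMap.restrictScalars k) hfam.mapq
  let b : HZ (𝒮.quo S').lat →ₗ[k] HZ ((𝒜.sub S).dl κ) := hzMap (ζ.restrictScalars k) hζm
  have hinj : Function.Injective (LinearMap.coprod a b) := by
    rw [injective_iff_map_eq_zero]
    rintro ⟨ξ, z⟩ hξz
    rw [LinearMap.coprod_apply] at hξz
    obtain ⟨Y, hY⟩ := exists_repr h2 e2 hB hnd (ξ : Module.Dual F (adj B (-1)))
    obtain ⟨s, hsz⟩ := S'.mkQ_surjective (-(z : adj B 1 ⧸ S'))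
    have hrel : ∀ T : adj B (-1), (T : E →ₗ[F] E) ∈ Ef fil c →
        trace F E ((Y : E →ₗ[F] E) * T) = trace F E (adT Θ (s : E →ₗ[F] E) * T) := by
      intro T hT
      rw [← hY]
      have h1 := congrArg (fun w : HZ ((𝒜.sub S).dl κ) => (w : Module.Dual F S)
        ⟨T, (hSm T).2 hT⟩) hξz
      have h3 : (ξ : Module.Dual F (adj B (-1))) T + ζ z ⟨T, (hSm T).2 hT⟩ = 0 := h1
      have h4 : (z : adj B 1 ⧸ S') = -S'.mkQ s := by rw [hsz, neg_neg]
      rw [h4, map_neg, LinearMap.neg_apply, ← sub_eq_add_neg, sub_eq_zero] at h3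
      rw [h3]
      rfl
    -- `y = Y - [Θ, s]` is strictly triangular
    have hyadj : (Y : E →ₗ[F] E) - adT Θ (s : E →ₗ[F] E) ∈ adj B (-1) :=
      Submodule.sub_mem _ Y.2 (adT_mem hΘ s.2)
    have hy : (Y : E →ₗ[F] E) - adT Θ (s : E →ₗ[F] E) ∈ Ef fil (1 - c) := by
      refine mem_Ef_of_trace h2 e2 hB J.anti J.dual hyadj c ?_
      intro T hT hTc
      rw [sub_mul, map_sub, hrel ⟨T, hT⟩ hTc, sub_self]
    -- integrality of `Y`
    have hYp : ∀ p, (Y : E →ₗ[F] E) ∈ ((N.hom N).ch p).L (-κ p) := by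
      intro p
      refine mem_of_trace h2 h2k hs hB hnd (hκ.cong p) Y.2 ?_
      intro T hT hTp
      have := mem_HZ.1 ξ.2 p ⟨T, hT⟩ hTp
      rw [hY] at this
      exact this
    have hY0 : (Y : E →ₗ[F] E) = 0 := by
      refine V.vers Y Y.2 hYp fun i => ?_
      obtain ⟨D0, h0, hm0, hΘ0', hfil⟩ := J.conn (V.δ i)
      refine ⟨D0, h0, hm0, fun p => ?_⟩
      obtain ⟨sp0, hsp0, hspz0⟩ := mem_HZ.1 z.2 p
      obtain ⟨sp, rfl⟩ : ∃ sp : adj B 1, -sp = sp0 := ⟨-sp0, neg_neg _⟩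
      have hsp : (sp : E →ₗ[F] E) ∈ (N.hom N).lat p := by
        have := Submodule.neg_mem _ hsp0
        rwa [neg_neg] at this
      have hspz : S'.mkQ sp = -(z : adj B 1 ⧸ S') := by
        have h1 : S'.mkQ (-sp) = z := hspz0
        rw [← h1, map_neg, neg_neg]
      have hdiff : (s : E →ₗ[F] E) - sp ∈ Ef fil (-1 - c) := by
        have h1 : S'.mkQ s = S'.mkQ sp := by
          rw [hsz]
          exact hspz.symm
        exact (hS'm (s - sp)).1 ((Submodule.Quotient.eq S').1 h1)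
      have hyp : (Y : E →ₗ[F] E) - adT Θ (sp : E →ₗ[F] E) ∈ Ef fil 1 := by
        have h1 : (Y : E →ₗ[F] E) - adT Θ (sp : E →ₗ[F] E) =
            ((Y : E →ₗ[F] E) - adT Θ (s : E →ₗ[F] E)) + adT Θ ((s : E →ₗ[F] E) - sp) := by
          rw [map_sub]
          abel
        rw [h1]
        refine Submodule.add_mem _ (Ef_mono J.anti (by omega) hy) ?_
        exact Ef_mono J.anti (by omega) (adT_Ef J.deg hdiff)
      have hspL : (sp : E →ₗ[F] E) ∈ ((N.hom N).ch p).L 0 := hsp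
      have hadL : adT Θ (sp : E →ₗ[F] E) ∈ ((N.hom N).ch p).L (-κ p) := by
        have := adT_lat (hΘp p) hspL
        rwa [add_zero] at this
      have t1 := trace_local J.anti J.bdd (V.conn i p) h0 hfil
        (V.comm i p 0 (Or.inl rfl)) hyp (Submodule.sub_mem _ (hYp p) hadL)
      have t2 : trace F E (adT Θ (sp : E →ₗ[F] E) * diffL (V.conn i p) h0) ∈
          (C.pl p).M (C.per p) (-κ p) := by
        have h1 : trace F E (adT Θ (sp : E →ₗ[F] E) * diffL (V.conn i p) h0) =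
            trace F E ((sp : E →ₗ[F] E) * commL (V.conn i p) Θ) := by
          have h3 : commL (V.conn i p) Θ = diffL (V.conn i p) h0 * Θ -
              Θ * diffL (V.conn i p) h0 := by
            apply LinearMap.ext
            intro x
            show V.D i p (Θ x) - Θ (V.D i p x) = (V.D i p (Θ x) - D0 (Θ x)) -
              Θ (V.D i p x - D0 x)
            rw [hΘ0' x, map_sub]
            abel
          rw [h3, adT_apply, sub_mul, mul_sub, map_sub, map_sub, mul_assoc Θ,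
            trace_mul_comm F Θ, mul_assoc, mul_assoc]
        rw [h1]
        refine trace_mem (N.ch p) ?_
        have := LChain.comp_mem _ _ _ (V.comm i p _ (Or.inr rfl) Θ (hΘp p)) hspL
        rwa [add_zero] at this
      have h4 : (Y : E →ₗ[F] E) * diffL (V.conn i p) h0 =
          ((Y : E →ₗ[F] E) - adT Θ (sp : E →ₗ[F] E)) * diffL (V.conn i p) h0 +
          adT Θ (sp : E →ₗ[F] E) * diffL (V.conn i p) h0 := by
        rw [sub_mul, sub_add_cancel]
      rw [h4, map_add]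
      exact Submodule.add_mem _ t1 t2
    -- hence `ξ = 0` and `s` is in the filtration
    have hξ0 : ξ = 0 := by
      apply Subtype.ext
      apply LinearMap.ext
      intro T
      rw [hY, hY0, zero_mul, map_zero]
      rfl
    have hz0 : z = 0 := by
      apply Subtype.ext
      rw [← neg_neg (z : adj B 1 ⧸ S'), ← hsz]
      refine neg_eq_zero.2 ((Submodule.Quotient.mk_eq_zero S').2 ((hS'm s).2 ?_))
      rw [hY0, zero_sub] at hy
      have h1 : Θ * (s : E →ₗ[F] E) - (s : E →ₗ[F] E) * Θ ∈ Ef fil (-c + 1) := by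
        have := Submodule.neg_mem _ hy
        rw [neg_neg] at this
        rw [show -c + 1 = 1 - c by ring]
        exact this
      have := J.inj' (c := -c) (by omega) h1
      rwa [show -c - 1 = -1 - c by ring] at this
    rw [hξ0, hz0]
    rfl
  -- dimensions
  have i1 := (𝒜.finCoh_dl hκ).fin0
  have i2 := (𝒮.quo S').finCoh.fin0
  have i3 := ((𝒜.sub S).finCoh_dl hκ).fin0
  have d1 := LinearMap.finrank_le_finrank_of_injective hinj
  have f1 : Module.Free k (HZ (𝒜.dl κ)) := by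
    let _ := Module.addCommMonoidToAddCommGroup k (M := HZ (𝒜.dl κ))
    exact Module.Free.of_divisionRing k _
  have f2 : Module.Free k (HZ (𝒮.quo S').lat) := by
    let _ := Module.addCommMonoidToAddCommGroup k (M := HZ (𝒮.quo S').lat)
    exact Module.Free.of_divisionRing k _
  rw [Module.finrank_prod] at d1
  have d2 : h0 (𝒜.dl κ) + h0 (𝒮.quo S').lat ≤ h0 ((𝒜.sub S).dl κ) := d1
  rw [(𝒜.serre hκ).1, ((𝒜.sub S).serre hκ).1] at d2
  have d3 : h0 (𝒜.sub S).lat ≤ h0 𝒜.lat :=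
    h0_le_of_injective 𝒜.finCoh (g := S.subtype.restrictScalars k) (fun p x hx => hx)
      (fun x y h => S.injective_subtype h)
  have d4 := 𝒜.chi_add S
  -- the class of `Θ`
  have d5 : 1 ≤ Vale.Agent.P182.H430.h1 (𝒮.quo S').lat := by
    rw [← ((𝒮.quo S').serre hκ).1]
    have i4 := ((𝒮.quo S').finCoh_dl hκ).fin0
    let θ0 : adj B 1 →ₗ[F] F := (mu F E Θ) ∘ₗ (adj B 1).subtype
    have hθ0 : S' ≤ LinearMap.ker θ0 := by
      intro s hs'
      rw [LinearMap.mem_ker]
      show trace F E (Θ * (s : E →ₗ[F] E)) = 0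
      exact htr0 (by omega) (Ef_mul J.deg ((hS'm s).1 hs'))
    let θ1 : Module.Dual F (adj B 1 ⧸ S') := S'.liftQ θ0 hθ0
    have hθ1 : θ1 ∈ HZ ((𝒮.quo S').dl κ) := by
      rw [mem_HZ]
      rintro p z ⟨s, hsp, rfl⟩
      show trace F E (Θ * (s : E →ₗ[F] E)) ∈ _
      refine trace_mem (N.ch p) ?_
      have h3 := LChain.comp_mem _ _ _
        (show (s : E →ₗ[F] E) ∈ ((N.hom N).ch p).L 0 from hsp) (hΘp p)
      rwa [zero_add] at h3
    have hne : (⟨θ1, hθ1⟩ : HZ ((𝒮.quo S').dl κ)) ≠ 0 := by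
      intro h
      apply hΘ0
      refine eq_zero_of_trace h2 e1 hB hnd hΘ ?_
      intro T hT
      have h1 : θ1 = 0 := congrArg Subtype.val h
      have h3 := LinearMap.congr_fun h1 (S'.mkQ ⟨T, hT⟩)
      exact h3
    have : 0 < finrank k (HZ ((𝒮.quo S').dl κ)) := by
      let _ := Module.addCommMonoidToAddCommGroup k (M := HZ ((𝒮.quo S').dl κ))
      exact finrank_pos_iff_exists_ne_zero.2 ⟨_, hne⟩
    exact this
  unfold chi at *
  omega

/-- THEOREM N1: a versal self-dual bundle has no nonzero nilpotent self-adjoint Higgs field. -/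
theorem no_nilpotent {I : Type*} (h2 : (2 : F) ≠ 0) (h2k : ((2 : k)⁻¹ * 2 : k) = 1)
    (hκ : Dualizing C κ) (hs : SelfDual N B)
    (hB : ∀ x y, B x y = B y x) (hnd : ∀ x, (∀ y, B x y = 0) → x = 0)
    (V : Vers N B κ I)
    (hAd : ∀ Q : Submodule F E, chi ((frm (N.sub Q)).sub (fm F Q (-1))).lat ≤
      chi ((frm (N.sub Q)).sub (fm F Q 1)).lat)
    (hΘ : ∀ x y, B (Θ x) y = B x (Θ y)) (hΘp : ∀ p, Θ ∈ ((N.hom N).ch p).L (-κ p))
    (hn : IsNilpotent Θ) : Θ = 0 := by
  by_contra hΘ0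
  obtain ⟨fil, J⟩ := exists_JM h2 hB hnd hΘ hn
  have hΘ' : Θ ∈ adj B 1 := fun x y => by rw [one_mul, hΘ]
  have i1 := main_ineq h2 h2k hκ hs hB hnd V hΘ' hΘp hΘ0 J (c := 0) (by omega) le_rfl
  have i2 := main_ineq h2 h2k hκ hs hB hnd V hΘ' hΘp hΘ0 J (c := -1) le_rfl (by omega)
  have b1 := bracket hs hB hnd J.anti J.dual (c := 0) (by omega) le_rfl
  have b2 := bracket hs hB hnd J.anti J.dual (c := -1) le_rfl (by omega)
  have h3 := hAd (fil 1)
  norm_num at i1 i2
  linarith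

end main

end Vale.Agent.P182.H578
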