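import Vale.Agent.P182.H578.Der
import Vale.Agent.P182.H578.NullU1
import Vale.Agent.P182.H588.Ctx

/-!
# The null case: the derivation step in the common context

The same as `H578/Der.lean` for the part of the kernel killing a vector `u` of coefficients.
-/

namespace Vale.Agent.P182.H578.U

open Module Matrix Vale.Agent.P182.H533 Vale.Agent.P182.B1 Vale.Agent.P182.H922
  Vale.Agent.P182.H578 Vale.Agent.P182.H588

section honest

variable {L V J : Type*} [Field L] [AddCommGroup V] [Module L V] [FiniteDimensional L V]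
  [Fintype J] [DecidableEq J] {𝒟 : Cfg L V J} {t : J → V} {C : Core 𝒟.q (Res 𝒟 t)} {u σ : J → L}

omit [FiniteDimensional L V] in
/-- the mixed operators preserve the core -/
theorem opr_map_W (hG : 𝒟.Good) (hK : KRel 𝒟.arm 𝒟.q 𝒟.Ω (Tt L '' (Ku 𝒟 u : Set (J → V)))) (ht : t ∈ Ku 𝒟 u) {r r' : J → V} (hr : r ∈ Ku 𝒟 u)
    (hr' : r' ∈ Ku 𝒟 u) (a : Fin 3) : ∀ w ∈ C.W,
    opr 𝒟.q (Tt L r) (Gm 𝒟.arm 𝒟.Ω a) (Tt L r') w ∈ C.W := by
  have hX : Tt L t ∈ Tt L '' (Ku 𝒟 u : Set (J → V)) := ⟨t, ht, rfl⟩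
  have hY : Tt L r ∈ Tt L '' (Ku 𝒟 u : Set (J → V)) := ⟨r, hr, rfl⟩
  have hZ : Tt L r' ∈ Tt L '' (Ku 𝒟 u : Set (J → V)) := ⟨r', hr', rfl⟩
  have h1 := hK.compat hG.form hG.skew hX hY
  have h3 := hK.compat hG.form hG.skew hX hZ
  intro w hw
  rw [← C.hW] at hw
  refine Submodule.iSup_induction (fun s => C.W.map (Res 𝒟 t s))
    (motive := fun x => opr 𝒟.q (Tt L r) (Gm 𝒟.arm 𝒟.Ω a) (Tt L r') x ∈ C.W) hw ?_ ?_ ?_
  · rintro s _ ⟨v, hv, rfl⟩
    have e1 : opr 𝒟.q (Tt L r) (Gm 𝒟.arm 𝒟.Ω a) (Tt L r') (Res 𝒟 t s v) =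
        opr 𝒟.q (Tt L t) (Gm 𝒟.arm 𝒟.Ω a) (Tt L r)
          (opr 𝒟.q (Tt L t) (Gm 𝒟.arm 𝒟.Ω s) (Tt L r') v) := by
      show opr 𝒟.q (Tt L r) (Gm 𝒟.arm 𝒟.Ω a) (Tt L r')
        (opr 𝒟.q (Tt L t) (Gm 𝒟.arm 𝒟.Ω s) (Tt L t) v) = _
      rw [hK.comp hG.form hZ hX, hK.swap hG.form hG.skew hY hX, hK.swap hG.form hG.skew hZ hX]
    rw [e1]
    exact h1.map_W C a (h3.map_W C s hv)
  · rw [map_zero]; exact zero_mem _
  · intro x y hx hy
    rw [map_add]; exact add_mem hx hy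

omit [FiniteDimensional L V] in
theorem opr_map_perp (hG : 𝒟.Good) (hK : KRel 𝒟.arm 𝒟.q 𝒟.Ω (Tt L '' (Ku 𝒟 u : Set (J → V)))) (ht : t ∈ Ku 𝒟 u) {r r' : J → V} (hr : r ∈ Ku 𝒟 u)
    (hr' : r' ∈ Ku 𝒟 u) (a : Fin 3) : ∀ v ∈ perp 𝒟.q C.W,
    opr 𝒟.q (Tt L r) (Gm 𝒟.arm 𝒟.Ω a) (Tt L r') v ∈ perp 𝒟.q C.W := by
  intro v hv w hw
  rw [opr_adj' hG]
  exact hv _ (opr_map_W hG hK ht hr' hr a w hw)

/-- the orthogonal component of an element of the kernel -/
theorem nc_ZZ (hG : 𝒟.Good) (hK : KRel 𝒟.arm 𝒟.q 𝒟.Ω (Tt L '' (Ku 𝒟 u : Set (J → V)))) (hI : C.I = ⊥) (ht : t ∈ Ku 𝒟 u) {r : J → V}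
    (hr : r ∈ Ku 𝒟 u) : ZZ hG C (nc hG C r) where
  mem := nc_mem hG hI r
  off a v := by
    rw [P_opr_nc hG hI]
    exact C.P_eq_zero hG.form (opr_map_perp hG hK ht ht hr a _ (sub_mem_perp hG hI v))

omit [FiniteDimensional L V] in
/-- the realised variation of a kernel family -/
theorem conn_KU (hR : RealU 𝒟 u σ) {n : H533.Conn 𝒟.q} {X : Fin 3 → End L V}
    (hX : ∀ s, IsSk 𝒟.q (X s))
    (hn : ∀ s i, ∀ v ∈ 𝒟.F s i, n.δ v - X s v ∈ 𝒟.F s i) {t : J → V} (ht : t ∈ Ku 𝒟 u)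
    (hσ : ∀ l, ∑ k, n.d (𝒟.Ω l k) * σ k = 0)
    (hη : ∀ l, ∑ k, n.d (𝒟.Ω l k) • t k = X (𝒟.arm l) (𝒟.om t l) -
      ∑ k, 𝒟.Ω l k • X (𝒟.arm k) (t k)) :
    ∃ R ∈ Ku 𝒟 u, (∀ l, n.δ (t l) = X (𝒟.arm l) (t l) + R l) ∧
      ∀ l, n.δ (𝒟.om t l) = X (𝒟.arm l) (𝒟.om t l) + 𝒟.om R l := by
  obtain ⟨R, h1, h2, h3⟩ := conn_K hX hn ht.1 hη
  refine ⟨R, ⟨h1, ?_⟩, h2, h3⟩
  rw [SetLike.mem_coe, mem_Uu, ← hR.stab n X t hσ (mem_Uu.1 ht.2) hη]
  refine Finset.sum_congr rfl fun l _ => ?_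
  rw [h2, add_sub_cancel_left]

/-- **The skew matrix.** -/
theorem exists_eta_cfg (hG : 𝒟.Good) (hK : KRel 𝒟.arm 𝒟.q 𝒟.Ω (Tt L '' (Ku 𝒟 u : Set (J → V))))
    (hR : RealU 𝒟 u σ) (hI : C.I = ⊥) (ht : t ∈ Ku 𝒟 u) {r : J → V}
    (hr : r ∈ Ku 𝒟 u) {g g' : End L C.V1} (hg : IsSA C.q1 g) (hgg : g' * g = 1)
    (h : ∀ l, C.P hG.form (r l) = g (C.P hG.form (t l))) (s : Fin 3) {Y : End L C.V1}
    (hY : IsSk C.q1 Y)
    (hYS : Y * (g * C.S1 hG.form s * g) = g * C.S1 hG.form s * g * Y) :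
    ∃ η : Matrix J J L, ηᵀ = -η ∧ η *ᵥ σ = 0 ∧ (∀ z, ZZ hG C z → ∀ l, ∑ k, η l k • z k = 0) ∧
      ∀ l, ∑ k, η l k • r k =
        (if 𝒟.arm l = s then ext0 hG C Y else 0) (𝒟.om r l) -
          ∑ k, 𝒟.Ω l k • (if 𝒟.arm k = s then ext0 hG C Y else 0) (r k) := by
  have hq := hG.form
  have hq1 := C.isForm hq
  let ρ : C.V1 →ₗ[L] (J → L) := ad 𝒟.q (Tt L r) ∘ₗ C.V1.subtype
  have hρ : ∀ v, ρ v = ad 𝒟.q (Tt L r) (v : V) := fun v => rfl
  let φ : C.V1 →ₗ[L] (J → L) := - ((Gm 𝒟.arm 𝒟.Ω s).mulVecLin ∘ₗ ρ ∘ₗ Y)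
  have hφ : ∀ v, φ v = - (Gm 𝒟.arm 𝒟.Ω s *ᵥ ad 𝒟.q (Tt L r) (Y v : V)) := fun v => rfl
  let U : Submodule L (J → L) :=
    Submodule.span L ({τ | ∃ z, ZZ hG C z ∧ ∃ w, τ = ad 𝒟.q (Tt L z) w} ∪ {σ})
  have hSP : ∀ v : C.V1, C.P hq (Res 𝒟 r s v) = g (C.S1 hq s (g v)) := P_Res hG hg h s
  have hinj : ∀ v, ρ v ∈ U → v = 0 := by
    intro v hv
    have h1 : ∀ a, ∀ σ ∈ U, C.P hq (Tt L t (Gm 𝒟.arm 𝒟.Ω a *ᵥ σ)) = 0 := by
      intro a σ hσ
      refine Submodule.span_induction (p := fun σ _ =>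
        C.P hq (Tt L t (Gm 𝒟.arm 𝒟.Ω a *ᵥ σ)) = 0) ?_ ?_ ?_ ?_ hσ
      · rintro _ (⟨z, hz, w, rfl⟩ | rfl)
        · exact hz.off a w
        · obtain ⟨c, hc⟩ := hR.gm a
          have h0 : Tt L t u = 0 := by rw [Tt_apply]; exact mem_Uu.1 ht.2
          rw [hc, map_smul, h0, smul_zero, map_zero]
      · rw [Matrix.mulVec_zero, map_zero, map_zero]
      · intro x y _ _ hx hy
        rw [Matrix.mulVec_add, map_add, map_add, hx, hy, add_zero]
      · intro c x _ hx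
        rw [Matrix.mulVec_smul, map_smul, map_smul, hx, smul_zero]
    have h3 : ∀ a, C.S1 hq a (g v) = 0 := by
      intro a
      rw [← P_opr_right hG hg h a v]
      exact h1 a _ hv
    have h4 : g v ∈ ⨅ a, LinearMap.ker (C.S1 hq a) := by
      rw [Submodule.mem_iInf]
      exact fun a => LinearMap.mem_ker.2 (h3 a)
    rw [C.iInf_ker hq (Sop_SA 𝒟.arm hq (Tt L t) hG.skew), Submodule.mem_bot] at h4
    have h5 := LinearMap.congr_fun hgg v
    rw [Module.End.mul_apply, h4, map_zero] at h5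
    exact h5.symm
  have hsk : ∀ v w, ρ v ⬝ᵥ φ w = - (ρ w ⬝ᵥ φ v) := by
    have h1 : ∀ v w, ρ v ⬝ᵥ φ w = - C.q1 ((g * C.S1 hq s * g * Y) w) v := by
      intro v w
      rw [hφ, dotProduct_neg, dotProduct_comm, hρ, ← q_T]
      congr 1
      have h3 := hSP (Y w)
      rw [← C.q_P hq]
      exact congrArg (fun x => C.q1 x v) h3
    have hSS : IsSA C.q1 (g * C.S1 hq s * g) := by
      intro u v
      rw [Module.End.mul_apply, Module.End.mul_apply, Module.End.mul_apply, Module.End.mul_apply,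
        hg, C.S1_SA hq (Sop_SA 𝒟.arm hq (Tt L t) hG.skew), hg]
    have gen : ∀ B : End L C.V1, IsSA C.q1 B → Y * B = B * Y → ∀ v w,
        - C.q1 ((B * Y) w) v = C.q1 ((B * Y) v) w := by
      intro B hB hYB v w
      have e1 : C.q1 ((B * Y) w) v = C.q1 (Y w) (B v) := by rw [Module.End.mul_apply, hB]
      have e2 : C.q1 (Y w) (B v) = - C.q1 w ((Y * B) v) := by rw [hY, Module.End.mul_apply]
      rw [e1, e2, hYB, neg_neg, hq1.symm]
    intro v w
    rw [h1, h1, neg_neg]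
    exact gen _ hSS hYS v w
  have hU : ∀ σ ∈ U, ∀ v, σ ⬝ᵥ φ v = 0 := by
    intro σ hσ v
    refine Submodule.span_induction (p := fun σ _ => σ ⬝ᵥ φ v = 0) ?_ ?_ ?_ ?_ hσ
    · rintro _ (⟨z, hz, w, rfl⟩ | rfl)
      swap
      · obtain ⟨c, hc⟩ := hR.gm s
        have h0 : Tt L r u = 0 := by rw [Tt_apply]; exact mem_Uu.1 hr.2
        rw [hφ, dotProduct_neg, dotProduct_mulVec, ← Matrix.mulVec_transpose,
          Gm_transpose 𝒟.arm hG.skew, hc, smul_dotProduct, ← q_T, h0, map_zero,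
          LinearMap.zero_apply, smul_zero, neg_zero]
      rw [hφ, dotProduct_neg, dotProduct_comm, ← q_T]
      have h1 : 𝒟.q (opr 𝒟.q (Tt L z) (Gm 𝒟.arm 𝒟.Ω s) (Tt L r) (Y v)) w = 0 := by
        rw [opr_adj' hG, hq.symm, ← C.q_P hq, P_opr_left hG h, hz.off, map_zero, map_zero,
          LinearMap.zero_apply]
      rw [neg_eq_zero]
      exact h1
    · rw [zero_dotProduct]
    · intro x y _ _ hx hy
      rw [add_dotProduct, hx, hy, add_zero]
    · intro c x _ hx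
      rw [smul_dotProduct, hx, smul_zero]
  obtain ⟨η, hη, hη1, hη2⟩ := exists_eta ρ φ U hinj hsk hU
  refine ⟨η, hη, hη2 _ (Submodule.subset_span (Or.inr rfl)), ?_, ?_⟩
  · intro z hz l
    apply hq.nondeg
    intro w
    have h1 := congrFun (hη2 _ (Submodule.subset_span (Or.inl ⟨z, hz, w, rfl⟩))) l
    rw [Matrix.mulVec, dotProduct] at h1
    rw [map_sum, LinearMap.sum_apply]
    refine Eq.trans (Finset.sum_congr rfl fun k _ => ?_) h1
    rw [ad_apply, Tt_single, map_smul, LinearMap.smul_apply, smul_eq_mul]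
  · intro l
    apply hq.ext
    intro w
    have hz0 := nc_ZZ hG hK hI ht hr
    have e1 : ad 𝒟.q (Tt L r) w = ρ (C.P hq w) + ad 𝒟.q (Tt L (nc hG C r)) w := by
      funext k
      have e0 : 𝒟.q (r k) (C.P hq w) = 𝒟.q (C.P hq (r k)) w := by
        rw [← C.q_P hq (r k), hq1.symm, C.q_P hq w, hq.symm w]
      rw [Pi.add_apply, hρ, ad_apply, ad_apply, ad_apply, Tt_single, Tt_single, nc, map_sub,
        LinearMap.sub_apply, e0]
      ring
    have e2 : η *ᵥ ad 𝒟.q (Tt L r) w = φ (C.P hq w) := by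
      rw [e1, Matrix.mulVec_add, hη1, hη2 _ (Submodule.subset_span (Or.inl ⟨_, hz0, w, rfl⟩)), add_zero]
    have e3 := congrFun e2 l
    have e4 : 𝒟.q (∑ k, η l k • r k) w = (η *ᵥ ad 𝒟.q (Tt L r) w) l := by
      rw [Matrix.mulVec, dotProduct, map_sum, LinearMap.sum_apply]
      refine Finset.sum_congr rfl fun k _ => ?_
      rw [ad_apply, Tt_single, map_smul, LinearMap.smul_apply, smul_eq_mul]
    have e5 : ∀ k, ad 𝒟.q (Tt L r) (Y (C.P hq w) : V) k = - 𝒟.q (ext0 hG C Y (r k)) w := by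
      intro k
      rw [ad_apply, Tt_single, ext0_sk hG hY, neg_neg]
      rfl
    rw [e4, e3, hφ, Pi.neg_apply, Matrix.mulVec, dotProduct, map_sub, map_sum,
      LinearMap.sub_apply, LinearMap.sum_apply]
    have e6 : 𝒟.q ((if 𝒟.arm l = s then ext0 hG C Y else 0) (𝒟.om r l)) w =
        ∑ k, if 𝒟.arm l = s then 𝒟.Ω l k * 𝒟.q (ext0 hG C Y (r k)) w else 0 := by
      split_ifs
      · rw [Cfg.om, map_sum, map_sum, LinearMap.sum_apply]
        refine Finset.sum_congr rfl fun k _ => ?_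
        rw [map_smul, map_smul, LinearMap.smul_apply, smul_eq_mul]
      · simp
    rw [e6, ← Finset.sum_neg_distrib, ← Finset.sum_sub_distrib]
    refine Finset.sum_congr rfl fun k _ => ?_
    rw [e5, Gm_apply]
    split_ifs <;> simp

/-- **The derivation.** -/
theorem exists_der (hG : 𝒟.Good)
    (hKR : KRel 𝒟.arm 𝒟.q 𝒟.Ω (Tt L '' (Ku 𝒟 u : Set (J → V))))
    (hR' : RealU 𝒟 u σ) (hI : C.I = ⊥) (ht : t ∈ Ku 𝒟 u) {t' : J → V}
    (ht' : t' ∈ Ku 𝒟 u) (hK : ∀ r ∈ Ku 𝒟 u, ∃ a b : L, r = a • t + b • t') {κ : Type*} [Fintype κ]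
    {D : End L C.V1} {P : κ → End L C.V1} {d : κ → L} (hDP : Diag D P d)
    (hP : ∀ i, IsSA C.q1 (P i)) (hPS : ∀ i a, P i * C.S1 hG.form a = C.S1 hG.form a * P i)
    (hD : ∀ l, C.P hG.form (t' l) = D (C.P hG.form (t l))) {x : L} (hx : GoodL hG (t' := t') C D x)
    (s : Fin 3) {Y Y' : End L C.V1} (hY : IsSk C.q1 Y)
    (hYS : Y * ((1 + x • D) ^ 2 * C.S1 hG.form s) = (1 + x • D) ^ 2 * C.S1 hG.form s * Y)
    (hY' : (1 + x • D) * Y' = Y * (1 + x • D)) :
    ∃ n : H533.Conn 𝒟.q, ∃ Δ : End L C.V1,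
      (∀ i, ∀ v ∈ 𝒟.F s i, n.δ v - ext0 hG C Y v ∈ 𝒟.F s i) ∧
      (∀ a, a ≠ s → ∀ i, ∀ v ∈ 𝒟.F a i, n.δ v ∈ 𝒟.F a i) ∧
      (∀ w ∈ C.W, n.δ w ∈ C.W) ∧
      (∀ z, ZZ hG C z → ∀ l, n.δ (𝒟.om z l) = 𝒟.om (fun k => n.δ (z k)) l) ∧
      (∀ z, ZZ hG C z → z ∈ Uu V u → (fun k => n.δ (z k)) ∈ Uu V u) ∧
      (∀ l, (connCore hG C n).δ (C.P hG.form (t l)) =
        (if 𝒟.arm l = s then Y' else 0) (C.P hG.form (t l)) + Δ (C.P hG.form (t l))) ∧
      (∀ l, (connCore hG C n).δ (C.P hG.form (𝒟.om t l)) =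
        (if 𝒟.arm l = s then Y' else 0) (C.P hG.form (𝒟.om t l)) +
          Δ (C.P hG.form (𝒟.om t l))) ∧
      (∀ a, brk (connCore hG C n) (C.S1 hG.form a) = (2 : L) • (Δ * C.S1 hG.form a)) ∧
      (∀ i, brk (connCore hG C n) (P i) = 0) ∧ IsSA C.q1 Δ ∧
      ∀ M : End L C.V1, M * D = D * M → M * Δ = Δ * M := by
  have hq := hG.form
  have hq1 := C.isForm hq
  have hSSA : ∀ a, IsSA 𝒟.q (Res 𝒟 t a) := fun a => Sop_SA 𝒟.arm hq (Tt L t) hG.skew a
  obtain ⟨uu, hu⟩ := hx.unit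
  set g : End L C.V1 := 1 + x • D with hgdef
  obtain ⟨g', hgg', hg'g⟩ : ∃ g' : End L C.V1, g * g' = 1 ∧ g' * g = 1 :=
    ⟨↑uu⁻¹, by rw [← hu, Units.mul_inv], by rw [← hu, Units.inv_mul]⟩
  have hDSA : IsSA C.q1 D := hDP.SA hP
  have hDS : ∀ a, C.S1 hq a * D = D * C.S1 hq a := fun a =>
    hDP.comm_of_comm fun i => (hPS i a).symm
  have h1SA : IsSA C.q1 (1 : End L C.V1) := fun u v => rfl
  have hgSA : IsSA C.q1 g := sa_add h1SA (sa_smul hDSA x)
  have hgc : ∀ M : End L C.V1, M * D = D * M → M * g = g * M := fun M hM => by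
    rw [hgdef, mul_add, add_mul, mul_one, one_mul, mul_smul_comm, smul_mul_assoc, hM]
  have hg'c : ∀ M : End L C.V1, M * D = D * M → M * g' = g' * M := fun M hM => by
    have h1 := hgc M hM
    calc M * g' = g' * g * M * g' := by rw [hg'g, one_mul]
      _ = g' * (M * g) * g' := by rw [h1, mul_assoc g']
      _ = g' * M := by rw [mul_assoc, mul_assoc, hgg', mul_one]
  have hg'SA : IsSA C.q1 g' := fun u v => by
    have e1 : ∀ w, g (g' w) = w := fun w => LinearMap.congr_fun hgg' w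
    conv_lhs => rw [← e1 v]
    rw [← hgSA, e1]
  -- the family `t + x t'`
  have htx : t + x • t' ∈ Ku 𝒟 u := add_mem ht (Submodule.smul_mem _ x ht')
  have hr : ∀ l, C.P hq ((t + x • t') l) = g (C.P hq (t l)) := fun l => by
    rw [Pi.add_apply, Pi.smul_apply, map_add, map_smul, hD, hgdef]
    rfl
  obtain ⟨N, hN⟩ := hx.nil
  generalize t + x • t' = r at htx hr hN
  have hgSg : ∀ a, g * C.S1 hq a * g = g ^ 2 * C.S1 hq a := fun a => by
    rw [mul_assoc, hgc _ (hDS a), ← mul_assoc, sq]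
  -- the connection
  obtain ⟨η, hη, hησ, hηz, hηr⟩ := exists_eta_cfg hG hKR hR' hI ht htx hgSA hg'g hr s hY
    (by rw [hgSg]; exact hYS)
  let X : Fin 3 → End L V := fun a => if a = s then ext0 hG C Y else 0
  have hX : ∀ a, IsSk 𝒟.q (X a) := fun a => by
    by_cases h : a = s
    · simp only [X, if_pos h]; exact ext0_sk hG hY
    · simp only [X, if_neg h]; intro u v; simp
  obtain ⟨n, hn, hd⟩ := hR'.real X hX η hη hησ
  have hσ : ∀ l, ∑ k, n.d (𝒟.Ω l k) * σ k = 0 := fun l => by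
    simp only [hd]
    exact congrFun hησ l
  obtain ⟨R, hRK, hR1, hR2⟩ := conn_KU hR' hX hn htx hσ (fun l => by
    simp only [hd]; exact hηr l)
  obtain ⟨α, β, hR⟩ := hK R hRK
  let m : End L C.V1 := α • 1 + β • D
  have hm : ∀ l, C.P hq (R l) = m (C.P hq (t l)) := fun l => by
    rw [hR, Pi.add_apply, Pi.smul_apply, Pi.smul_apply, map_add, map_smul, map_smul, hD]
    rfl
  have hmSA : IsSA C.q1 m := sa_add (sa_smul h1SA α) (sa_smul hDSA β)
  have hmc : ∀ M : End L C.V1, M * D = D * M → M * m = m * M := fun M hM => by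
    show M * (α • 1 + β • D) = (α • 1 + β • D) * M
    rw [mul_add, add_mul, mul_smul_comm, mul_smul_comm, smul_mul_assoc, smul_mul_assoc, mul_one,
      one_mul, hM]
  -- the core is preserved
  have hXW : ∀ a, ∀ v, X a v ∈ C.W := fun a v => by
    by_cases h : a = s
    · simp only [X, if_pos h]; exact C.V1_le (Y _).2
    · simp only [X, if_neg h]; exact zero_mem _
  have hrW : ∀ a, ∀ w ∈ C.W, Res 𝒟 r a w ∈ C.W := fun a w hw =>
    opr_map_W hG hKR ht htx htx a w hw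
  have hW : C.W ≤ ⨆ a, C.W.map (Res 𝒟 r a) := by
    intro w hw
    have h1 : g' (g' (C.P hq w)) ∈ ⨆ a, LinearMap.range (C.S1 hq a) := by
      rw [C.S1_span hq hSSA]; trivial
    have h2 : ∀ y ∈ ⨆ a, LinearMap.range (C.S1 hq a), ((g (g y) : C.V1) : V) ∈
        ⨆ a, C.W.map (Res 𝒟 r a) := by
      intro y hy
      refine Submodule.iSup_induction (fun a => LinearMap.range (C.S1 hq a))
        (motive := fun y => ((g (g y) : C.V1) : V) ∈ ⨆ a, C.W.map (Res 𝒟 r a)) hy ?_ ?_ ?_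
      · rintro a _ ⟨v, rfl⟩
        have e1 : g (g (C.S1 hq a v)) = C.P hq (Res 𝒟 r a v) := by
          rw [show C.P hq (Res 𝒟 r a v) = g (C.S1 hq a (g v)) from P_Res hG hgSA hr a v]
          exact congrArg g (LinearMap.congr_fun (hgc _ (hDS a)) v).symm
        have e2 : (C.P hq (Res 𝒟 r a v) : V) = Res 𝒟 r a v :=
          P_of_mem hG hI (hrW a _ (C.V1_le v.2))
        rw [e1, e2]
        exact Submodule.mem_iSup_of_mem a (Submodule.mem_map_of_mem (C.V1_le v.2))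
      · rw [map_zero, map_zero]; exact zero_mem _
      · intro y z hy hz
        rw [map_add, map_add]; exact add_mem hy hz
    have h3 := h2 _ h1
    have e1 : ∀ w, g (g' w) = w := fun w => LinearMap.congr_fun hgg' w
    rwa [e1, e1, P_of_mem hG hI hw] at h3
  have hnR : ∀ a v, n.δ (Res 𝒟 r a v) = Res 𝒟 r a (n.δ v) +
      (X a (Res 𝒟 r a v) - Res 𝒟 r a (X a v)) +
      (opr 𝒟.q (Tt L r) (Gm 𝒟.arm 𝒟.Ω a) (Tt L R) v +
        opr 𝒟.q (Tt L R) (Gm 𝒟.arm 𝒟.Ω a) (Tt L r) v) := fun a v =>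
    conn_Res hG n (hX a) (fun l hl => by rw [hR1, hl]) (fun l hl => by rw [hR2, hl]) v
  have hnW : ∀ w ∈ C.W, n.δ w ∈ C.W := by
    refine der_W hW hN hrW n fun a w hw => ?_
    rw [hnR]
    have e : Res 𝒟 r a (n.δ w) + (X a (Res 𝒟 r a w) - Res 𝒟 r a (X a w)) +
        (opr 𝒟.q (Tt L r) (Gm 𝒟.arm 𝒟.Ω a) (Tt L R) w +
        opr 𝒟.q (Tt L R) (Gm 𝒟.arm 𝒟.Ω a) (Tt L r) w) - Res 𝒟 r a (n.δ w) =
        (X a (Res 𝒟 r a w) - Res 𝒟 r a (X a w)) +
        (opr 𝒟.q (Tt L r) (Gm 𝒟.arm 𝒟.Ω a) (Tt L R) w +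
        opr 𝒟.q (Tt L R) (Gm 𝒟.arm 𝒟.Ω a) (Tt L r) w) := by abel
    rw [e]
    exact add_mem (sub_mem (hXW _ _) (hrW a _ (hXW _ _)))
      (add_mem (opr_map_W hG hKR ht htx hRK a w hw) (opr_map_W hG hKR ht hRK htx a w hw))
  have hnp : ∀ v ∈ perp 𝒟.q C.W, n.δ v ∈ perp 𝒟.q C.W := by
    intro v hv w hw
    have h1 := n.metric v w
    rw [hv w hw, map_zero, hv _ (hnW w hw), add_zero] at h1
    exact h1.symm
  have hnP : ∀ v, C.P hq (n.δ v) = (connCore hG C n).δ (C.P hq v) := by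
    intro v
    have h1 := C.P_eq_zero hq (hnp _ (sub_mem_perp hG hI v))
    rwa [map_sub, map_sub, sub_eq_zero] at h1
  have hPX : ∀ a v, C.P hq (X a v) = (if a = s then Y else 0) (C.P hq v) := fun a v => by
    by_cases h : a = s
    · simp only [X, if_pos h]; exact P_ext0 hG Y v
    · simp only [X, if_neg h]; rw [LinearMap.zero_apply, map_zero, LinearMap.zero_apply]
  set n1 := connCore hG C n with hn1
  -- the derivative of `g S g`
  have hb1 : ∀ a, brk n1 (g * C.S1 hq a * g) = g * C.S1 hq a * m + m * C.S1 hq a * g := by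
    intro a
    refine LinearMap.ext fun v => ?_
    have e1 : ∀ v : C.V1, C.P hq (Res 𝒟 r a v) = (g * C.S1 hq a * g) v := fun v =>
      P_Res hG hgSA hr a v
    have e1' : ∀ v : V, C.P hq (Res 𝒟 r a v) = (g * C.S1 hq a * g) (C.P hq v) := by
      intro v
      have h1 := C.P_eq_zero hq (opr_map_perp hG hKR ht htx htx a _ (sub_mem_perp hG hI v))
      rw [map_sub, map_sub, sub_eq_zero] at h1
      exact h1.trans (e1 _)
    have h1 := congrArg (C.P hq) (hnR a v)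
    rw [hnP, e1] at h1
    simp only [map_add, map_sub] at h1
    rw [e1', e1', hPX, hPX, e1, C.P_coe, hnP, C.P_coe] at h1
    have e2 : C.P hq (opr 𝒟.q (Tt L r) (Gm 𝒟.arm 𝒟.Ω a) (Tt L R) v) =
        (g * C.S1 hq a * m) v := by
      rw [P_opr_left hG hr, P_opr_right hG hmSA hm]
      rfl
    have e3 : C.P hq (opr 𝒟.q (Tt L R) (Gm 𝒟.arm 𝒟.Ω a) (Tt L r) v) =
        (m * C.S1 hq a * g) v := by
      rw [P_opr_left hG hm, P_opr_right hG hgSA hr]
      rfl
    rw [e2, e3] at h1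
    rw [brk_apply, h1, LinearMap.add_apply]
    have e4 : (if a = s then Y else 0) ((g * C.S1 hq a * g) v) -
        (g * C.S1 hq a * g) ((if a = s then Y else 0) v) = 0 := by
      split_ifs with h
      · subst h
        rw [sub_eq_zero]
        have := LinearMap.congr_fun hYS v
        rw [← hgSg] at this
        exact this
      · simp
    rw [e4]
    abel
  -- the derivative of `D`
  have hE : brk n1 D * D = D * brk n1 D := by
    apply hx.central _ (brk_SA n1 hDSA)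
    intro a
    rw [← hgdef, ← hgSg]
    have e1 : D * (g * C.S1 hq a * g) = g * C.S1 hq a * g * D := by
      have := hgc D rfl
      rw [← mul_assoc, ← mul_assoc, this, mul_assoc g D, ← hDS, mul_assoc, mul_assoc g, mul_assoc,
        this]
      noncomm_ring
    have e2 := congrArg (brk n1) e1
    rw [brk_mul n1 D, brk_mul n1 _ D, hb1] at e2
    have e3 : D * (g * C.S1 hq a * m + m * C.S1 hq a * g) =
        (g * C.S1 hq a * m + m * C.S1 hq a * g) * D := by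
      have c1 : D * g = g * D := hgc D rfl
      have c2 : D * m = m * D := hmc D rfl
      have c3 := hDS a
      simp only [mul_add, add_mul]
      congr 1
      · calc D * (g * C.S1 hq a * m) = (D * g) * C.S1 hq a * m := by noncomm_ring
          _ = g * (D * C.S1 hq a) * m := by rw [c1]; noncomm_ring
          _ = g * C.S1 hq a * (D * m) := by rw [← c3]; noncomm_ring
          _ = _ := by rw [c2]; noncomm_ring
      · calc D * (m * C.S1 hq a * g) = (D * m) * C.S1 hq a * g := by noncomm_ring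
          _ = m * (D * C.S1 hq a) * g := by rw [c2]; noncomm_ring
          _ = m * C.S1 hq a * (D * g) := by rw [← c3]; noncomm_ring
          _ = _ := by rw [c1]; noncomm_ring
    rw [e3, add_comm] at e2
    exact add_left_cancel e2
  have hED := hDP.brk_D n1 hE
  have hgb : brk n1 g = n.d x • D + x • brk n1 D := by
    rw [hgdef, brk_add, brk_one, zero_add, brk_smul]
    rfl
  have hEc : ∀ M : End L C.V1, M * D = D * M → M * brk n1 D = brk n1 D * M := fun M hM => by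
    rw [hED, Finset.mul_sum, Finset.sum_mul]
    refine Finset.sum_congr rfl fun i _ => ?_
    rw [mul_smul_comm, smul_mul_assoc, hDP.comm_P hM]
  have hgbc : ∀ M : End L C.V1, M * D = D * M → M * brk n1 g = brk n1 g * M := fun M hM => by
    rw [hgb, mul_add, add_mul, mul_smul_comm, mul_smul_comm, smul_mul_assoc, smul_mul_assoc,
      hEc M hM, hM]
  let Δ : End L C.V1 := g' * (m - brk n1 g)
  have hΔ : g * Δ = m - brk n1 g := by
    show g * (g' * (m - brk n1 g)) = _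
    rw [← mul_assoc, hgg', one_mul]
  have hΔc : ∀ M : End L C.V1, M * D = D * M → M * Δ = Δ * M := fun M hM => by
    show M * (g' * (m - brk n1 g)) = g' * (m - brk n1 g) * M
    rw [← mul_assoc, hg'c M hM, mul_assoc, mul_sub, hmc M hM, hgbc M hM, ← sub_mul, ← mul_assoc]
  have hΔSA : IsSA C.q1 Δ := by
    have h1 : IsSA C.q1 (m - brk n1 g) := fun u v => by
      rw [LinearMap.sub_apply, LinearMap.sub_apply, map_sub, map_sub, LinearMap.sub_apply, hmSA,
        brk_SA n1 hgSA]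
    have h3 : (m - brk n1 g) * g' = g' * (m - brk n1 g) := by
      refine hg'c _ ?_
      rw [sub_mul, mul_sub, ← hmc D rfl, ← hgbc D rfl]
    intro u v
    have h4 : g' ((m - brk n1 g) v) = (m - brk n1 g) (g' v) := (LinearMap.congr_fun h3 v).symm
    show C.q1 (g' ((m - brk n1 g) u)) v = C.q1 u (g' ((m - brk n1 g) v))
    rw [hg'SA, h1, h4]
  -- the derivative of the core family
  have hcan : ∀ {a b : C.V1}, g a = g b → a = b := fun {a b} h => by
    have h1 := congrArg g' h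
    rwa [← Module.End.mul_apply, ← Module.End.mul_apply, hg'g] at h1
  have hfam : ∀ (a : Fin 3) (y : C.V1), n1.δ (g y) = (if a = s then Y else 0) (g y) + m y →
      n1.δ y = (if a = s then Y' else 0) y + Δ y := by
    intro a y hy
    apply hcan
    rw [brk_eq] at hy
    have h1 : g (n1.δ y) = (if a = s then Y else 0) (g y) + (m - brk n1 g) y := by
      rw [LinearMap.sub_apply]
      rw [← sub_eq_zero] at hy ⊢
      rw [← hy]
      abel
    rw [h1, ← hΔ, map_add]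
    congr 1
    split_ifs
    · exact (LinearMap.congr_fun hY' y).symm
    · rw [LinearMap.zero_apply, LinearMap.zero_apply, map_zero]
  refine ⟨n, Δ, ?_, ?_, hnW, ?_, ?_, ?_, ?_, ?_, fun i => hDP.brk_P n1 hE i, hΔSA, hΔc⟩
  · intro i v hv
    have := hn s i v hv
    simpa only [X, if_true] using this
  · intro a ha i v hv
    have := hn a i v hv
    simpa only [X, if_neg ha, LinearMap.zero_apply, sub_zero] using this
  · intro z hz l
    rw [conn_om]
    simp only [hd]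
    rw [hηz z hz, zero_add]
  · intro z hz hzu
    have h1 := hR'.stab n (fun _ => 0) z hσ (mem_Uu.1 hzu) (fun l => by
      simp only [hd, hηz z hz, LinearMap.zero_apply, smul_zero, Finset.sum_const_zero, sub_zero])
    rw [mem_Uu]
    simpa only [LinearMap.zero_apply, sub_zero] using h1
  · intro l
    apply hfam
    rw [← hr, ← hnP, hR1, map_add, hPX, hm]
  · intro l
    apply hfam
    rw [← P_om hG hr, ← hnP, hR2, map_add, hPX, P_om hG hm]
  · intro a
    have h1 := hb1 a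
    rw [brk_mul, brk_mul] at h1
    have hSΔ : C.S1 hq a * Δ = Δ * C.S1 hq a := hΔc _ (hDS a)
    have hΔg : Δ * g = m - brk n1 g := by rw [← hΔ]; exact (hΔc g (hgc D rfl).symm).symm
    have h3 : g * (brk n1 (C.S1 hq a)) * g = g * ((2 : L) • (Δ * C.S1 hq a)) * g := by
      have e1 : g * (brk n1 (C.S1 hq a)) * g =
          g * C.S1 hq a * (m - brk n1 g) + (m - brk n1 g) * C.S1 hq a * g := by
        exact ring_aux h1
      rw [e1]
      nth_rw 1 [← hΔg]
      rw [← hΔ, two_smul]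
      nth_rw 1 [← hSΔ]
      noncomm_ring
    have h4 := congrArg (fun y => g' * y * g') h3
    have e5 : ∀ y : End L C.V1, g' * (g * y * g) * g' = y := fun y => by
      calc g' * (g * y * g) * g' = (g' * g) * y * (g * g') := by noncomm_ring
        _ = y := by rw [hg'g, hgg', one_mul, mul_one]
    simpa only [e5] using h4

/-- **The subspaces `HHU s` of `End V₁`.** -/
def HHU (hG : 𝒟.Good) (u : J → L) {t : J → V} (C : Core 𝒟.q (Res 𝒟 t)) (s : Fin 3) :
    Submodule L (End L C.V1) where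
  carrier := {h | ∃ r : J → V, r ∈ Uu V u ∧ Rm hG C r ∧
    (∀ l, 𝒟.arm l = s → (h (C.P hG.form (t l)) : V) - r l ∈ 𝒟.C l ∧
      (h (C.P hG.form (𝒟.om t l)) : V) - 𝒟.om r l ∈ perp 𝒟.q (𝒟.C l)) ∧
    ∀ l, 𝒟.arm l ≠ s → r l ∈ 𝒟.C l ∧ 𝒟.om r l ∈ perp 𝒟.q (𝒟.C l)}
  zero_mem' := ⟨0, zero_mem _, Rm.zero hG C, fun l _ => by
      have : 𝒟.om (0 : J → V) l = 0 := by simp [Cfg.om]
      rw [this]
      simp, fun l _ => by
      have : 𝒟.om (0 : J → V) l = 0 := by simp [Cfg.om]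
      rw [this]
      simp⟩
  add_mem' := by
    rintro h h' ⟨r, h0, h1, h2, h3⟩ ⟨r', h0', h1', h2', h3'⟩
    refine ⟨r + r', add_mem h0 h0', h1.add h1', fun l hl => ?_, fun l hl => ?_⟩
    · constructor
      · have := add_mem (h2 l hl).1 (h2' l hl).1
        convert this using 1
        rw [LinearMap.add_apply, Submodule.coe_add, Pi.add_apply]
        abel
      · have := add_mem (h2 l hl).2 (h2' l hl).2
        convert this using 1
        rw [LinearMap.add_apply, Submodule.coe_add, om_add]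
        abel
    · rw [om_add]
      exact ⟨add_mem (h3 l hl).1 (h3' l hl).1, add_mem (h3 l hl).2 (h3' l hl).2⟩
  smul_mem' := by
    rintro c h ⟨r, h0, h1, h2, h3⟩
    refine ⟨c • r, Submodule.smul_mem _ c h0, h1.smul c, fun l hl => ?_, fun l hl => ?_⟩
    · constructor
      · have := Submodule.smul_mem _ c (h2 l hl).1
        convert this using 1
        rw [LinearMap.smul_apply, Submodule.coe_smul, Pi.smul_apply, smul_sub]
      · have := Submodule.smul_mem _ c (h2 l hl).2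
        convert this using 1
        rw [LinearMap.smul_apply, Submodule.coe_smul, om_smul, smul_sub]
    · rw [om_smul]
      exact ⟨Submodule.smul_mem _ c (h3 l hl).1, Submodule.smul_mem _ c (h3 l hl).2⟩

/-- **The derivative of `HH s`.** -/
theorem HHU_der (hG : 𝒟.Good) (htu : t ∈ Uu V u) (hI : C.I = ⊥) {s : Fin 3} {Y Y' Δ : End L C.V1} (hY : IsSk C.q1 Y)
    {n : H533.Conn 𝒟.q}
    (hn1 : ∀ i, ∀ v ∈ 𝒟.F s i, n.δ v - ext0 hG C Y v ∈ 𝒟.F s i)
    (hn2 : ∀ a, a ≠ s → ∀ i, ∀ v ∈ 𝒟.F a i, n.δ v ∈ 𝒟.F a i)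
    (hnW : ∀ w ∈ C.W, n.δ w ∈ C.W)
    (hnz : ∀ z, ZZ hG C z → ∀ l, n.δ (𝒟.om z l) = 𝒟.om (fun k => n.δ (z k)) l)
    (hnU : ∀ z, ZZ hG C z → z ∈ Uu V u → (fun k => n.δ (z k)) ∈ Uu V u)
    (hnt : ∀ l, (connCore hG C n).δ (C.P hG.form (t l)) =
        (if 𝒟.arm l = s then Y' else 0) (C.P hG.form (t l)) + Δ (C.P hG.form (t l)))
    (hnu : ∀ l, (connCore hG C n).δ (C.P hG.form (𝒟.om t l)) =
        (if 𝒟.arm l = s then Y' else 0) (C.P hG.form (𝒟.om t l)) +
          Δ (C.P hG.form (𝒟.om t l)))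
    (hnS : ∀ a, brk (connCore hG C n) (C.S1 hG.form a) = (2 : L) • (Δ * C.S1 hG.form a))
    (hΔ : IsSA C.q1 Δ)
    (hΔS : ∀ a, C.S1 hG.form a * Δ = Δ * C.S1 hG.form a)
    (hΔc : ∀ M : End L C.V1, IsSA C.q1 M → (∀ a, M * C.S1 hG.form a = C.S1 hG.form a * M) →
      M * Δ = Δ * M) {h : End L C.V1} (hh : h ∈ HHU hG u C s) :
    ∃ M : End L C.V1, IsSA C.q1 M ∧ (∀ a, M * C.S1 hG.form a = C.S1 hG.form a * M) ∧
      brk (connCore hG C n) h + h * Y' + h * Δ - Y * h - (M * Y' - Y * M) ∈ HHU hG u C s := by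
  have hq := hG.form
  obtain ⟨r, hru, hr, h2, h3⟩ := hh
  obtain ⟨M, hM1, hM2, hM3⟩ := hr.core
  have hz := Rm_ZZ hG hI hr
  set n1 := connCore hG C n with hn1def
  set z := nc hG C r with hzdef
  have hnp : ∀ v ∈ perp 𝒟.q C.W, n.δ v ∈ perp 𝒟.q C.W := by
    intro v hv w hw
    have h1 := n.metric v w
    rw [hv w hw, map_zero, hv _ (hnW w hw), add_zero] at h1
    exact h1.symm
  have hnv : ∀ v : C.V1, n.δ (v : V) = (n1.δ v : V) := fun v =>
    (P_of_mem hG hI (hnW _ (C.V1_le v.2))).symm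
  have hM3' := P_om hG hM3
  have hMΔ := hΔc M hM1 hM2
  let M' : End L C.V1 := brk n1 M + M * Δ
  let r' : J → V := fun l => (M' (C.P hq (t l)) : V) + n.δ (z l)
  have hr1 : ∀ l, r l = (M (C.P hq (t l)) : V) + z l := fun l => by
    rw [← hM3, hzdef, nc, add_sub_cancel]
  have hr2 : ∀ l, 𝒟.om r l = (M (C.P hq (𝒟.om t l)) : V) + 𝒟.om z l := fun l => by
    rw [← hM3', hzdef, om_nc, add_sub_cancel]
  have hr'2 : ∀ l, 𝒟.om r' l = (M' (C.P hq (𝒟.om t l)) : V) + n.δ (𝒟.om z l) := fun l => by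
    rw [hnz z hz]
    simp only [Cfg.om, r', smul_add, Finset.sum_add_distrib, map_sum, map_smul,
      Submodule.coe_sum, Submodule.coe_smul]
  have hMt : ∀ (a : Fin 3) (y : C.V1), n1.δ y = (if a = s then Y' else 0) y + Δ y →
      n1.δ (M y) = M' y + (if a = s then M * Y' else 0) y := by
    intro a y hy
    rw [brk_eq, hy, map_add]
    show _ = brk n1 M y + M (Δ y) + _
    split_ifs
    · rw [Module.End.mul_apply]; abel
    · rw [LinearMap.zero_apply, map_zero, zero_add, add_zero]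
  have hd1 : ∀ l, n.δ (r l) =
      r' l + ((if 𝒟.arm l = s then M * Y' else 0) (C.P hq (t l)) : C.V1) := fun l => by
    rw [hr1, map_add, hnv, hMt _ _ (hnt l), Submodule.coe_add]
    show _ = (M' (C.P hq (t l)) : V) + n.δ (z l) + _
    abel
  have hd2 : ∀ l, n.δ (𝒟.om r l) =
      𝒟.om r' l + ((if 𝒟.arm l = s then M * Y' else 0) (C.P hq (𝒟.om t l)) : C.V1) := fun l => by
    rw [hr2, map_add, hnv, hMt _ _ (hnu l), Submodule.coe_add, hr'2]
    abel
  -- the family `r'` is good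
  have hM'S : ∀ a, M' * C.S1 hq a = C.S1 hq a * M' := by
    intro a
    have e1 := congrArg (brk n1) (hM2 a)
    rw [brk_mul, brk_mul, hnS] at e1
    exact ring_aux2 (hM2 a) (hΔS a) hMΔ (by rw [two_smul] at e1; exact e1)
  have hRm : Rm hG C r' := by
    refine ⟨⟨M', ?_, hM'S, fun l => ?_⟩, ?_⟩
    · refine sa_add (brk_SA n1 hM1) fun u v => ?_
      have := LinearMap.congr_fun hMΔ v
      rw [Module.End.mul_apply, hM1, hΔ, ← Module.End.mul_apply, ← hMΔ]
    · show C.P hq ((M' (C.P hq (t l)) : V) + n.δ (z l)) = _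
      rw [map_add, C.P_coe, C.P_eq_zero hq (hnp _ (hz.mem l)), add_zero]
    · intro a v hv
      have hv' : ∀ y : C.V1, 𝒟.q (y : V) v = 0 := fun y => by
        rw [hq.symm]; exact hv _ (C.V1_le y.2)
      have e1 := congrArg n1.δ (hz.off a v)
      have e2 := hz.off a (n.δ v)
      have e3 := congrArg ((if a = s then Y' else 0) + Δ) (hz.off a v)
      rw [P_opr hG, map_sum, map_zero] at e1 e3
      rw [P_opr hG] at e2 ⊢
      have e4 : ∑ l with 𝒟.arm l = a, (𝒟.q (𝒟.om r' l) v • C.P hq (t l) +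
          𝒟.q (r' l) v • C.P hq (𝒟.om t l)) =
          ∑ l with 𝒟.arm l = a, n1.δ (𝒟.q (𝒟.om z l) v • C.P hq (t l) +
            𝒟.q (z l) v • C.P hq (𝒟.om t l)) -
          ∑ l with 𝒟.arm l = a, (𝒟.q (𝒟.om z l) (n.δ v) • C.P hq (t l) +
            𝒟.q (z l) (n.δ v) • C.P hq (𝒟.om t l)) -
          ∑ l with 𝒟.arm l = a, ((if a = s then Y' else 0) + Δ)
            (𝒟.q (𝒟.om z l) v • C.P hq (t l) + 𝒟.q (z l) v • C.P hq (𝒟.om t l)) := by
        rw [← Finset.sum_sub_distrib, ← Finset.sum_sub_distrib]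
        refine Finset.sum_congr rfl fun l hl => ?_
        have hl' : 𝒟.arm l = a := (Finset.mem_filter.1 hl).2
        have f1 : 𝒟.q (𝒟.om r' l) v = 𝒟.q (n.δ (𝒟.om z l)) v := by
          rw [hr'2, map_add, LinearMap.add_apply, hv', zero_add]
        have f2 : 𝒟.q (r' l) v = 𝒟.q (n.δ (z l)) v := by
          show 𝒟.q ((M' (C.P hq (t l)) : V) + n.δ (z l)) v = _
          rw [map_add, LinearMap.add_apply, hv', zero_add]
        have g1 := hnt l
        have g2 := hnu l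
        rw [hl', ← LinearMap.add_apply] at g1 g2
        have m1 : n1.d (𝒟.q (𝒟.om z l) v) = 𝒟.q (n.δ (𝒟.om z l)) v + 𝒟.q (𝒟.om z l) (n.δ v) :=
          n.metric _ _
        have m2 : n1.d (𝒟.q (z l) v) = 𝒟.q (n.δ (z l)) v + 𝒟.q (z l) (n.δ v) := n.metric _ _
        rw [f1, f2, map_add, map_add, n1.smul, n1.smul, m1, m2, g1, g2, map_smul, map_smul]
        module
      rw [e4, e1, e2, e3, sub_zero, sub_zero]
  have hr'u : r' ∈ Uu V u := by
    have hPt : ∀ r : J → V, r ∈ Uu V u → ∀ f : End L C.V1,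
        (fun l => (f (C.P hq (r l)) : V)) ∈ Uu V u := fun r hr f =>
      map_Uu hr (C.V1.subtype ∘ₗ f ∘ₗ C.P hq)
    have hzu : z ∈ Uu V u := by
      have e1 : z = r - fun l => ((1 : End L C.V1) (C.P hq (r l)) : V) := rfl
      rw [e1]
      exact sub_mem hru (hPt r hru 1)
    have e1 : r' = (fun l => (M' (C.P hq (t l)) : V)) + fun l => n.δ (z l) := rfl
    rw [e1]
    exact add_mem (hPt t htu M') (hnU z hz hzu)
  refine ⟨M, hM1, hM2, r', hr'u, hRm, fun l hl => ?_, fun l hl => ?_⟩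
  · obtain ⟨p1, p2⟩ := h2 l hl
    have hC : 𝒟.C l = 𝒟.F s (𝒟.c l) := by rw [Cfg.C, hl]
    rw [hC] at p1 p2 ⊢
    have gen : ∀ y : C.V1, n1.δ y = Y' y + Δ y → ∀ x x' : V, C.P hq x = M y →
        n.δ x = x' + ((M * Y') y : C.V1) →
        n.δ ((h y : V) - x) - ext0 hG C Y ((h y : V) - x) =
          (((brk n1 h + h * Y' + h * Δ - Y * h - (M * Y' - Y * M)) y : C.V1) : V) - x' := by
      intro y hy x x' hx hx'
      rw [map_sub, map_sub, hnv, brk_eq, hy, hx', ext0_apply, ext0_apply, C.P_coe, hx]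
      simp only [map_add, LinearMap.sub_apply, LinearMap.add_apply, Module.End.mul_apply,
        Submodule.coe_add, Submodule.coe_sub]
      abel
    constructor
    · rw [← gen _ (by simpa only [hl, if_true] using hnt l) (r l) (r' l) (hM3 l)
        (by simpa only [hl, if_true] using hd1 l)]
      exact hn1 _ _ p1
    · rw [← gen _ (by simpa only [hl, if_true] using hnu l) (𝒟.om r l) (𝒟.om r' l) (hM3' l)
        (by simpa only [hl, if_true] using hd2 l)]
      exact conn_perp n (ext0_sk hG hY) (hn1 _) _ p2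
  · obtain ⟨p1, p2⟩ := h3 l hl
    have e1 := hd1 l
    have e2 := hd2 l
    rw [if_neg hl, LinearMap.zero_apply, Submodule.coe_zero, add_zero] at e1 e2
    rw [← e1, ← e2]
    refine ⟨hn2 _ hl _ _ p1, ?_⟩
    have := conn_perp n (Y := 0) (fun u v => by simp) (F := 𝒟.C l)
      (fun v hv => by
        rw [LinearMap.zero_apply, sub_zero]
        exact hn2 _ hl _ v hv) _ p2
    rwa [LinearMap.zero_apply, sub_zero] at this

/-- **The derivation step** (notes E2 (4)-(6) of helper534). -/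
theorem der_HHU (hG : 𝒟.Good)
    (hKR : KRel 𝒟.arm 𝒟.q 𝒟.Ω (Tt L '' (Ku 𝒟 u : Set (J → V))))
    (hR : RealU 𝒟 u σ) (hI : C.I = ⊥) (ht : t ∈ Ku 𝒟 u) {t' : J → V}
    (ht' : t' ∈ Ku 𝒟 u) (hK : ∀ r ∈ Ku 𝒟 u, ∃ a b : L, r = a • t + b • t') {κ : Type*} [Fintype κ]
    {D : End L C.V1} {P : κ → End L C.V1} {d : κ → L} (hDP : Diag D P d)
    (hP : ∀ i, IsSA C.q1 (P i)) (hPS : ∀ i a, P i * C.S1 hG.form a = C.S1 hG.form a * P i)
    (hD : ∀ l, C.P hG.form (t' l) = D (C.P hG.form (t l)))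
    (hcen : ∀ M : End L C.V1, IsSA C.q1 M →
      (∀ a, M * C.S1 hG.form a = C.S1 hG.form a * M) → M * D = D * M)
    {x : L} (hx : GoodL hG (t' := t') C D x) (s : Fin 3)
    (H2 : ∀ h : End L C.V1, (∀ i, P i * h * P i = 0) →
      (∀ c : ℕ, ∀ v ∈ LinearMap.range (C.S1 hG.form s ^ c),
        h v ∈ LinearMap.range (C.S1 hG.form s ^ c)) → h ∈ HHU hG u C s)
    {Y Y' : End L C.V1} (hY : IsSk C.q1 Y) (hYo : ∀ i, P i * Y * P i = 0)
    (hYS : Y * ((1 + x • D) ^ 2 * C.S1 hG.form s) = (1 + x • D) ^ 2 * C.S1 hG.form s * Y)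
    (hY' : (1 + x • D) * Y' = Y * (1 + x • D)) {h : End L C.V1} (hho : ∀ i, P i * h * P i = 0)
    (hhr : ∀ c : ℕ, ∀ v ∈ LinearMap.range (C.S1 hG.form s ^ c),
      h v ∈ LinearMap.range (C.S1 hG.form s ^ c)) :
    h * Y' - Y * h ∈ HHU hG u C s := by
  have hq := hG.form
  obtain ⟨n, Δ, hn1, hn2, hnW, hnz, hnU, hnt, hnu, hnS, hnP, hΔ, hΔc⟩ :=
    exists_der hG hKR hR hI ht ht' hK hDP hP hPS hD hx s hY hYS hY'
  have hDS : ∀ a, C.S1 hq a * D = D * C.S1 hq a := fun a =>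
    hDP.comm_of_comm fun i => (hPS i a).symm
  have hΔS : ∀ a, C.S1 hq a * Δ = Δ * C.S1 hq a := fun a => hΔc _ (hDS a)
  have hΔP : ∀ i, P i * Δ = Δ * P i := fun i => hΔc _ (by rw [hDP.mul_D, hDP.D_mul])
  obtain ⟨M, hM1, hM2, hM3⟩ := HHU_der hG ht.2 hI hY hn1 hn2 hnW hnz hnU hnt hnu hnS hΔ hΔS
    (fun M h1 h2 => hΔc M (hcen M h1 h2)) (H2 h hho hhr)
  set n1 := connCore hG C n with hn1def
  set S := C.S1 hq s with hSdef
  have hMD := hcen M hM1 hM2
  have hMP : ∀ i, M * P i = P i * M := fun i => hDP.comm_P hMD i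
  -- the inverse of `1 + x D`
  obtain ⟨uu, hu⟩ := hx.unit
  obtain ⟨g', hgg', hg'g⟩ : ∃ g' : End L C.V1, (1 + x • D) * g' = 1 ∧ g' * (1 + x • D) = 1 :=
    ⟨↑uu⁻¹, by rw [← hu, Units.mul_inv], by rw [← hu, Units.inv_mul]⟩
  have hgD : ∀ N : End L C.V1, N * D = D * N → N * (1 + x • D) = (1 + x • D) * N := fun N hN => by
    rw [mul_add, add_mul, mul_one, one_mul, mul_smul_comm, smul_mul_assoc, hN]
  generalize hg : (1 + x • D : End L C.V1) = g at *
  have hg'D : ∀ N : End L C.V1, N * D = D * N → N * g' = g' * N := fun N hN => by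
    have h1 := hgD N hN
    calc N * g' = g' * g * N * g' := by rw [hg'g, one_mul]
      _ = g' * (N * g) * g' := by rw [h1, mul_assoc g']
      _ = g' * N := by rw [mul_assoc, mul_assoc, hgg', mul_one]
  have hPD : ∀ i, P i * D = D * P i := fun i => by rw [hDP.mul_D, hDP.D_mul]
  have hY'e : Y' = g' * Y * g := by rw [mul_assoc, ← hY', ← mul_assoc, hg'g, one_mul]
  -- operators commuting with `S` preserve the ranges
  have pres : ∀ {N : End L C.V1}, S * N = N * S → ∀ c : ℕ, ∀ v ∈ LinearMap.range (S ^ c),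
      N v ∈ LinearMap.range (S ^ c) := by
    rintro N hN c _ ⟨w, rfl⟩
    have h1 : S ^ c * N = N * S ^ c := (Commute.pow_left hN c).eq
    exact ⟨N w, LinearMap.congr_fun h1 w⟩
  have hgS : S * g = g * S := hgD _ (hDS s)
  have hg'S : S * g' = g' * S := hg'D _ (hDS s)
  have hYr : ∀ c : ℕ, ∀ v ∈ LinearMap.range (S ^ c), Y v ∈ LinearMap.range (S ^ c) := by
    have h1 : ∀ c : ℕ, LinearMap.range (S ^ c) = LinearMap.range ((g ^ 2 * S) ^ c) := by
      intro c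
      have h2 : Commute (g ^ 2) S := Commute.pow_left hgS.symm 2
      have h3 : (g ^ 2 * S) ^ c = S ^ c * (g ^ 2) ^ c := by rw [h2.mul_pow, (h2.pow_pow c c).eq]
      have h4 : (g ^ 2) ^ c * (g' ^ 2) ^ c = 1 := by
        have h5 : Commute g g' := by show g * g' = g' * g; rw [hgg', hg'g]
        rw [← ((h5.pow_pow 2 2).mul_pow c), ← h5.mul_pow, hgg', one_pow, one_pow]
      apply le_antisymm
      · rintro _ ⟨w, rfl⟩
        refine ⟨((g' ^ 2) ^ c) w, ?_⟩
        rw [h3, ← Module.End.mul_apply, mul_assoc, h4, mul_one]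
      · rintro _ ⟨w, rfl⟩
        exact ⟨((g ^ 2) ^ c) w, by rw [h3]; rfl⟩
    intro c v hv
    rw [h1] at hv ⊢
    obtain ⟨w, rfl⟩ := hv
    have h2 : (g ^ 2 * S) ^ c * Y = Y * (g ^ 2 * S) ^ c := by
      have : Commute (g ^ 2 * S) Y := hYS.symm
      exact (this.pow_left c).eq
    exact ⟨Y w, LinearMap.congr_fun h2 w⟩
  have hMS : S * M = M * S := (hM2 s).symm
  -- the operator `M Y' - Y M`
  have k1 : M * Y' - Y * M ∈ HHU hG u C s := by
    apply H2
    · intro i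
      have e1 : P i * (M * Y') * P i = 0 := by
        calc P i * (M * Y') * P i = (P i * M) * (g' * Y * g) * P i := by
              rw [hY'e]; noncomm_ring
          _ = M * (P i * g') * Y * (g * P i) := by rw [← hMP]; noncomm_ring
          _ = M * g' * (P i * Y * P i) * g := by
              rw [hg'D _ (hPD i), ← hgD _ (hPD i)]; noncomm_ring
          _ = 0 := by rw [hYo, mul_zero, zero_mul]
      have e2 : P i * (Y * M) * P i = 0 := by
        calc P i * (Y * M) * P i = P i * Y * (M * P i) := by noncomm_ring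
          _ = (P i * Y * P i) * M := by rw [hMP]; noncomm_ring
          _ = 0 := by rw [hYo, zero_mul]
      rw [mul_sub, sub_mul, e1, e2, sub_zero]
    · intro c v hv
      rw [hY'e]
      exact sub_mem (pres hMS c _ (pres hg'S c _ (hYr c _ (pres hgS c _ hv))))
        (hYr c _ (pres hMS c _ hv))
  -- the operator `[n, h] + h Δ`
  have hnr : ∀ c : ℕ, ∀ v ∈ LinearMap.range (S ^ c), n1.δ v ∈ LinearMap.range (S ^ c) := by
    intro c
    induction c with
    | zero =>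
      intro v _
      rw [pow_zero]
      exact ⟨n1.δ v, rfl⟩
    | succ c ih =>
      rintro _ ⟨w, rfl⟩
      rw [pow_succ', Module.End.mul_apply, brk_eq, hnS s]
      have h1 := ih _ ⟨w, rfl⟩
      have h2 : ∀ y ∈ LinearMap.range (S ^ c), S y ∈ LinearMap.range (S * S ^ c) := by
        rintro _ ⟨y, rfl⟩
        exact ⟨y, rfl⟩
      refine add_mem ?_ (h2 _ h1)
      rw [LinearMap.smul_apply]
      refine Submodule.smul_mem _ _ ?_
      rw [← hΔS]
      exact h2 _ (pres (hΔS s) c _ ⟨w, rfl⟩)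
  have k2 : brk n1 h + h * Δ ∈ HHU hG u C s := by
    apply H2
    · intro i
      have e1 : P i * brk n1 h * P i = 0 := by
        have h1 := congrArg (brk n1) (hho i)
        rw [brk_mul, brk_mul, hnP, zero_mul, zero_add, mul_zero, add_zero, brk_zero] at h1
        exact h1
      have e2 : P i * (h * Δ) * P i = 0 := by
        calc P i * (h * Δ) * P i = P i * h * (Δ * P i) := by noncomm_ring
          _ = (P i * h * P i) * Δ := by rw [← hΔP]; noncomm_ring
          _ = 0 := by rw [hho, zero_mul]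
      rw [mul_add, add_mul, e1, e2, add_zero]
    · intro c v hv
      exact add_mem (sub_mem (hnr c _ (hhr c _ hv)) (hhr c _ (hnr c _ hv)))
        (hhr c _ (pres (hΔS s) c _ hv))
  have k3 : h * Y' - Y * h = (brk n1 h + h * Y' + h * Δ - Y * h - (M * Y' - Y * M)) +
      (M * Y' - Y * M) - (brk n1 h + h * Δ) := by abel
  rw [k3]
  exact sub_mem (add_mem hM3 k1) k2

end honest

end Vale.Agent.P182.H578.U
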