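import Vale.Agent.P182.H922.NullH

/-!
# The null case: the derivation step

Notes E2 (4), (5) of helper534: the subspaces `HH s` are stable under `h ↦ h Y' - Y h`.
-/

namespace Vale.Agent.P182.H578

open Module Matrix Vale.Agent.P182.H533 Vale.Agent.P182.B1 Vale.Agent.P182.H922

section eta

variable {L E J : Type*} [Field L] [AddCommGroup E] [Module L E] [Fintype J] [DecidableEq J]

/-- a skew matrix with prescribed values -/
theorem exists_eta (ρ φ : E →ₗ[L] (J → L)) (U : Submodule L (J → L))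
    (hinj : ∀ v, ρ v ∈ U → v = 0) (hsk : ∀ v w, ρ v ⬝ᵥ φ w = - (ρ w ⬝ᵥ φ v))
    (hU : ∀ σ ∈ U, ∀ v, σ ⬝ᵥ φ v = 0) :
    ∃ η : Matrix J J L, ηᵀ = -η ∧ (∀ v, η *ᵥ ρ v = φ v) ∧ ∀ σ ∈ U, η *ᵥ σ = 0 := by
  obtain ⟨g, hg⟩ := LinearMap.exists_leftInverse_of_injective (U.mkQ ∘ₗ ρ) (by
    rw [LinearMap.ker_eq_bot']
    intro v hv
    exact hinj v ((Submodule.Quotient.mk_eq_zero U).1 hv))
  let p : (J → L) →ₗ[L] E := g ∘ₗ U.mkQ
  have hp1 : ∀ v, p (ρ v) = v := fun v => LinearMap.congr_fun hg v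
  have hp2 : ∀ σ ∈ U, p σ = 0 := fun σ hσ => by
    show g (U.mkQ σ) = 0
    rw [Submodule.mkQ_apply, (Submodule.Quotient.mk_eq_zero U).2 hσ, map_zero]
  let A : Matrix J J L := LinearMap.toMatrix' (φ ∘ₗ p)
  let Q : Matrix J J L := LinearMap.toMatrix' (ρ ∘ₗ p)
  have hA : ∀ x, A *ᵥ x = φ (p x) := fun x => LinearMap.toMatrix'_mulVec _ _
  have hQ : ∀ x, Q *ᵥ x = ρ (p x) := fun x => LinearMap.toMatrix'_mulVec _ _
  have tr : ∀ (M : Matrix J J L) (x y : J → L), x ⬝ᵥ (Mᵀ *ᵥ y) = (M *ᵥ x) ⬝ᵥ y := fun M x y => by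
    rw [Matrix.dotProduct_mulVec, Matrix.vecMul_transpose]
  have vext : ∀ x y : J → L, (∀ z : J → L, z ⬝ᵥ x = z ⬝ᵥ y) → x = y := by
    intro x y h
    funext j
    have := h (Pi.single j 1)
    rwa [single_one_dotProduct, single_one_dotProduct] at this
  have key : Aᵀ * Q = - (Qᵀ * A) := by
    apply Matrix.ext_of_mulVec_single
    intro j
    apply vext
    intro z
    rw [Matrix.neg_mulVec, dotProduct_neg, ← Matrix.mulVec_mulVec, ← Matrix.mulVec_mulVec, tr, tr,
      hA, hA, hQ, hQ, dotProduct_comm]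
    exact hsk _ _
  refine ⟨A - Aᵀ - Qᵀ * A, ?_, ?_, ?_⟩
  · rw [Matrix.transpose_sub, Matrix.transpose_sub, Matrix.transpose_mul, Matrix.transpose_transpose,
      Matrix.transpose_transpose, key]
    abel
  · intro v
    apply vext
    intro z
    rw [Matrix.sub_mulVec, Matrix.sub_mulVec, dotProduct_sub, dotProduct_sub,
      ← Matrix.mulVec_mulVec, tr, tr, hA, hA, hQ, hp1, hsk (p z), dotProduct_comm (φ (p z))]
    ring
  · intro σ hσ
    apply vext
    intro z
    rw [Matrix.sub_mulVec, Matrix.sub_mulVec, dotProduct_sub, dotProduct_sub,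
      ← Matrix.mulVec_mulVec, tr, tr, hA, hA, hQ, hp2 σ hσ, map_zero, dotProduct_zero,
      dotProduct_zero, dotProduct_comm, hU σ hσ]
    ring

end eta

section base

variable {L V J : Type*} [Field L] [AddCommGroup V] [Module L V]
  [Fintype J] [DecidableEq J] {𝒟 : Cfg L V J}

omit [DecidableEq J] in
/-- the realised variation of a kernel family -/
theorem conn_K {n : H533.Conn 𝒟.q} {X : Fin 3 → End L V} (hX : ∀ s, IsSk 𝒟.q (X s))
    (hn : ∀ s i, ∀ v ∈ 𝒟.F s i, n.δ v - X s v ∈ 𝒟.F s i) {t : J → V} (ht : t ∈ 𝒟.K)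
    (hη : ∀ l, ∑ k, n.d (𝒟.Ω l k) • t k = X (𝒟.arm l) (𝒟.om t l) -
      ∑ k, 𝒟.Ω l k • X (𝒟.arm k) (t k)) :
    ∃ R ∈ 𝒟.K, (∀ l, n.δ (t l) = X (𝒟.arm l) (t l) + R l) ∧
      ∀ l, n.δ (𝒟.om t l) = X (𝒟.arm l) (𝒟.om t l) + 𝒟.om R l := by
  have hom : ∀ l, 𝒟.om (fun l => n.δ (t l) - X (𝒟.arm l) (t l)) l =
      n.δ (𝒟.om t l) - X (𝒟.arm l) (𝒟.om t l) := by
    intro l
    rw [conn_om]
    have h2 : 𝒟.om (fun l => n.δ (t l) - X (𝒟.arm l) (t l)) l =
        𝒟.om (fun l => n.δ (t l)) l - ∑ k, 𝒟.Ω l k • X (𝒟.arm k) (t k) := by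
      simp only [Cfg.om, smul_sub, Finset.sum_sub_distrib]
    rw [h2, hη]
    abel
  refine ⟨fun l => n.δ (t l) - X (𝒟.arm l) (t l), ⟨fun l => hn _ _ _ (ht.1 l), fun l => ?_⟩,
    fun l => ?_, fun l => ?_⟩
  · rw [hom]
    exact conn_perp n (hX _) (hn _ _) _ (ht.2 l)
  · exact (add_sub_cancel _ _).symm
  · rw [hom]
    exact (add_sub_cancel _ _).symm

/-- the variation of the residues -/
theorem conn_Res (hG : 𝒟.Good) (n : H533.Conn 𝒟.q) {X : End L V} (hX : IsSk 𝒟.q X)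
    {t R : J → V} {a : Fin 3} (h1 : ∀ l, 𝒟.arm l = a → n.δ (t l) = X (t l) + R l)
    (h2 : ∀ l, 𝒟.arm l = a → n.δ (𝒟.om t l) = X (𝒟.om t l) + 𝒟.om R l) (v : V) :
    n.δ (Res 𝒟 t a v) = Res 𝒟 t a (n.δ v) + (X (Res 𝒟 t a v) - Res 𝒟 t a (X v)) +
      (opr 𝒟.q (Tt L t) (Gm 𝒟.arm 𝒟.Ω a) (Tt L R) v +
        opr 𝒟.q (Tt L R) (Gm 𝒟.arm 𝒟.Ω a) (Tt L t) v) := by
  rw [Res_apply 𝒟 hG.skew, Res_apply 𝒟 hG.skew, Res_apply 𝒟 hG.skew, opr_Tt 𝒟 hG.skew,
    opr_Tt 𝒟 hG.skew, map_sum, map_sum, ← Finset.sum_sub_distrib, ← Finset.sum_add_distrib,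
    ← Finset.sum_add_distrib, ← Finset.sum_add_distrib]
  refine Finset.sum_congr rfl fun l hl => ?_
  have hl' : 𝒟.arm l = a := (Finset.mem_filter.1 hl).2
  rw [map_add, n.smul, n.smul, n.metric, n.metric, h1 l hl', h2 l hl']
  have e1 : 𝒟.q (𝒟.om t l) (X v) = - 𝒟.q (X (𝒟.om t l)) v := by rw [hX, neg_neg]
  have e2 : 𝒟.q (t l) (X v) = - 𝒟.q (X (t l)) v := by rw [hX, neg_neg]
  simp only [map_add, LinearMap.add_apply, map_smul, e1, e2]
  module

end base

/-! ### Brackets with a connection -/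

section brk

variable {L E : Type*} [Field L] [AddCommGroup E] [Module L E] {q : E →ₗ[L] E →ₗ[L] L}

/-- the bracket of a connection with an endomorphism -/
def brk (n : H533.Conn q) (M : End L E) : End L E where
  toFun v := n.δ (M v) - M (n.δ v)
  map_add' u v := by rw [map_add, map_add, map_add, map_add]; abel
  map_smul' a v := by
    rw [map_smul, n.smul, n.smul, map_add, map_smul, map_smul, RingHom.id_apply, smul_sub]
    abel

theorem brk_apply (n : H533.Conn q) (M : End L E) (v : E) :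
    brk n M v = n.δ (M v) - M (n.δ v) := rfl

theorem brk_eq (n : H533.Conn q) (M : End L E) (v : E) :
    n.δ (M v) = brk n M v + M (n.δ v) := by rw [brk_apply, sub_add_cancel]

theorem brk_mul (n : H533.Conn q) (A B : End L E) : brk n (A * B) = brk n A * B + A * brk n B := by
  ext v
  rw [LinearMap.add_apply, Module.End.mul_apply, Module.End.mul_apply, brk_apply, brk_apply,
    brk_apply, Module.End.mul_apply, Module.End.mul_apply, map_sub]
  abel

theorem brk_add (n : H533.Conn q) (A B : End L E) : brk n (A + B) = brk n A + brk n B := by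
  ext v
  rw [LinearMap.add_apply, brk_apply, brk_apply, brk_apply, LinearMap.add_apply,
    LinearMap.add_apply, map_add]
  abel

theorem brk_smul (n : H533.Conn q) (c : L) (A : End L E) :
    brk n (c • A) = n.d c • A + c • brk n A := by
  ext v
  rw [LinearMap.add_apply, LinearMap.smul_apply, LinearMap.smul_apply, brk_apply, brk_apply,
    LinearMap.smul_apply, LinearMap.smul_apply, n.smul, smul_sub]
  abel

theorem brk_one (n : H533.Conn q) : brk n (1 : End L E) = 0 := by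
  ext v
  rw [brk_apply, Module.End.one_apply, Module.End.one_apply, sub_self, LinearMap.zero_apply]

theorem brk_zero (n : H533.Conn q) : brk n (0 : End L E) = 0 := by
  ext v
  rw [brk_apply, LinearMap.zero_apply, LinearMap.zero_apply, map_zero, sub_self]

theorem brk_sum {ι : Type*} (n : H533.Conn q) (t : Finset ι) (A : ι → End L E) :
    brk n (∑ i ∈ t, A i) = ∑ i ∈ t, brk n (A i) := by
  classical
  induction t using Finset.induction_on with
  | empty => rw [Finset.sum_empty, Finset.sum_empty, brk_zero]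
  | insert a t ha ih => rw [Finset.sum_insert ha, Finset.sum_insert ha, brk_add, ih]

theorem brk_SA (n : H533.Conn q) {A : End L E} (hA : IsSA q A) : IsSA q (brk n A) := by
  intro u v
  have h1 := n.metric (A u) v
  have h2 := n.metric u (A v)
  have e1 : q (A (n.δ u)) v = q (n.δ u) (A v) := hA _ _
  have e2 : q u (A (n.δ v)) = q (A u) (n.δ v) := (hA _ _).symm
  rw [hA u v] at h1
  rw [brk_apply, brk_apply, map_sub, map_sub, LinearMap.sub_apply, e1, e2]
  linear_combination h2 - h1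

/-- a connection preserves a subspace generated by its own operators -/
theorem der_W {S : Fin 3 → End L E} {W : Submodule L E} (hW : W ≤ ⨆ a, W.map (S a)) {N : ℕ}
    (hN : H533.words S N ≤ W) (hSW : ∀ a, ∀ w ∈ W, S a w ∈ W) (n : H533.Conn q)
    (h : ∀ a, ∀ w ∈ W, n.δ (S a w) - S a (n.δ w) ∈ W) : ∀ w ∈ W, n.δ w ∈ W := by
  have claim : ∀ r : ℕ, ∀ w ∈ W, n.δ w ∈ W ⊔ H533.words S r := by
    intro r
    induction r with
    | zero => intro w _; exact Submodule.mem_sup_right trivial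
    | succ r ih =>
      intro w hw
      refine Submodule.iSup_induction (fun s => W.map (S s))
        (motive := fun x => n.δ x ∈ W ⊔ H533.words S (r + 1)) (hW hw) ?_ ?_ ?_
      · rintro s _ ⟨w, hw, rfl⟩
        obtain ⟨a, ha, b, hb, hab⟩ := Submodule.mem_sup.mp (ih w hw)
        have e : n.δ (S s w) = (n.δ (S s w) - S s (n.δ w)) + (S s a + S s b) := by
          rw [← map_add, hab]; abel
        rw [e]
        refine Submodule.add_mem _ (Submodule.mem_sup_left (h s w hw))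
          (Submodule.add_mem _ (Submodule.mem_sup_left (hSW s a ha))
          (Submodule.mem_sup_right (Submodule.mem_iSup_of_mem s
            (Submodule.mem_map_of_mem hb))))
      · rw [map_zero]; exact Submodule.zero_mem _
      · intro x y hx hy
        rw [map_add]; exact Submodule.add_mem _ hx hy
  intro w hw
  have h1 := claim N w hw
  rwa [sup_eq_left.mpr hN] at h1

end brk

/-! ### Orthogonal idempotents -/

theorem ring_aux {R : Type*} [Ring R] {g S b m Z : R}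
    (h : (b * S + g * Z) * g + g * S * b = g * S * m + m * S * g) :
    g * Z * g = g * S * (m - b) + (m - b) * S * g := by
  have e : g * Z * g = ((b * S + g * Z) * g + g * S * b) - b * S * g - g * S * b := by
    noncomm_ring
  rw [e, h, mul_sub, sub_mul, sub_mul]
  abel

theorem ring_aux2 {R : Type*} [Ring R] {M S T B : R} (h1 : M * S = S * M) (h2 : S * T = T * S)
    (h3 : M * T = T * M) (h : B * S + M * (T * S + T * S) = (T * S + T * S) * M + S * B) :
    (B + M * T) * S = S * (B + M * T) := by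
  have e1 : T * S * M = M * (T * S) := by rw [mul_assoc, ← h1, ← mul_assoc, ← h3, mul_assoc]
  have e2 : S * (M * T) = M * (T * S) := by rw [← h2, ← mul_assoc, ← mul_assoc, h1]
  have e3 : B * S = S * B := by
    rw [add_mul, e1, mul_add, add_comm] at h
    exact add_left_cancel h
  rw [add_mul, mul_add, e2, e3, mul_assoc]

section idem

variable {L E κ : Type*} [Field L] [AddCommGroup E] [Module L E] [Fintype κ]
  {q : E →ₗ[L] E →ₗ[L] L}

/-- a diagonal operator with different eigenvalues -/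
structure Diag (D : End L E) (P : κ → End L E) (d : κ → L) : Prop where
  sq : ∀ i, P i * P i = P i
  ortho : ∀ i j, i ≠ j → P i * P j = 0
  sum : ∑ i, P i = 1
  inj : Function.Injective d
  eq : D = ∑ i, d i • P i

namespace Diag

variable {D : End L E} {P : κ → End L E} {d : κ → L} (h : Diag D P d)

include h

theorem D_mul (i : κ) : D * P i = d i • P i := by
  rw [h.eq, Finset.sum_mul, Finset.sum_eq_single i]
  · rw [smul_mul_assoc, h.sq]
  · intro j _ hj
    rw [smul_mul_assoc, h.ortho j i hj, smul_zero]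
  · intro hi; exact absurd (Finset.mem_univ _) hi

theorem mul_D (i : κ) : P i * D = d i • P i := by
  rw [h.eq, Finset.mul_sum, Finset.sum_eq_single i]
  · rw [mul_smul_comm, h.sq]
  · intro j _ hj
    rw [mul_smul_comm, h.ortho i j (Ne.symm hj), smul_zero]
  · intro hi; exact absurd (Finset.mem_univ _) hi

theorem off_zero {M : End L E} (hM : M * D = D * M) {i j : κ} (hij : i ≠ j) :
    P j * M * P i = 0 := by
  have h1 : P j * (M * D) * P i = P j * (D * M) * P i := by rw [hM]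
  have h2 : P j * (M * D) * P i = d i • (P j * M * P i) := by
    rw [mul_assoc, mul_assoc, h.D_mul, mul_smul_comm, mul_smul_comm, mul_assoc]
  have h3 : P j * (D * M) * P i = d j • (P j * M * P i) := by
    rw [← mul_assoc, h.mul_D, smul_mul_assoc, smul_mul_assoc]
  rw [h2, h3, ← sub_eq_zero, ← sub_smul] at h1
  exact (smul_eq_zero.1 h1).resolve_left (sub_ne_zero.2 fun e => hij (h.inj e))

theorem comm_P {M : End L E} (hM : M * D = D * M) (i : κ) : M * P i = P i * M := by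
  have h1 : M * P i = P i * M * P i := by
    conv_lhs => rw [← one_mul (M * P i), ← h.sum, Finset.sum_mul, Finset.sum_eq_single i
      (fun j _ hj => by rw [← mul_assoc, h.off_zero hM (Ne.symm hj)])
      (fun hi => absurd (Finset.mem_univ _) hi), ← mul_assoc]
  have h2 : P i * M = P i * M * P i := by
    conv_lhs => rw [← mul_one (P i * M), ← h.sum, Finset.mul_sum, Finset.sum_eq_single i
      (fun j _ hj => h.off_zero hM hj)
      (fun hi => absurd (Finset.mem_univ _) hi)]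
  rw [h1, ← h2]

theorem comm_of_comm {M : End L E} (hM : ∀ i, M * P i = P i * M) : M * D = D * M := by
  rw [h.eq, Finset.mul_sum, Finset.sum_mul]
  refine Finset.sum_congr rfl fun i _ => ?_
  rw [mul_smul_comm, smul_mul_assoc, hM]

/-- the derivative of the idempotents -/
theorem brk_P (n : H533.Conn q) (hE : brk n D * D = D * brk n D) (i : κ) : brk n (P i) = 0 := by
  have hEP := h.comm_P hE
  -- the two equations
  have e1 : brk n D * P i + D * brk n (P i) = n.d (d i) • P i + d i • brk n (P i) := by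
    rw [← brk_mul, h.D_mul, brk_smul]
  have e2 : brk n (P i) * D + P i * brk n D = n.d (d i) • P i + d i • brk n (P i) := by
    rw [← brk_mul, h.mul_D, brk_smul]
  have hl : ∀ j, j ≠ i → P j * brk n (P i) = 0 := by
    intro j hj
    have h1 := congrArg (fun x => P j * x) e1
    simp only [mul_add, mul_smul_comm] at h1
    rw [← mul_assoc, ← hEP, mul_assoc, h.ortho j i hj, mul_zero, ← mul_assoc, h.mul_D,
      smul_mul_assoc, smul_zero, zero_add, zero_add, ← sub_eq_zero, ← sub_smul] at h1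
    exact (smul_eq_zero.1 h1).resolve_left (sub_ne_zero.2 fun e => hj (h.inj e))
  have hr : ∀ j, j ≠ i → brk n (P i) * P j = 0 := by
    intro j hj
    have h1 := congrArg (fun x => x * P j) e2
    simp only [add_mul, smul_mul_assoc] at h1
    rw [mul_assoc (P i), hEP, ← mul_assoc (P i), h.ortho i j (Ne.symm hj), zero_mul, mul_assoc,
      h.D_mul, mul_smul_comm, smul_zero, add_zero, zero_add, ← sub_eq_zero, ← sub_smul] at h1
    exact (smul_eq_zero.1 h1).resolve_left (sub_ne_zero.2 fun e => hj (h.inj e))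
  have el : brk n (P i) = P i * brk n (P i) := by
    conv_lhs => rw [← one_mul (brk n (P i)), ← h.sum, Finset.sum_mul, Finset.sum_eq_single i
      (fun j _ hj => hl j hj) (fun hi => absurd (Finset.mem_univ _) hi)]
  have er : brk n (P i) = brk n (P i) * P i := by
    conv_lhs => rw [← mul_one (brk n (P i)), ← h.sum, Finset.mul_sum, Finset.sum_eq_single i
      (fun j _ hj => hr j hj) (fun hi => absurd (Finset.mem_univ _) hi)]
  have e3 : brk n (P i) = brk n (P i) * P i + P i * brk n (P i) := by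
    conv_lhs => rw [← h.sq i, brk_mul]
  rw [← el, ← er] at e3
  exact left_eq_add.1 e3

/-- the derivative of the diagonal operator -/
theorem brk_D (n : H533.Conn q) (hE : brk n D * D = D * brk n D) :
    brk n D = ∑ i, n.d (d i) • P i := by
  conv_lhs => rw [h.eq, brk_sum]
  refine Finset.sum_congr rfl fun i _ => ?_
  rw [brk_smul, h.brk_P n hE, smul_zero, add_zero]

theorem SA (hP : ∀ i, IsSA q (P i)) : IsSA q D := by
  intro u v
  rw [h.eq, LinearMap.sum_apply, LinearMap.sum_apply, map_sum, map_sum, LinearMap.sum_apply]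
  refine Finset.sum_congr rfl fun i _ => ?_
  rw [LinearMap.smul_apply, LinearMap.smul_apply, map_smul, map_smul, LinearMap.smul_apply, hP]

end Diag

end idem

section honest

variable {L V J : Type*} [Field L] [AddCommGroup V] [Module L V] [FiniteDimensional L V]
  [Fintype J] [DecidableEq J] {𝒟 : Cfg L V J} {t : J → V} {C : Core 𝒟.q (Res 𝒟 t)}

/-- families orthogonal to the core, with trivial mixed operators -/
structure ZZ (hG : 𝒟.Good) {t : J → V} (C : Core 𝒟.q (Res 𝒟 t)) (z : J → V) : Prop where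
  mem : ∀ l, z l ∈ perp 𝒟.q C.W
  off : ∀ a v, C.P hG.form (opr 𝒟.q (Tt L t) (Gm 𝒟.arm 𝒟.Ω a) (Tt L z) v) = 0

omit [FiniteDimensional L V] in
theorem V1_eq (hI : C.I = ⊥) : C.V1 = C.W := by
  have h := C.sup
  change C.V1 ⊔ C.I = C.W at h
  rwa [hI, sup_bot_eq] at h

theorem sub_mem_perp (hG : 𝒟.Good) (hI : C.I = ⊥) (v : V) :
    v - C.P hG.form v ∈ perp 𝒟.q C.W := by
  apply C.sub_P_mem hG.form
  rw [hI]
  intro i hi
  rw [(Submodule.mem_bot L).1 hi, map_zero]

theorem P_of_mem (hG : 𝒟.Good) (hI : C.I = ⊥) {w : V} (hw : w ∈ C.W) :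
    (C.P hG.form w : V) = w := by
  rw [← V1_eq hI] at hw
  exact congrArg Subtype.val (C.P_coe hG.form ⟨w, hw⟩)

theorem mem_perp_of_P (hG : 𝒟.Good) (hI : C.I = ⊥) {v : V} (hv : C.P hG.form v = 0) :
    v ∈ perp 𝒟.q C.W := by
  have := sub_mem_perp hG hI v
  rwa [hv, Submodule.coe_zero, sub_zero] at this

/-- the projection of the mixed operators -/
theorem P_opr (hG : 𝒟.Good) (r r' : J → V) (a : Fin 3) (v : V) :
    C.P hG.form (opr 𝒟.q (Tt L r) (Gm 𝒟.arm 𝒟.Ω a) (Tt L r') v) =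
      ∑ l with 𝒟.arm l = a, (𝒟.q (𝒟.om r' l) v • C.P hG.form (r l) +
        𝒟.q (r' l) v • C.P hG.form (𝒟.om r l)) := by
  rw [opr_Tt 𝒟 hG.skew, map_sum]
  exact Finset.sum_congr rfl fun l _ => by rw [map_add, map_smul, map_smul]

/-- the operators of the core -/
theorem S1_sum (hG : 𝒟.Good) (a : Fin 3) (v : C.V1) :
    C.S1 hG.form a v = ∑ l with 𝒟.arm l = a, (C.q1 (C.P hG.form (𝒟.om t l)) v • C.P hG.form (t l) +
        C.q1 (C.P hG.form (t l)) v • C.P hG.form (𝒟.om t l)) := by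
  rw [Core.S1_apply]
  refine (P_opr hG t t a v).trans (Finset.sum_congr rfl fun l _ => ?_)
  rw [C.q_P, C.q_P]

theorem P_om (hG : 𝒟.Good) {r : J → V} {M : End L C.V1}
    (h : ∀ l, C.P hG.form (r l) = M (C.P hG.form (t l))) (l : J) :
    C.P hG.form (𝒟.om r l) = M (C.P hG.form (𝒟.om t l)) := by
  simp only [Cfg.om, map_sum, map_smul, h]

omit [FiniteDimensional L V] in
/-- the mixed operators preserve the core -/
theorem opr_map_W (hG : 𝒟.Good) (hV : 𝒟.Versal) (ht : t ∈ 𝒟.K) {r r' : J → V} (hr : r ∈ 𝒟.K)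
    (hr' : r' ∈ 𝒟.K) (a : Fin 3) : ∀ w ∈ C.W,
    opr 𝒟.q (Tt L r) (Gm 𝒟.arm 𝒟.Ω a) (Tt L r') w ∈ C.W := by
  have hK := kRelC hG hV
  have hX : Tt L t ∈ Tt L '' (𝒟.K : Set (J → V)) := ⟨t, ht, rfl⟩
  have hY : Tt L r ∈ Tt L '' (𝒟.K : Set (J → V)) := ⟨r, hr, rfl⟩
  have hZ : Tt L r' ∈ Tt L '' (𝒟.K : Set (J → V)) := ⟨r', hr', rfl⟩
  have h1 := hK.compat hG.form hG.skew hX hY
  have h3 := hK.compat hG.form hG.skew hX hZ
  intro w hw
  rw [← C.hW] at hw
  refine Submodule.iSup_induction (fun s => C.W.map (Res 𝒟 t s))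
    (motive := fun x => opr 𝒟.q (Tt L r) (Gm 𝒟.arm 𝒟.Ω a) (Tt L r') x ∈ C.W) hw ?_ ?_ ?_
  · rintro s _ ⟨v, hv, rfl⟩
    have e1 : opr 𝒟.q (Tt L r) (Gm 𝒟.arm 𝒟.Ω a) (Tt L r') (Res 𝒟 t s v) =
        opr 𝒟.q (Tt L t) (Gm 𝒟.arm 𝒟.Ω a) (Tt L r)
          (opr 𝒟.q (Tt L t) (Gm 𝒟.arm 𝒟.Ω s) (Tt L r') v) := by
      show opr 𝒟.q (Tt L r) (Gm 𝒟.arm 𝒟.Ω a) (Tt L r')
        (opr 𝒟.q (Tt L t) (Gm 𝒟.arm 𝒟.Ω s) (Tt L t) v) = _
      rw [hK.comp hG.form hZ hX, hK.swap hG.form hG.skew hY hX, hK.swap hG.form hG.skew hZ hX]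
    rw [e1]
    exact h1.map_W C a (h3.map_W C s hv)
  · rw [map_zero]; exact zero_mem _
  · intro x y hx hy
    rw [map_add]; exact add_mem hx hy

omit [FiniteDimensional L V] in
theorem opr_map_perp (hG : 𝒟.Good) (hV : 𝒟.Versal) (ht : t ∈ 𝒟.K) {r r' : J → V} (hr : r ∈ 𝒟.K)
    (hr' : r' ∈ 𝒟.K) (a : Fin 3) : ∀ v ∈ perp 𝒟.q C.W,
    opr 𝒟.q (Tt L r) (Gm 𝒟.arm 𝒟.Ω a) (Tt L r') v ∈ perp 𝒟.q C.W := by
  intro v hv w hw
  rw [opr_adj' hG]
  exact hv _ (opr_map_W hG hV ht hr' hr a w hw)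

/-- the projection of the residues of a family with invertible core part -/
theorem P_Res (hG : 𝒟.Good) {r : J → V} {g : End L C.V1} (hg : IsSA C.q1 g)
    (h : ∀ l, C.P hG.form (r l) = g (C.P hG.form (t l))) (a : Fin 3) (v : C.V1) :
    C.P hG.form (opr 𝒟.q (Tt L r) (Gm 𝒟.arm 𝒟.Ω a) (Tt L r) v) = g (C.S1 hG.form a (g v)) := by
  rw [P_opr hG, S1_sum hG, map_sum]
  refine Finset.sum_congr rfl fun l _ => ?_
  rw [h, P_om hG h, map_add, map_smul, map_smul, ← C.q_P hG.form, ← C.q_P hG.form, h,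
    P_om hG h, hg, hg]

/-- the mixed operators of a family with invertible core part -/
theorem P_opr_right (hG : 𝒟.Good) {r : J → V} {g : End L C.V1} (hg : IsSA C.q1 g)
    (h : ∀ l, C.P hG.form (r l) = g (C.P hG.form (t l))) (a : Fin 3) (v : C.V1) :
    C.P hG.form (opr 𝒟.q (Tt L t) (Gm 𝒟.arm 𝒟.Ω a) (Tt L r) v) = C.S1 hG.form a (g v) := by
  rw [P_opr hG, S1_sum hG]
  refine Finset.sum_congr rfl fun l _ => ?_
  rw [← C.q_P hG.form, ← C.q_P hG.form, h, P_om hG h, hg, hg]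

theorem P_opr_left (hG : 𝒟.Good) {r z : J → V} {g : End L C.V1}
    (h : ∀ l, C.P hG.form (r l) = g (C.P hG.form (t l))) (a : Fin 3) (v : V) :
    C.P hG.form (opr 𝒟.q (Tt L r) (Gm 𝒟.arm 𝒟.Ω a) (Tt L z) v) =
      g (C.P hG.form (opr 𝒟.q (Tt L t) (Gm 𝒟.arm 𝒟.Ω a) (Tt L z) v)) := by
  rw [P_opr hG, P_opr hG, map_sum]
  refine Finset.sum_congr rfl fun l _ => ?_
  rw [h, P_om hG h, map_add, map_smul, map_smul]

/-- the component orthogonal to the core -/
noncomputable def nc (hG : 𝒟.Good) (C : Core 𝒟.q (Res 𝒟 t)) (r : J → V) (l : J) : V :=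
  r l - C.P hG.form (r l)

theorem om_nc (hG : 𝒟.Good) (r : J → V) (l : J) :
    𝒟.om (nc hG C r) l = 𝒟.om r l - C.P hG.form (𝒟.om r l) := by
  simp only [Cfg.om, nc, smul_sub, Finset.sum_sub_distrib, map_sum, map_smul,
    Submodule.coe_sum, Submodule.coe_smul]

theorem nc_mem (hG : 𝒟.Good) (hI : C.I = ⊥) (r : J → V) (l : J) :
    nc hG C r l ∈ perp 𝒟.q C.W := sub_mem_perp hG hI _

theorem P_opr_nc (hG : 𝒟.Good) (hI : C.I = ⊥) (r : J → V) (a : Fin 3) (v : V) :
    C.P hG.form (opr 𝒟.q (Tt L t) (Gm 𝒟.arm 𝒟.Ω a) (Tt L (nc hG C r)) v) =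
      C.P hG.form (opr 𝒟.q (Tt L t) (Gm 𝒟.arm 𝒟.Ω a) (Tt L r) (v - C.P hG.form v)) := by
  have hPv : (C.P hG.form v : V) ∈ C.W := C.V1_le (C.P hG.form v).2
  have key : ∀ y, 𝒟.q (y - C.P hG.form y) v = 𝒟.q y (v - C.P hG.form v) := by
    intro y
    have h1 : 𝒟.q (y - C.P hG.form y) (C.P hG.form v) = 0 := sub_mem_perp hG hI y _ hPv
    have h3 : 𝒟.q (C.P hG.form y) (v - C.P hG.form v) = 0 := by
      rw [hG.form.symm]
      exact sub_mem_perp hG hI v _ (C.V1_le (C.P hG.form y).2)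
    rw [map_sub, LinearMap.sub_apply] at h1
    rw [map_sub] at h3
    rw [map_sub, map_sub, LinearMap.sub_apply]
    linear_combination h1 - h3
  rw [P_opr hG, P_opr hG]
  refine Finset.sum_congr rfl fun l _ => ?_
  rw [om_nc, nc, key, key]

/-- the orthogonal component of an element of the kernel -/
theorem nc_ZZ (hG : 𝒟.Good) (hV : 𝒟.Versal) (hI : C.I = ⊥) (ht : t ∈ 𝒟.K) {r : J → V}
    (hr : r ∈ 𝒟.K) : ZZ hG C (nc hG C r) where
  mem := nc_mem hG hI r
  off a v := by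
    rw [P_opr_nc hG hI]
    exact C.P_eq_zero hG.form (opr_map_perp hG hV ht ht hr a _ (sub_mem_perp hG hI v))

/-- the orthogonal component of a family with good core part -/
theorem Rm_ZZ (hG : 𝒟.Good) (hI : C.I = ⊥) {r : J → V} (hr : Rm hG C r) :
    ZZ hG C (nc hG C r) where
  mem := nc_mem hG hI r
  off a v := by
    rw [P_opr_nc hG hI]
    exact hr.off a _ (sub_mem_perp hG hI v)

/-- the extension of an endomorphism of the core by zero -/
noncomputable def ext0 (hG : 𝒟.Good) (C : Core 𝒟.q (Res 𝒟 t)) (Y : End L C.V1) : End L V :=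
  C.V1.subtype ∘ₗ Y ∘ₗ C.P hG.form

theorem ext0_apply (hG : 𝒟.Good) (Y : End L C.V1) (v : V) :
    ext0 hG C Y v = (Y (C.P hG.form v) : V) := rfl

theorem ext0_sk (hG : 𝒟.Good) {Y : End L C.V1} (hY : IsSk C.q1 Y) : IsSk 𝒟.q (ext0 hG C Y) := by
  intro u v
  rw [ext0_apply, ext0_apply, hG.form.symm, ← C.q_P hG.form v, (C.isForm hG.form).symm, hY,
    ← C.q_P hG.form u]

theorem P_ext0 (hG : 𝒟.Good) (Y : End L C.V1) (v : V) :
    C.P hG.form (ext0 hG C Y v) = Y (C.P hG.form v) := by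
  rw [ext0_apply, C.P_coe]

/-- **The skew matrix.** -/
theorem exists_eta_cfg (hG : 𝒟.Good) (hV : 𝒟.Versal) (hI : C.I = ⊥) (ht : t ∈ 𝒟.K) {r : J → V}
    (hr : r ∈ 𝒟.K) {g g' : End L C.V1} (hg : IsSA C.q1 g) (hgg : g' * g = 1)
    (h : ∀ l, C.P hG.form (r l) = g (C.P hG.form (t l))) (s : Fin 3) {Y : End L C.V1}
    (hY : IsSk C.q1 Y)
    (hYS : Y * (g * C.S1 hG.form s * g) = g * C.S1 hG.form s * g * Y) :
    ∃ η : Matrix J J L, ηᵀ = -η ∧ (∀ z, ZZ hG C z → ∀ l, ∑ k, η l k • z k = 0) ∧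
      ∀ l, ∑ k, η l k • r k =
        (if 𝒟.arm l = s then ext0 hG C Y else 0) (𝒟.om r l) -
          ∑ k, 𝒟.Ω l k • (if 𝒟.arm k = s then ext0 hG C Y else 0) (r k) := by
  have hq := hG.form
  have hq1 := C.isForm hq
  let ρ : C.V1 →ₗ[L] (J → L) := ad 𝒟.q (Tt L r) ∘ₗ C.V1.subtype
  have hρ : ∀ v, ρ v = ad 𝒟.q (Tt L r) (v : V) := fun v => rfl
  let φ : C.V1 →ₗ[L] (J → L) := - ((Gm 𝒟.arm 𝒟.Ω s).mulVecLin ∘ₗ ρ ∘ₗ Y)
  have hφ : ∀ v, φ v = - (Gm 𝒟.arm 𝒟.Ω s *ᵥ ad 𝒟.q (Tt L r) (Y v : V)) := fun v => rfl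
  let U : Submodule L (J → L) :=
    Submodule.span L {σ | ∃ z, ZZ hG C z ∧ ∃ w, σ = ad 𝒟.q (Tt L z) w}
  have hSP : ∀ v : C.V1, C.P hq (Res 𝒟 r s v) = g (C.S1 hq s (g v)) := P_Res hG hg h s
  have hinj : ∀ v, ρ v ∈ U → v = 0 := by
    intro v hv
    have h1 : ∀ a, ∀ σ ∈ U, C.P hq (Tt L t (Gm 𝒟.arm 𝒟.Ω a *ᵥ σ)) = 0 := by
      intro a σ hσ
      refine Submodule.span_induction (p := fun σ _ =>
        C.P hq (Tt L t (Gm 𝒟.arm 𝒟.Ω a *ᵥ σ)) = 0) ?_ ?_ ?_ ?_ hσ
      · rintro _ ⟨z, hz, w, rfl⟩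
        exact hz.off a w
      · rw [Matrix.mulVec_zero, map_zero, map_zero]
      · intro x y _ _ hx hy
        rw [Matrix.mulVec_add, map_add, map_add, hx, hy, add_zero]
      · intro c x _ hx
        rw [Matrix.mulVec_smul, map_smul, map_smul, hx, smul_zero]
    have h3 : ∀ a, C.S1 hq a (g v) = 0 := by
      intro a
      rw [← P_opr_right hG hg h a v]
      exact h1 a _ hv
    have h4 : g v ∈ ⨅ a, LinearMap.ker (C.S1 hq a) := by
      rw [Submodule.mem_iInf]
      exact fun a => LinearMap.mem_ker.2 (h3 a)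
    rw [C.iInf_ker hq (Sop_SA 𝒟.arm hq (Tt L t) hG.skew), Submodule.mem_bot] at h4
    have h5 := LinearMap.congr_fun hgg v
    rw [Module.End.mul_apply, h4, map_zero] at h5
    exact h5.symm
  have hsk : ∀ v w, ρ v ⬝ᵥ φ w = - (ρ w ⬝ᵥ φ v) := by
    have h1 : ∀ v w, ρ v ⬝ᵥ φ w = - C.q1 ((g * C.S1 hq s * g * Y) w) v := by
      intro v w
      rw [hφ, dotProduct_neg, dotProduct_comm, hρ, ← q_T]
      congr 1
      have h3 := hSP (Y w)
      rw [← C.q_P hq]
      exact congrArg (fun x => C.q1 x v) h3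
    have hSS : IsSA C.q1 (g * C.S1 hq s * g) := by
      intro u v
      rw [Module.End.mul_apply, Module.End.mul_apply, Module.End.mul_apply, Module.End.mul_apply,
        hg, C.S1_SA hq (Sop_SA 𝒟.arm hq (Tt L t) hG.skew), hg]
    have gen : ∀ B : End L C.V1, IsSA C.q1 B → Y * B = B * Y → ∀ v w,
        - C.q1 ((B * Y) w) v = C.q1 ((B * Y) v) w := by
      intro B hB hYB v w
      have e1 : C.q1 ((B * Y) w) v = C.q1 (Y w) (B v) := by rw [Module.End.mul_apply, hB]
      have e2 : C.q1 (Y w) (B v) = - C.q1 w ((Y * B) v) := by rw [hY, Module.End.mul_apply]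
      rw [e1, e2, hYB, neg_neg, hq1.symm]
    intro v w
    rw [h1, h1, neg_neg]
    exact gen _ hSS hYS v w
  have hU : ∀ σ ∈ U, ∀ v, σ ⬝ᵥ φ v = 0 := by
    intro σ hσ v
    refine Submodule.span_induction (p := fun σ _ => σ ⬝ᵥ φ v = 0) ?_ ?_ ?_ ?_ hσ
    · rintro _ ⟨z, hz, w, rfl⟩
      rw [hφ, dotProduct_neg, dotProduct_comm, ← q_T]
      have h1 : 𝒟.q (opr 𝒟.q (Tt L z) (Gm 𝒟.arm 𝒟.Ω s) (Tt L r) (Y v)) w = 0 := by
        rw [opr_adj' hG, hq.symm, ← C.q_P hq, P_opr_left hG h, hz.off, map_zero, map_zero,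
          LinearMap.zero_apply]
      rw [neg_eq_zero]
      exact h1
    · rw [zero_dotProduct]
    · intro x y _ _ hx hy
      rw [add_dotProduct, hx, hy, add_zero]
    · intro c x _ hx
      rw [smul_dotProduct, hx, smul_zero]
  obtain ⟨η, hη, hη1, hη2⟩ := exists_eta ρ φ U hinj hsk hU
  refine ⟨η, hη, ?_, ?_⟩
  · intro z hz l
    apply hq.nondeg
    intro w
    have h1 := congrFun (hη2 _ (Submodule.subset_span ⟨z, hz, w, rfl⟩)) l
    rw [Matrix.mulVec, dotProduct] at h1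
    rw [map_sum, LinearMap.sum_apply]
    refine Eq.trans (Finset.sum_congr rfl fun k _ => ?_) h1
    rw [ad_apply, Tt_single, map_smul, LinearMap.smul_apply, smul_eq_mul]
  · intro l
    apply hq.ext
    intro w
    have hz0 := nc_ZZ hG hV hI ht hr
    have e1 : ad 𝒟.q (Tt L r) w = ρ (C.P hq w) + ad 𝒟.q (Tt L (nc hG C r)) w := by
      funext k
      have e0 : 𝒟.q (r k) (C.P hq w) = 𝒟.q (C.P hq (r k)) w := by
        rw [← C.q_P hq (r k), hq1.symm, C.q_P hq w, hq.symm w]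
      rw [Pi.add_apply, hρ, ad_apply, ad_apply, ad_apply, Tt_single, Tt_single, nc, map_sub,
        LinearMap.sub_apply, e0]
      ring
    have e2 : η *ᵥ ad 𝒟.q (Tt L r) w = φ (C.P hq w) := by
      rw [e1, Matrix.mulVec_add, hη1, hη2 _ (Submodule.subset_span ⟨_, hz0, w, rfl⟩), add_zero]
    have e3 := congrFun e2 l
    have e4 : 𝒟.q (∑ k, η l k • r k) w = (η *ᵥ ad 𝒟.q (Tt L r) w) l := by
      rw [Matrix.mulVec, dotProduct, map_sum, LinearMap.sum_apply]
      refine Finset.sum_congr rfl fun k _ => ?_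
      rw [ad_apply, Tt_single, map_smul, LinearMap.smul_apply, smul_eq_mul]
    have e5 : ∀ k, ad 𝒟.q (Tt L r) (Y (C.P hq w) : V) k = - 𝒟.q (ext0 hG C Y (r k)) w := by
      intro k
      rw [ad_apply, Tt_single, ext0_sk hG hY, neg_neg]
      rfl
    rw [e4, e3, hφ, Pi.neg_apply, Matrix.mulVec, dotProduct, map_sub, map_sum,
      LinearMap.sub_apply, LinearMap.sum_apply]
    have e6 : 𝒟.q ((if 𝒟.arm l = s then ext0 hG C Y else 0) (𝒟.om r l)) w =
        ∑ k, if 𝒟.arm l = s then 𝒟.Ω l k * 𝒟.q (ext0 hG C Y (r k)) w else 0 := by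
      split_ifs
      · rw [Cfg.om, map_sum, map_sum, LinearMap.sum_apply]
        refine Finset.sum_congr rfl fun k _ => ?_
        rw [map_smul, map_smul, LinearMap.smul_apply, smul_eq_mul]
      · simp
    rw [e6, ← Finset.sum_neg_distrib, ← Finset.sum_sub_distrib]
    refine Finset.sum_congr rfl fun k _ => ?_
    rw [e5, Gm_apply]
    split_ifs <;> simp

/-- the connection on the core -/
noncomputable def connCore (hG : 𝒟.Good) (C : Core 𝒟.q (Res 𝒟 t)) (n : H533.Conn 𝒟.q) :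
    H533.Conn C.q1 where
  d := n.d
  δ :=
    { toFun := fun v => C.P hG.form (n.δ v)
      map_zero' := by rw [Submodule.coe_zero, map_zero, map_zero]
      map_add' := fun u v => by rw [Submodule.coe_add, map_add, map_add] }
  leib := n.leib
  smul a v := by
    show C.P hG.form (n.δ (a • (v : V))) = _
    rw [n.smul, map_add, map_smul, map_smul, C.P_coe]
    rfl
  metric u v := by
    show n.d (𝒟.q u v) = C.q1 (C.P hG.form (n.δ u)) v + C.q1 u (C.P hG.form (n.δ v))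
    rw [(C.isForm hG.form).symm u, C.q_P, C.q_P, n.metric, hG.form.symm (u : V)]

theorem connCore_apply (hG : 𝒟.Good) (n : H533.Conn 𝒟.q) (v : C.V1) :
    (connCore hG C n).δ v = C.P hG.form (n.δ v) := rfl

/-- **The derivation.** -/
theorem exists_der (hG : 𝒟.Good) (hV : 𝒟.Versal) (hI : C.I = ⊥) (ht : t ∈ 𝒟.K) {t' : J → V}
    (ht' : t' ∈ 𝒟.K) (hK : ∀ r ∈ 𝒟.K, ∃ a b : L, r = a • t + b • t') {κ : Type*} [Fintype κ]
    {D : End L C.V1} {P : κ → End L C.V1} {d : κ → L} (hDP : Diag D P d)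
    (hP : ∀ i, IsSA C.q1 (P i)) (hPS : ∀ i a, P i * C.S1 hG.form a = C.S1 hG.form a * P i)
    (hD : ∀ l, C.P hG.form (t' l) = D (C.P hG.form (t l))) {x : L} (hx : GoodL hG (t' := t') C D x)
    (s : Fin 3) {Y Y' : End L C.V1} (hY : IsSk C.q1 Y)
    (hYS : Y * ((1 + x • D) ^ 2 * C.S1 hG.form s) = (1 + x • D) ^ 2 * C.S1 hG.form s * Y)
    (hY' : (1 + x • D) * Y' = Y * (1 + x • D)) :
    ∃ n : H533.Conn 𝒟.q, ∃ Δ : End L C.V1,
      (∀ i, ∀ v ∈ 𝒟.F s i, n.δ v - ext0 hG C Y v ∈ 𝒟.F s i) ∧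
      (∀ a, a ≠ s → ∀ i, ∀ v ∈ 𝒟.F a i, n.δ v ∈ 𝒟.F a i) ∧
      (∀ w ∈ C.W, n.δ w ∈ C.W) ∧
      (∀ z, ZZ hG C z → ∀ l, n.δ (𝒟.om z l) = 𝒟.om (fun k => n.δ (z k)) l) ∧
      (∀ l, (connCore hG C n).δ (C.P hG.form (t l)) =
        (if 𝒟.arm l = s then Y' else 0) (C.P hG.form (t l)) + Δ (C.P hG.form (t l))) ∧
      (∀ l, (connCore hG C n).δ (C.P hG.form (𝒟.om t l)) =
        (if 𝒟.arm l = s then Y' else 0) (C.P hG.form (𝒟.om t l)) +
          Δ (C.P hG.form (𝒟.om t l))) ∧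
      (∀ a, brk (connCore hG C n) (C.S1 hG.form a) = (2 : L) • (Δ * C.S1 hG.form a)) ∧
      (∀ i, brk (connCore hG C n) (P i) = 0) ∧ IsSA C.q1 Δ ∧
      ∀ M : End L C.V1, M * D = D * M → M * Δ = Δ * M := by
  have hq := hG.form
  have hq1 := C.isForm hq
  have hSSA : ∀ a, IsSA 𝒟.q (Res 𝒟 t a) := fun a => Sop_SA 𝒟.arm hq (Tt L t) hG.skew a
  obtain ⟨u, hu⟩ := hx.unit
  set g : End L C.V1 := 1 + x • D with hgdef
  obtain ⟨g', hgg', hg'g⟩ : ∃ g' : End L C.V1, g * g' = 1 ∧ g' * g = 1 :=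
    ⟨↑u⁻¹, by rw [← hu, Units.mul_inv], by rw [← hu, Units.inv_mul]⟩
  have hDSA : IsSA C.q1 D := hDP.SA hP
  have hDS : ∀ a, C.S1 hq a * D = D * C.S1 hq a := fun a =>
    hDP.comm_of_comm fun i => (hPS i a).symm
  have h1SA : IsSA C.q1 (1 : End L C.V1) := fun u v => rfl
  have hgSA : IsSA C.q1 g := sa_add h1SA (sa_smul hDSA x)
  have hgc : ∀ M : End L C.V1, M * D = D * M → M * g = g * M := fun M hM => by
    rw [hgdef, mul_add, add_mul, mul_one, one_mul, mul_smul_comm, smul_mul_assoc, hM]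
  have hg'c : ∀ M : End L C.V1, M * D = D * M → M * g' = g' * M := fun M hM => by
    have h1 := hgc M hM
    calc M * g' = g' * g * M * g' := by rw [hg'g, one_mul]
      _ = g' * (M * g) * g' := by rw [h1, mul_assoc g']
      _ = g' * M := by rw [mul_assoc, mul_assoc, hgg', mul_one]
  have hg'SA : IsSA C.q1 g' := fun u v => by
    have e1 : ∀ w, g (g' w) = w := fun w => LinearMap.congr_fun hgg' w
    conv_lhs => rw [← e1 v]
    rw [← hgSA, e1]
  -- the family `t + x t'`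
  have htx : t + x • t' ∈ 𝒟.K := add_mem ht (Submodule.smul_mem _ x ht')
  have hr : ∀ l, C.P hq ((t + x • t') l) = g (C.P hq (t l)) := fun l => by
    rw [Pi.add_apply, Pi.smul_apply, map_add, map_smul, hD, hgdef]
    rfl
  obtain ⟨N, hN⟩ := hx.nil
  generalize t + x • t' = r at htx hr hN
  have hgSg : ∀ a, g * C.S1 hq a * g = g ^ 2 * C.S1 hq a := fun a => by
    rw [mul_assoc, hgc _ (hDS a), ← mul_assoc, sq]
  -- the connection
  obtain ⟨η, hη, hηz, hηr⟩ := exists_eta_cfg hG hV hI ht htx hgSA hg'g hr s hY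
    (by rw [hgSg]; exact hYS)
  let X : Fin 3 → End L V := fun a => if a = s then ext0 hG C Y else 0
  have hX : ∀ a, IsSk 𝒟.q (X a) := fun a => by
    by_cases h : a = s
    · simp only [X, if_pos h]; exact ext0_sk hG hY
    · simp only [X, if_neg h]; intro u v; simp
  obtain ⟨n, hn, hd⟩ := hV X hX η hη
  obtain ⟨R, hRK, hR1, hR2⟩ := conn_K hX hn htx (fun l => by
    simp only [hd]; exact hηr l)
  obtain ⟨α, β, hR⟩ := hK R hRK
  let m : End L C.V1 := α • 1 + β • D
  have hm : ∀ l, C.P hq (R l) = m (C.P hq (t l)) := fun l => by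
    rw [hR, Pi.add_apply, Pi.smul_apply, Pi.smul_apply, map_add, map_smul, map_smul, hD]
    rfl
  have hmSA : IsSA C.q1 m := sa_add (sa_smul h1SA α) (sa_smul hDSA β)
  have hmc : ∀ M : End L C.V1, M * D = D * M → M * m = m * M := fun M hM => by
    show M * (α • 1 + β • D) = (α • 1 + β • D) * M
    rw [mul_add, add_mul, mul_smul_comm, mul_smul_comm, smul_mul_assoc, smul_mul_assoc, mul_one,
      one_mul, hM]
  -- the core is preserved
  have hXW : ∀ a, ∀ v, X a v ∈ C.W := fun a v => by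
    by_cases h : a = s
    · simp only [X, if_pos h]; exact C.V1_le (Y _).2
    · simp only [X, if_neg h]; exact zero_mem _
  have hrW : ∀ a, ∀ w ∈ C.W, Res 𝒟 r a w ∈ C.W := fun a w hw =>
    opr_map_W hG hV ht htx htx a w hw
  have hW : C.W ≤ ⨆ a, C.W.map (Res 𝒟 r a) := by
    intro w hw
    have h1 : g' (g' (C.P hq w)) ∈ ⨆ a, LinearMap.range (C.S1 hq a) := by
      rw [C.S1_span hq hSSA]; trivial
    have h2 : ∀ y ∈ ⨆ a, LinearMap.range (C.S1 hq a), ((g (g y) : C.V1) : V) ∈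
        ⨆ a, C.W.map (Res 𝒟 r a) := by
      intro y hy
      refine Submodule.iSup_induction (fun a => LinearMap.range (C.S1 hq a))
        (motive := fun y => ((g (g y) : C.V1) : V) ∈ ⨆ a, C.W.map (Res 𝒟 r a)) hy ?_ ?_ ?_
      · rintro a _ ⟨v, rfl⟩
        have e1 : g (g (C.S1 hq a v)) = C.P hq (Res 𝒟 r a v) := by
          rw [show C.P hq (Res 𝒟 r a v) = g (C.S1 hq a (g v)) from P_Res hG hgSA hr a v]
          exact congrArg g (LinearMap.congr_fun (hgc _ (hDS a)) v).symm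
        have e2 : (C.P hq (Res 𝒟 r a v) : V) = Res 𝒟 r a v :=
          P_of_mem hG hI (hrW a _ (C.V1_le v.2))
        rw [e1, e2]
        exact Submodule.mem_iSup_of_mem a (Submodule.mem_map_of_mem (C.V1_le v.2))
      · rw [map_zero, map_zero]; exact zero_mem _
      · intro y z hy hz
        rw [map_add, map_add]; exact add_mem hy hz
    have h3 := h2 _ h1
    have e1 : ∀ w, g (g' w) = w := fun w => LinearMap.congr_fun hgg' w
    rwa [e1, e1, P_of_mem hG hI hw] at h3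
  have hnR : ∀ a v, n.δ (Res 𝒟 r a v) = Res 𝒟 r a (n.δ v) +
      (X a (Res 𝒟 r a v) - Res 𝒟 r a (X a v)) +
      (opr 𝒟.q (Tt L r) (Gm 𝒟.arm 𝒟.Ω a) (Tt L R) v +
        opr 𝒟.q (Tt L R) (Gm 𝒟.arm 𝒟.Ω a) (Tt L r) v) := fun a v =>
    conn_Res hG n (hX a) (fun l hl => by rw [hR1, hl]) (fun l hl => by rw [hR2, hl]) v
  have hnW : ∀ w ∈ C.W, n.δ w ∈ C.W := by
    refine der_W hW hN hrW n fun a w hw => ?_
    rw [hnR]
    have e : Res 𝒟 r a (n.δ w) + (X a (Res 𝒟 r a w) - Res 𝒟 r a (X a w)) +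
        (opr 𝒟.q (Tt L r) (Gm 𝒟.arm 𝒟.Ω a) (Tt L R) w +
        opr 𝒟.q (Tt L R) (Gm 𝒟.arm 𝒟.Ω a) (Tt L r) w) - Res 𝒟 r a (n.δ w) =
        (X a (Res 𝒟 r a w) - Res 𝒟 r a (X a w)) +
        (opr 𝒟.q (Tt L r) (Gm 𝒟.arm 𝒟.Ω a) (Tt L R) w +
        opr 𝒟.q (Tt L R) (Gm 𝒟.arm 𝒟.Ω a) (Tt L r) w) := by abel
    rw [e]
    exact add_mem (sub_mem (hXW _ _) (hrW a _ (hXW _ _)))
      (add_mem (opr_map_W hG hV ht htx hRK a w hw) (opr_map_W hG hV ht hRK htx a w hw))
  have hnp : ∀ v ∈ perp 𝒟.q C.W, n.δ v ∈ perp 𝒟.q C.W := by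
    intro v hv w hw
    have h1 := n.metric v w
    rw [hv w hw, map_zero, hv _ (hnW w hw), add_zero] at h1
    exact h1.symm
  have hnP : ∀ v, C.P hq (n.δ v) = (connCore hG C n).δ (C.P hq v) := by
    intro v
    have h1 := C.P_eq_zero hq (hnp _ (sub_mem_perp hG hI v))
    rwa [map_sub, map_sub, sub_eq_zero] at h1
  have hPX : ∀ a v, C.P hq (X a v) = (if a = s then Y else 0) (C.P hq v) := fun a v => by
    by_cases h : a = s
    · simp only [X, if_pos h]; exact P_ext0 hG Y v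
    · simp only [X, if_neg h]; rw [LinearMap.zero_apply, map_zero, LinearMap.zero_apply]
  set n1 := connCore hG C n with hn1
  -- the derivative of `g S g`
  have hb1 : ∀ a, brk n1 (g * C.S1 hq a * g) = g * C.S1 hq a * m + m * C.S1 hq a * g := by
    intro a
    refine LinearMap.ext fun v => ?_
    have e1 : ∀ v : C.V1, C.P hq (Res 𝒟 r a v) = (g * C.S1 hq a * g) v := fun v =>
      P_Res hG hgSA hr a v
    have e1' : ∀ v : V, C.P hq (Res 𝒟 r a v) = (g * C.S1 hq a * g) (C.P hq v) := by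
      intro v
      have h1 := C.P_eq_zero hq (opr_map_perp hG hV ht htx htx a _ (sub_mem_perp hG hI v))
      rw [map_sub, map_sub, sub_eq_zero] at h1
      exact h1.trans (e1 _)
    have h1 := congrArg (C.P hq) (hnR a v)
    rw [hnP, e1] at h1
    simp only [map_add, map_sub] at h1
    rw [e1', e1', hPX, hPX, e1, C.P_coe, hnP, C.P_coe] at h1
    have e2 : C.P hq (opr 𝒟.q (Tt L r) (Gm 𝒟.arm 𝒟.Ω a) (Tt L R) v) =
        (g * C.S1 hq a * m) v := by
      rw [P_opr_left hG hr, P_opr_right hG hmSA hm]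
      rfl
    have e3 : C.P hq (opr 𝒟.q (Tt L R) (Gm 𝒟.arm 𝒟.Ω a) (Tt L r) v) =
        (m * C.S1 hq a * g) v := by
      rw [P_opr_left hG hm, P_opr_right hG hgSA hr]
      rfl
    rw [e2, e3] at h1
    rw [brk_apply, h1, LinearMap.add_apply]
    have e4 : (if a = s then Y else 0) ((g * C.S1 hq a * g) v) -
        (g * C.S1 hq a * g) ((if a = s then Y else 0) v) = 0 := by
      split_ifs with h
      · subst h
        rw [sub_eq_zero]
        have := LinearMap.congr_fun hYS v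
        rw [← hgSg] at this
        exact this
      · simp
    rw [e4]
    abel
  -- the derivative of `D`
  have hE : brk n1 D * D = D * brk n1 D := by
    apply hx.central _ (brk_SA n1 hDSA)
    intro a
    rw [← hgdef, ← hgSg]
    have e1 : D * (g * C.S1 hq a * g) = g * C.S1 hq a * g * D := by
      have := hgc D rfl
      rw [← mul_assoc, ← mul_assoc, this, mul_assoc g D, ← hDS, mul_assoc, mul_assoc g, mul_assoc,
        this]
      noncomm_ring
    have e2 := congrArg (brk n1) e1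
    rw [brk_mul n1 D, brk_mul n1 _ D, hb1] at e2
    have e3 : D * (g * C.S1 hq a * m + m * C.S1 hq a * g) =
        (g * C.S1 hq a * m + m * C.S1 hq a * g) * D := by
      have c1 : D * g = g * D := hgc D rfl
      have c2 : D * m = m * D := hmc D rfl
      have c3 := hDS a
      simp only [mul_add, add_mul]
      congr 1
      · calc D * (g * C.S1 hq a * m) = (D * g) * C.S1 hq a * m := by noncomm_ring
          _ = g * (D * C.S1 hq a) * m := by rw [c1]; noncomm_ring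
          _ = g * C.S1 hq a * (D * m) := by rw [← c3]; noncomm_ring
          _ = _ := by rw [c2]; noncomm_ring
      · calc D * (m * C.S1 hq a * g) = (D * m) * C.S1 hq a * g := by noncomm_ring
          _ = m * (D * C.S1 hq a) * g := by rw [c2]; noncomm_ring
          _ = m * C.S1 hq a * (D * g) := by rw [← c3]; noncomm_ring
          _ = _ := by rw [c1]; noncomm_ring
    rw [e3, add_comm] at e2
    exact add_left_cancel e2
  have hED := hDP.brk_D n1 hE
  have hgb : brk n1 g = n.d x • D + x • brk n1 D := by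
    rw [hgdef, brk_add, brk_one, zero_add, brk_smul]
    rfl
  have hEc : ∀ M : End L C.V1, M * D = D * M → M * brk n1 D = brk n1 D * M := fun M hM => by
    rw [hED, Finset.mul_sum, Finset.sum_mul]
    refine Finset.sum_congr rfl fun i _ => ?_
    rw [mul_smul_comm, smul_mul_assoc, hDP.comm_P hM]
  have hgbc : ∀ M : End L C.V1, M * D = D * M → M * brk n1 g = brk n1 g * M := fun M hM => by
    rw [hgb, mul_add, add_mul, mul_smul_comm, mul_smul_comm, smul_mul_assoc, smul_mul_assoc,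
      hEc M hM, hM]
  let Δ : End L C.V1 := g' * (m - brk n1 g)
  have hΔ : g * Δ = m - brk n1 g := by
    show g * (g' * (m - brk n1 g)) = _
    rw [← mul_assoc, hgg', one_mul]
  have hΔc : ∀ M : End L C.V1, M * D = D * M → M * Δ = Δ * M := fun M hM => by
    show M * (g' * (m - brk n1 g)) = g' * (m - brk n1 g) * M
    rw [← mul_assoc, hg'c M hM, mul_assoc, mul_sub, hmc M hM, hgbc M hM, ← sub_mul, ← mul_assoc]
  have hΔSA : IsSA C.q1 Δ := by
    have h1 : IsSA C.q1 (m - brk n1 g) := fun u v => by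
      rw [LinearMap.sub_apply, LinearMap.sub_apply, map_sub, map_sub, LinearMap.sub_apply, hmSA,
        brk_SA n1 hgSA]
    have h3 : (m - brk n1 g) * g' = g' * (m - brk n1 g) := by
      refine hg'c _ ?_
      rw [sub_mul, mul_sub, ← hmc D rfl, ← hgbc D rfl]
    intro u v
    have h4 : g' ((m - brk n1 g) v) = (m - brk n1 g) (g' v) := (LinearMap.congr_fun h3 v).symm
    show C.q1 (g' ((m - brk n1 g) u)) v = C.q1 u (g' ((m - brk n1 g) v))
    rw [hg'SA, h1, h4]
  -- the derivative of the core family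
  have hcan : ∀ {a b : C.V1}, g a = g b → a = b := fun {a b} h => by
    have h1 := congrArg g' h
    rwa [← Module.End.mul_apply, ← Module.End.mul_apply, hg'g] at h1
  have hfam : ∀ (a : Fin 3) (y : C.V1), n1.δ (g y) = (if a = s then Y else 0) (g y) + m y →
      n1.δ y = (if a = s then Y' else 0) y + Δ y := by
    intro a y hy
    apply hcan
    rw [brk_eq] at hy
    have h1 : g (n1.δ y) = (if a = s then Y else 0) (g y) + (m - brk n1 g) y := by
      rw [LinearMap.sub_apply]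
      rw [← sub_eq_zero] at hy ⊢
      rw [← hy]
      abel
    rw [h1, ← hΔ, map_add]
    congr 1
    split_ifs
    · exact (LinearMap.congr_fun hY' y).symm
    · rw [LinearMap.zero_apply, LinearMap.zero_apply, map_zero]
  refine ⟨n, Δ, ?_, ?_, hnW, ?_, ?_, ?_, ?_, fun i => hDP.brk_P n1 hE i, hΔSA, hΔc⟩
  · intro i v hv
    have := hn s i v hv
    simpa only [X, if_true] using this
  · intro a ha i v hv
    have := hn a i v hv
    simpa only [X, if_neg ha, LinearMap.zero_apply, sub_zero] using this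
  · intro z hz l
    rw [conn_om]
    simp only [hd]
    rw [hηz z hz, zero_add]
  · intro l
    apply hfam
    rw [← hr, ← hnP, hR1, map_add, hPX, hm]
  · intro l
    apply hfam
    rw [← P_om hG hr, ← hnP, hR2, map_add, hPX, P_om hG hm]
  · intro a
    have h1 := hb1 a
    rw [brk_mul, brk_mul] at h1
    have hSΔ : C.S1 hq a * Δ = Δ * C.S1 hq a := hΔc _ (hDS a)
    have hΔg : Δ * g = m - brk n1 g := by rw [← hΔ]; exact (hΔc g (hgc D rfl).symm).symm
    have h3 : g * (brk n1 (C.S1 hq a)) * g = g * ((2 : L) • (Δ * C.S1 hq a)) * g := by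
      have e1 : g * (brk n1 (C.S1 hq a)) * g =
          g * C.S1 hq a * (m - brk n1 g) + (m - brk n1 g) * C.S1 hq a * g := by
        exact ring_aux h1
      rw [e1]
      nth_rw 1 [← hΔg]
      rw [← hΔ, two_smul]
      nth_rw 1 [← hSΔ]
      noncomm_ring
    have h4 := congrArg (fun y => g' * y * g') h3
    have e5 : ∀ y : End L C.V1, g' * (g * y * g) * g' = y := fun y => by
      calc g' * (g * y * g) * g' = (g' * g) * y * (g * g') := by noncomm_ring
        _ = y := by rw [hg'g, hgg', one_mul, mul_one]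
    simpa only [e5] using h4

/-- **The derivative of `HH s`.** -/
theorem HH_der (hG : 𝒟.Good) (hI : C.I = ⊥) {s : Fin 3} {Y Y' Δ : End L C.V1} (hY : IsSk C.q1 Y)
    {n : H533.Conn 𝒟.q}
    (hn1 : ∀ i, ∀ v ∈ 𝒟.F s i, n.δ v - ext0 hG C Y v ∈ 𝒟.F s i)
    (hn2 : ∀ a, a ≠ s → ∀ i, ∀ v ∈ 𝒟.F a i, n.δ v ∈ 𝒟.F a i)
    (hnW : ∀ w ∈ C.W, n.δ w ∈ C.W)
    (hnz : ∀ z, ZZ hG C z → ∀ l, n.δ (𝒟.om z l) = 𝒟.om (fun k => n.δ (z k)) l)
    (hnt : ∀ l, (connCore hG C n).δ (C.P hG.form (t l)) =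
        (if 𝒟.arm l = s then Y' else 0) (C.P hG.form (t l)) + Δ (C.P hG.form (t l)))
    (hnu : ∀ l, (connCore hG C n).δ (C.P hG.form (𝒟.om t l)) =
        (if 𝒟.arm l = s then Y' else 0) (C.P hG.form (𝒟.om t l)) +
          Δ (C.P hG.form (𝒟.om t l)))
    (hnS : ∀ a, brk (connCore hG C n) (C.S1 hG.form a) = (2 : L) • (Δ * C.S1 hG.form a))
    (hΔ : IsSA C.q1 Δ)
    (hΔS : ∀ a, C.S1 hG.form a * Δ = Δ * C.S1 hG.form a)
    (hΔc : ∀ M : End L C.V1, IsSA C.q1 M → (∀ a, M * C.S1 hG.form a = C.S1 hG.form a * M) →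
      M * Δ = Δ * M) {h : End L C.V1} (hh : h ∈ HH hG C s) :
    ∃ M : End L C.V1, IsSA C.q1 M ∧ (∀ a, M * C.S1 hG.form a = C.S1 hG.form a * M) ∧
      brk (connCore hG C n) h + h * Y' + h * Δ - Y * h - (M * Y' - Y * M) ∈ HH hG C s := by
  have hq := hG.form
  obtain ⟨r, hr, h2, h3⟩ := hh
  obtain ⟨M, hM1, hM2, hM3⟩ := hr.core
  have hz := Rm_ZZ hG hI hr
  set n1 := connCore hG C n with hn1def
  set z := nc hG C r with hzdef
  have hnp : ∀ v ∈ perp 𝒟.q C.W, n.δ v ∈ perp 𝒟.q C.W := by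
    intro v hv w hw
    have h1 := n.metric v w
    rw [hv w hw, map_zero, hv _ (hnW w hw), add_zero] at h1
    exact h1.symm
  have hnv : ∀ v : C.V1, n.δ (v : V) = (n1.δ v : V) := fun v =>
    (P_of_mem hG hI (hnW _ (C.V1_le v.2))).symm
  have hM3' := P_om hG hM3
  have hMΔ := hΔc M hM1 hM2
  let M' : End L C.V1 := brk n1 M + M * Δ
  let r' : J → V := fun l => (M' (C.P hq (t l)) : V) + n.δ (z l)
  have hr1 : ∀ l, r l = (M (C.P hq (t l)) : V) + z l := fun l => by
    rw [← hM3, hzdef, nc, add_sub_cancel]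
  have hr2 : ∀ l, 𝒟.om r l = (M (C.P hq (𝒟.om t l)) : V) + 𝒟.om z l := fun l => by
    rw [← hM3', hzdef, om_nc, add_sub_cancel]
  have hr'2 : ∀ l, 𝒟.om r' l = (M' (C.P hq (𝒟.om t l)) : V) + n.δ (𝒟.om z l) := fun l => by
    rw [hnz z hz]
    simp only [Cfg.om, r', smul_add, Finset.sum_add_distrib, map_sum, map_smul,
      Submodule.coe_sum, Submodule.coe_smul]
  have hMt : ∀ (a : Fin 3) (y : C.V1), n1.δ y = (if a = s then Y' else 0) y + Δ y →
      n1.δ (M y) = M' y + (if a = s then M * Y' else 0) y := by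
    intro a y hy
    rw [brk_eq, hy, map_add]
    show _ = brk n1 M y + M (Δ y) + _
    split_ifs
    · rw [Module.End.mul_apply]; abel
    · rw [LinearMap.zero_apply, map_zero, zero_add, add_zero]
  have hd1 : ∀ l, n.δ (r l) =
      r' l + ((if 𝒟.arm l = s then M * Y' else 0) (C.P hq (t l)) : C.V1) := fun l => by
    rw [hr1, map_add, hnv, hMt _ _ (hnt l), Submodule.coe_add]
    show _ = (M' (C.P hq (t l)) : V) + n.δ (z l) + _
    abel
  have hd2 : ∀ l, n.δ (𝒟.om r l) =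
      𝒟.om r' l + ((if 𝒟.arm l = s then M * Y' else 0) (C.P hq (𝒟.om t l)) : C.V1) := fun l => by
    rw [hr2, map_add, hnv, hMt _ _ (hnu l), Submodule.coe_add, hr'2]
    abel
  -- the family `r'` is good
  have hM'S : ∀ a, M' * C.S1 hq a = C.S1 hq a * M' := by
    intro a
    have e1 := congrArg (brk n1) (hM2 a)
    rw [brk_mul, brk_mul, hnS] at e1
    exact ring_aux2 (hM2 a) (hΔS a) hMΔ (by rw [two_smul] at e1; exact e1)
  have hRm : Rm hG C r' := by
    refine ⟨⟨M', ?_, hM'S, fun l => ?_⟩, ?_⟩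
    · refine sa_add (brk_SA n1 hM1) fun u v => ?_
      have := LinearMap.congr_fun hMΔ v
      rw [Module.End.mul_apply, hM1, hΔ, ← Module.End.mul_apply, ← hMΔ]
    · show C.P hq ((M' (C.P hq (t l)) : V) + n.δ (z l)) = _
      rw [map_add, C.P_coe, C.P_eq_zero hq (hnp _ (hz.mem l)), add_zero]
    · intro a v hv
      have hv' : ∀ y : C.V1, 𝒟.q (y : V) v = 0 := fun y => by
        rw [hq.symm]; exact hv _ (C.V1_le y.2)
      have e1 := congrArg n1.δ (hz.off a v)
      have e2 := hz.off a (n.δ v)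
      have e3 := congrArg ((if a = s then Y' else 0) + Δ) (hz.off a v)
      rw [P_opr hG, map_sum, map_zero] at e1 e3
      rw [P_opr hG] at e2 ⊢
      have e4 : ∑ l with 𝒟.arm l = a, (𝒟.q (𝒟.om r' l) v • C.P hq (t l) +
          𝒟.q (r' l) v • C.P hq (𝒟.om t l)) =
          ∑ l with 𝒟.arm l = a, n1.δ (𝒟.q (𝒟.om z l) v • C.P hq (t l) +
            𝒟.q (z l) v • C.P hq (𝒟.om t l)) -
          ∑ l with 𝒟.arm l = a, (𝒟.q (𝒟.om z l) (n.δ v) • C.P hq (t l) +
            𝒟.q (z l) (n.δ v) • C.P hq (𝒟.om t l)) -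
          ∑ l with 𝒟.arm l = a, ((if a = s then Y' else 0) + Δ)
            (𝒟.q (𝒟.om z l) v • C.P hq (t l) + 𝒟.q (z l) v • C.P hq (𝒟.om t l)) := by
        rw [← Finset.sum_sub_distrib, ← Finset.sum_sub_distrib]
        refine Finset.sum_congr rfl fun l hl => ?_
        have hl' : 𝒟.arm l = a := (Finset.mem_filter.1 hl).2
        have f1 : 𝒟.q (𝒟.om r' l) v = 𝒟.q (n.δ (𝒟.om z l)) v := by
          rw [hr'2, map_add, LinearMap.add_apply, hv', zero_add]
        have f2 : 𝒟.q (r' l) v = 𝒟.q (n.δ (z l)) v := by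
          show 𝒟.q ((M' (C.P hq (t l)) : V) + n.δ (z l)) v = _
          rw [map_add, LinearMap.add_apply, hv', zero_add]
        have g1 := hnt l
        have g2 := hnu l
        rw [hl', ← LinearMap.add_apply] at g1 g2
        have m1 : n1.d (𝒟.q (𝒟.om z l) v) = 𝒟.q (n.δ (𝒟.om z l)) v + 𝒟.q (𝒟.om z l) (n.δ v) :=
          n.metric _ _
        have m2 : n1.d (𝒟.q (z l) v) = 𝒟.q (n.δ (z l)) v + 𝒟.q (z l) (n.δ v) := n.metric _ _
        rw [f1, f2, map_add, map_add, n1.smul, n1.smul, m1, m2, g1, g2, map_smul, map_smul]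
        module
      rw [e4, e1, e2, e3, sub_zero, sub_zero]
  refine ⟨M, hM1, hM2, r', hRm, fun l hl => ?_, fun l hl => ?_⟩
  · obtain ⟨p1, p2⟩ := h2 l hl
    have hC : 𝒟.C l = 𝒟.F s (𝒟.c l) := by rw [Cfg.C, hl]
    rw [hC] at p1 p2 ⊢
    have gen : ∀ y : C.V1, n1.δ y = Y' y + Δ y → ∀ x x' : V, C.P hq x = M y →
        n.δ x = x' + ((M * Y') y : C.V1) →
        n.δ ((h y : V) - x) - ext0 hG C Y ((h y : V) - x) =
          (((brk n1 h + h * Y' + h * Δ - Y * h - (M * Y' - Y * M)) y : C.V1) : V) - x' := by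
      intro y hy x x' hx hx'
      rw [map_sub, map_sub, hnv, brk_eq, hy, hx', ext0_apply, ext0_apply, C.P_coe, hx]
      simp only [map_add, LinearMap.sub_apply, LinearMap.add_apply, Module.End.mul_apply,
        Submodule.coe_add, Submodule.coe_sub]
      abel
    constructor
    · rw [← gen _ (by simpa only [hl, if_true] using hnt l) (r l) (r' l) (hM3 l)
        (by simpa only [hl, if_true] using hd1 l)]
      exact hn1 _ _ p1
    · rw [← gen _ (by simpa only [hl, if_true] using hnu l) (𝒟.om r l) (𝒟.om r' l) (hM3' l)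
        (by simpa only [hl, if_true] using hd2 l)]
      exact conn_perp n (ext0_sk hG hY) (hn1 _) _ p2
  · obtain ⟨p1, p2⟩ := h3 l hl
    have e1 := hd1 l
    have e2 := hd2 l
    rw [if_neg hl, LinearMap.zero_apply, Submodule.coe_zero, add_zero] at e1 e2
    rw [← e1, ← e2]
    refine ⟨hn2 _ hl _ _ p1, ?_⟩
    have := conn_perp n (Y := 0) (fun u v => by simp) (F := 𝒟.C l)
      (fun v hv => by
        rw [LinearMap.zero_apply, sub_zero]
        exact hn2 _ hl _ v hv) _ p2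
    rwa [LinearMap.zero_apply, sub_zero] at this

/-- **The derivation step** (notes E2 (4)-(6) of helper534). -/
theorem der_HH (hG : 𝒟.Good) (hV : 𝒟.Versal) (hI : C.I = ⊥) (ht : t ∈ 𝒟.K) {t' : J → V}
    (ht' : t' ∈ 𝒟.K) (hK : ∀ r ∈ 𝒟.K, ∃ a b : L, r = a • t + b • t') {κ : Type*} [Fintype κ]
    {D : End L C.V1} {P : κ → End L C.V1} {d : κ → L} (hDP : Diag D P d)
    (hP : ∀ i, IsSA C.q1 (P i)) (hPS : ∀ i a, P i * C.S1 hG.form a = C.S1 hG.form a * P i)
    (hD : ∀ l, C.P hG.form (t' l) = D (C.P hG.form (t l)))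
    (hcen : ∀ M : End L C.V1, IsSA C.q1 M →
      (∀ a, M * C.S1 hG.form a = C.S1 hG.form a * M) → M * D = D * M)
    {x : L} (hx : GoodL hG (t' := t') C D x) (s : Fin 3)
    (H2 : ∀ h : End L C.V1, (∀ i, P i * h * P i = 0) →
      (∀ c : ℕ, ∀ v ∈ LinearMap.range (C.S1 hG.form s ^ c),
        h v ∈ LinearMap.range (C.S1 hG.form s ^ c)) → h ∈ HH hG C s)
    {Y Y' : End L C.V1} (hY : IsSk C.q1 Y) (hYo : ∀ i, P i * Y * P i = 0)
    (hYS : Y * ((1 + x • D) ^ 2 * C.S1 hG.form s) = (1 + x • D) ^ 2 * C.S1 hG.form s * Y)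
    (hY' : (1 + x • D) * Y' = Y * (1 + x • D)) {h : End L C.V1} (hho : ∀ i, P i * h * P i = 0)
    (hhr : ∀ c : ℕ, ∀ v ∈ LinearMap.range (C.S1 hG.form s ^ c),
      h v ∈ LinearMap.range (C.S1 hG.form s ^ c)) :
    h * Y' - Y * h ∈ HH hG C s := by
  have hq := hG.form
  obtain ⟨n, Δ, hn1, hn2, hnW, hnz, hnt, hnu, hnS, hnP, hΔ, hΔc⟩ :=
    exists_der hG hV hI ht ht' hK hDP hP hPS hD hx s hY hYS hY'
  have hDS : ∀ a, C.S1 hq a * D = D * C.S1 hq a := fun a =>
    hDP.comm_of_comm fun i => (hPS i a).symm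
  have hΔS : ∀ a, C.S1 hq a * Δ = Δ * C.S1 hq a := fun a => hΔc _ (hDS a)
  have hΔP : ∀ i, P i * Δ = Δ * P i := fun i => hΔc _ (by rw [hDP.mul_D, hDP.D_mul])
  obtain ⟨M, hM1, hM2, hM3⟩ := HH_der hG hI hY hn1 hn2 hnW hnz hnt hnu hnS hΔ hΔS
    (fun M h1 h2 => hΔc M (hcen M h1 h2)) (H2 h hho hhr)
  set n1 := connCore hG C n with hn1def
  set S := C.S1 hq s with hSdef
  have hMD := hcen M hM1 hM2
  have hMP : ∀ i, M * P i = P i * M := fun i => hDP.comm_P hMD i
  -- the inverse of `1 + x D`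
  obtain ⟨u, hu⟩ := hx.unit
  obtain ⟨g', hgg', hg'g⟩ : ∃ g' : End L C.V1, (1 + x • D) * g' = 1 ∧ g' * (1 + x • D) = 1 :=
    ⟨↑u⁻¹, by rw [← hu, Units.mul_inv], by rw [← hu, Units.inv_mul]⟩
  have hgD : ∀ N : End L C.V1, N * D = D * N → N * (1 + x • D) = (1 + x • D) * N := fun N hN => by
    rw [mul_add, add_mul, mul_one, one_mul, mul_smul_comm, smul_mul_assoc, hN]
  generalize hg : (1 + x • D : End L C.V1) = g at *
  have hg'D : ∀ N : End L C.V1, N * D = D * N → N * g' = g' * N := fun N hN => by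
    have h1 := hgD N hN
    calc N * g' = g' * g * N * g' := by rw [hg'g, one_mul]
      _ = g' * (N * g) * g' := by rw [h1, mul_assoc g']
      _ = g' * N := by rw [mul_assoc, mul_assoc, hgg', mul_one]
  have hPD : ∀ i, P i * D = D * P i := fun i => by rw [hDP.mul_D, hDP.D_mul]
  have hY'e : Y' = g' * Y * g := by rw [mul_assoc, ← hY', ← mul_assoc, hg'g, one_mul]
  -- operators commuting with `S` preserve the ranges
  have pres : ∀ {N : End L C.V1}, S * N = N * S → ∀ c : ℕ, ∀ v ∈ LinearMap.range (S ^ c),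
      N v ∈ LinearMap.range (S ^ c) := by
    rintro N hN c _ ⟨w, rfl⟩
    have h1 : S ^ c * N = N * S ^ c := (Commute.pow_left hN c).eq
    exact ⟨N w, LinearMap.congr_fun h1 w⟩
  have hgS : S * g = g * S := hgD _ (hDS s)
  have hg'S : S * g' = g' * S := hg'D _ (hDS s)
  have hYr : ∀ c : ℕ, ∀ v ∈ LinearMap.range (S ^ c), Y v ∈ LinearMap.range (S ^ c) := by
    have h1 : ∀ c : ℕ, LinearMap.range (S ^ c) = LinearMap.range ((g ^ 2 * S) ^ c) := by
      intro c
      have h2 : Commute (g ^ 2) S := Commute.pow_left hgS.symm 2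
      have h3 : (g ^ 2 * S) ^ c = S ^ c * (g ^ 2) ^ c := by rw [h2.mul_pow, (h2.pow_pow c c).eq]
      have h4 : (g ^ 2) ^ c * (g' ^ 2) ^ c = 1 := by
        have h5 : Commute g g' := by show g * g' = g' * g; rw [hgg', hg'g]
        rw [← ((h5.pow_pow 2 2).mul_pow c), ← h5.mul_pow, hgg', one_pow, one_pow]
      apply le_antisymm
      · rintro _ ⟨w, rfl⟩
        refine ⟨((g' ^ 2) ^ c) w, ?_⟩
        rw [h3, ← Module.End.mul_apply, mul_assoc, h4, mul_one]
      · rintro _ ⟨w, rfl⟩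
        exact ⟨((g ^ 2) ^ c) w, by rw [h3]; rfl⟩
    intro c v hv
    rw [h1] at hv ⊢
    obtain ⟨w, rfl⟩ := hv
    have h2 : (g ^ 2 * S) ^ c * Y = Y * (g ^ 2 * S) ^ c := by
      have : Commute (g ^ 2 * S) Y := hYS.symm
      exact (this.pow_left c).eq
    exact ⟨Y w, LinearMap.congr_fun h2 w⟩
  have hMS : S * M = M * S := (hM2 s).symm
  -- the operator `M Y' - Y M`
  have k1 : M * Y' - Y * M ∈ HH hG C s := by
    apply H2
    · intro i
      have e1 : P i * (M * Y') * P i = 0 := by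
        calc P i * (M * Y') * P i = (P i * M) * (g' * Y * g) * P i := by
              rw [hY'e]; noncomm_ring
          _ = M * (P i * g') * Y * (g * P i) := by rw [← hMP]; noncomm_ring
          _ = M * g' * (P i * Y * P i) * g := by
              rw [hg'D _ (hPD i), ← hgD _ (hPD i)]; noncomm_ring
          _ = 0 := by rw [hYo, mul_zero, zero_mul]
      have e2 : P i * (Y * M) * P i = 0 := by
        calc P i * (Y * M) * P i = P i * Y * (M * P i) := by noncomm_ring
          _ = (P i * Y * P i) * M := by rw [hMP]; noncomm_ring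
          _ = 0 := by rw [hYo, zero_mul]
      rw [mul_sub, sub_mul, e1, e2, sub_zero]
    · intro c v hv
      rw [hY'e]
      exact sub_mem (pres hMS c _ (pres hg'S c _ (hYr c _ (pres hgS c _ hv))))
        (hYr c _ (pres hMS c _ hv))
  -- the operator `[n, h] + h Δ`
  have hnr : ∀ c : ℕ, ∀ v ∈ LinearMap.range (S ^ c), n1.δ v ∈ LinearMap.range (S ^ c) := by
    intro c
    induction c with
    | zero =>
      intro v _
      rw [pow_zero]
      exact ⟨n1.δ v, rfl⟩
    | succ c ih =>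
      rintro _ ⟨w, rfl⟩
      rw [pow_succ', Module.End.mul_apply, brk_eq, hnS s]
      have h1 := ih _ ⟨w, rfl⟩
      have h2 : ∀ y ∈ LinearMap.range (S ^ c), S y ∈ LinearMap.range (S * S ^ c) := by
        rintro _ ⟨y, rfl⟩
        exact ⟨y, rfl⟩
      refine add_mem ?_ (h2 _ h1)
      rw [LinearMap.smul_apply]
      refine Submodule.smul_mem _ _ ?_
      rw [← hΔS]
      exact h2 _ (pres (hΔS s) c _ ⟨w, rfl⟩)
  have k2 : brk n1 h + h * Δ ∈ HH hG C s := by
    apply H2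
    · intro i
      have e1 : P i * brk n1 h * P i = 0 := by
        have h1 := congrArg (brk n1) (hho i)
        rw [brk_mul, brk_mul, hnP, zero_mul, zero_add, mul_zero, add_zero, brk_zero] at h1
        exact h1
      have e2 : P i * (h * Δ) * P i = 0 := by
        calc P i * (h * Δ) * P i = P i * h * (Δ * P i) := by noncomm_ring
          _ = (P i * h * P i) * Δ := by rw [← hΔP]; noncomm_ring
          _ = 0 := by rw [hho, zero_mul]
      rw [mul_add, add_mul, e1, e2, add_zero]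
    · intro c v hv
      exact add_mem (sub_mem (hnr c _ (hhr c _ hv)) (hhr c _ (hnr c _ hv)))
        (hhr c _ (pres (hΔS s) c _ hv))
  have k3 : h * Y' - Y * h = (brk n1 h + h * Y' + h * Δ - Y * h - (M * Y' - Y * M)) +
      (M * Y' - Y * M) - (brk n1 h + h * Δ) := by abel
  rw [k3]
  exact sub_mem (add_mem hM3 k1) k2

end honest

end Vale.Agent.P182.H578
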