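import Vale.Agent.P182.H578.Tr
import Vale.Agent.P182.H62.BunHom

/-!
Comparison of the self-adjoint and the skew operators modulo a filtration.
-/

namespace Vale.Agent.P182.H578

open LinearMap Submodule Module Vale.Agent.P182.H430

universe u

variable {k F P : Type*} [Field k] [Field F] [Algebra k F] {C : Curve k F P}

section flat

variable {X : Type u} [AddCommGroup X] [Module F X] [Module k X] [IsScalarTower k F X]

/-- Euler characteristic of a subspace -/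
noncomputable def cs (𝓔 : Bun C X) (V : Submodule F X) : ℤ := chi (𝓔.sub V).lat

theorem cs_quo (𝓔 : Bun C X) {K V : Submodule F X} (h : K ≤ V) :
    chi ((𝓔.sub V).quo (K.comap V.subtype)).lat = cs 𝓔 V - cs 𝓔 K := by
  have h1 := (𝓔.sub V).chi_add (K.comap V.subtype)
  have h2 := ((𝓔.sub V).sub (K.comap V.subtype)).chi_eq_of_equiv (𝓔.sub K)
    (Submodule.comapSubtypeEquivOfLe h) (fun p x => Iff.rfl)
  have h3 : chi ((𝓔.sub V).sub (K.comap V.subtype)).lat = cs 𝓔 K := h2.1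
  unfold cs at *
  linarith

theorem cs_surj (𝓔 : Bun C X) {Y : Type*} [AddCommGroup Y] [Module F Y] [Module k Y]
    [IsScalarTower k F Y] (𝓨 : Bun C Y) {K V : Submodule F X} (h : K ≤ V) (f : V →ₗ[F] Y)
    (hf : Function.Surjective f) (hk : ∀ x : V, f x = 0 ↔ (x : X) ∈ K)
    (h1 : ∀ p (x : V), (x : X) ∈ 𝓔.lat p → f x ∈ 𝓨.lat p)
    (h2 : ∀ p y, y ∈ 𝓨.lat p → ∃ x : V, (x : X) ∈ 𝓔.lat p ∧ f x = y) :
    cs 𝓔 V = cs 𝓔 K + chi 𝓨.lat := by
  have h3 := (𝓔.sub V).chi_add_of_surj 𝓨 f hf h1 h2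
  have h4 : LinearMap.ker f = K.comap V.subtype := by
    ext x
    rw [LinearMap.mem_ker, hk]
    rfl
  rw [h4] at h3
  have h5 := ((𝓔.sub V).sub (K.comap V.subtype)).chi_eq_of_equiv (𝓔.sub K)
    (Submodule.comapSubtypeEquivOfLe h) (fun p x => Iff.rfl)
  unfold cs at *
  rw [h3, h5.1]

/-- comparison of two subquotients -/
theorem cs_swap (𝓔 : Bun C X) {K V K' V' : Submodule F X} (h : K ≤ V) (h' : K' ≤ V')
    (f : V →ₗ[F] V') (g : V' →ₗ[F] V)
    (hfK : ∀ x : V, (x : X) ∈ K → (f x : X) ∈ K') (hgK : ∀ x : V', (x : X) ∈ K' → (g x : X) ∈ K)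
    (hgf : ∀ x : V, (g (f x) : X) - x ∈ K) (hfg : ∀ x : V', (f (g x) : X) - x ∈ K')
    (hf : ∀ p (x : V), (x : X) ∈ 𝓔.lat p → ∃ y : V', (y : X) ∈ 𝓔.lat p ∧ (f x : X) - y ∈ K')
    (hg : ∀ p (x : V'), (x : X) ∈ 𝓔.lat p → ∃ y : V, (y : X) ∈ 𝓔.lat p ∧ (g x : X) - y ∈ K) :
    cs 𝓔 V - cs 𝓔 K = cs 𝓔 V' - cs 𝓔 K' := by
  rw [← cs_quo 𝓔 h, ← cs_quo 𝓔 h']
  let A := K.comap V.subtype
  let A' := K'.comap V'.subtype
  let fq : (V ⧸ A) →ₗ[F] (V' ⧸ A') := A.mapQ A' f hfK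
  let gq : (V' ⧸ A') →ₗ[F] (V ⧸ A) := A'.mapQ A g hgK
  let e : (V ⧸ A) ≃ₗ[F] (V' ⧸ A') := LinearEquiv.ofLinearMap fq gq
    (by
      apply LinearMap.ext
      intro z
      obtain ⟨x, rfl⟩ := A'.mkQ_surjective z
      exact (Submodule.Quotient.eq A').2 (hfg x))
    (by
      apply LinearMap.ext
      intro z
      obtain ⟨x, rfl⟩ := A.mkQ_surjective z
      exact (Submodule.Quotient.eq A).2 (hgf x))
  refine (((𝓔.sub V).quo A).chi_eq_of_equiv ((𝓔.sub V').quo A') e ?_).1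
  intro p z
  constructor
  · rintro ⟨x, hx, rfl⟩
    obtain ⟨y, hy, hxy⟩ := hf p x hx
    refine ⟨y, hy, ?_⟩
    exact ((Submodule.Quotient.eq A').2 hxy).symm
  · intro hz
    obtain ⟨x, hx, hxz⟩ := hz
    obtain ⟨y, hy, hxy⟩ := hg p x hx
    refine ⟨y, hy, ?_⟩
    have h3 : z = e.symm (A'.mkQ x) := by
      rw [show A'.mkQ x = e z from hxz, LinearEquiv.symm_apply_apply]
    rw [h3]
    exact ((Submodule.Quotient.eq A).2 hxy).symm

end flat

variable {E : Type u} [AddCommGroup E] [Module F E] [Module k E] [IsScalarTower k F E]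
  [FiniteDimensional F E]

/-- self-duality of a bundle with a form -/
def SelfDual (N : Bun C E) (B : LinearMap.BilinForm F E) : Prop :=
  ∀ p a x, x ∈ (N.ch p).L a ↔
    ∀ b y, y ∈ (N.ch p).L b → B x y ∈ (C.pl p).M (C.per p) (a + b)

/-- adjoints preserve the levels -/
theorem SelfDual.adj_mem {N : Bun C E} {B : LinearMap.BilinForm F E} (hs : SelfDual N B)
    {T T' : E →ₗ[F] E} (h : ∀ x y, B (T' x) y = B x (T y)) {p : P} {c : ℤ}
    (hT : T ∈ ((N.hom N).ch p).L c) : T' ∈ ((N.hom N).ch p).L c := by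
  intro b x hx
  rw [hs]
  intro b' y hy
  rw [h]
  have h1 := (hs p b x).1 hx _ _ (hT b' y hy)
  rwa [show b + c + b' = b + (b' + c) by ring]

/-- the space of bilinear forms -/
def Frm (F : Type*) [Field F] (Q : Type*) [AddCommGroup Q] [Module F Q] : Type _ :=
  Q →ₗ[F] Q →ₗ[F] F

instance (F : Type*) [Field F] (Q : Type*) [AddCommGroup Q] [Module F Q] :
    AddCommGroup (Frm F Q) := inferInstanceAs (AddCommGroup (Q →ₗ[F] Q →ₗ[F] F))

instance (F : Type*) [Field F] (Q : Type*) [AddCommGroup Q] [Module F Q] :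
    Module F (Frm F Q) := inferInstanceAs (Module F (Q →ₗ[F] Q →ₗ[F] F))

instance (k F : Type*) [Field k] [Field F] [Algebra k F] (Q : Type*) [AddCommGroup Q]
    [Module F Q] [Module k Q] [IsScalarTower k F Q] :
    Module k (Frm F Q) := inferInstanceAs (Module k (Q →ₗ[F] Q →ₗ[F] F))

instance (k F : Type*) [Field k] [Field F] [Algebra k F] (Q : Type*) [AddCommGroup Q]
    [Module F Q] [Module k Q] [IsScalarTower k F Q] :
    IsScalarTower k F (Frm F Q) := inferInstanceAs (IsScalarTower k F (Q →ₗ[F] Q →ₗ[F] F))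

/-- the underlying bilinear map -/
def Frm.toL {F : Type*} [Field F] {Q : Type*} [AddCommGroup Q] [Module F Q] (β : Frm F Q) :
    Q →ₗ[F] Q →ₗ[F] F := β

/-- evaluation of a form -/
def Frm.ap {F : Type*} [Field F] {Q : Type*} [AddCommGroup Q] [Module F Q] (β : Frm F Q)
    (x y : Q) : F := β.toL x y

theorem Frm.ext' {F : Type*} [Field F] {Q : Type*} [AddCommGroup Q] [Module F Q] {β γ : Frm F Q}
    (h : ∀ x y, β.ap x y = γ.ap x y) : β = γ := by
  have h1 : β.toL = γ.toL := LinearMap.ext fun x => LinearMap.ext fun y => h x y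
  exact h1

theorem Frm.ap_add {F : Type*} [Field F] {Q : Type*} [AddCommGroup Q] [Module F Q]
    (β γ : Frm F Q) (x y : Q) : (β + γ).ap x y = β.ap x y + γ.ap x y := rfl

theorem Frm.ap_smul {F : Type*} [Field F] {Q : Type*} [AddCommGroup Q] [Module F Q]
    (c : F) (γ : Frm F Q) (x y : Q) : (c • γ).ap x y = c * γ.ap x y := rfl

theorem Frm.ap_zero {F : Type*} [Field F] {Q : Type*} [AddCommGroup Q] [Module F Q]
    (x y : Q) : (0 : Frm F Q).ap x y = 0 := rfl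

/-- `ε`-symmetric forms -/
def fm (F : Type*) [Field F] (Q : Type*) [AddCommGroup Q] [Module F Q] (ε : F) :
    Submodule F (Frm F Q) where
  carrier := {β | ∀ x y, β.ap x y = ε * β.ap y x}
  zero_mem' := fun x y => by rw [Frm.ap_zero, Frm.ap_zero, mul_zero]
  add_mem' := fun {S T} hS hT x y => by
    rw [Frm.ap_add, Frm.ap_add, hS x y, hT x y, mul_add]
  smul_mem' := fun c T hT x y => by
    rw [Frm.ap_smul, Frm.ap_smul, hT x y]
    ring

/-- the bundle of bilinear forms -/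
noncomputable def frm {Q : Type u} [AddCommGroup Q] [Module F Q] [Module k Q]
    [IsScalarTower k F Q] [FiniteDimensional F Q] (N : Bun C Q) : Bun C (Frm F Q) := N.bil

/-- the form of an operator, on a subspace -/
def resL (B : LinearMap.BilinForm F E) (Q : Submodule F E) :
    (E →ₗ[F] E) →ₗ[F] (Q →ₗ[F] Q →ₗ[F] F) where
  toFun T := (B.compl₁₂ (T ∘ₗ Q.subtype) Q.subtype)
  map_add' S T := by
    ext x y
    simp
  map_smul' c T := by
    ext x y
    simp

/-- the form of an operator, on a subspace -/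
def res (B : LinearMap.BilinForm F E) (Q : Submodule F E) :
    (E →ₗ[F] E) →ₗ[F] Frm F Q := resL B Q

theorem mem_fm {F : Type*} [Field F] {Q : Type*} [AddCommGroup Q] [Module F Q] {ε : F}
    {β : Frm F Q} : β ∈ fm F Q ε ↔ ∀ x y, β.ap x y = ε * β.ap y x := Iff.rfl

omit [Module k E] [IsScalarTower k F E] [FiniteDimensional F E] in
theorem res_apply (B : LinearMap.BilinForm F E) (Q : Submodule F E) (T : E →ₗ[F] E) (x y : Q) :
    (res B Q T).ap x y = B (T x) y := rfl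

section swap

variable {B : LinearMap.BilinForm F E}

omit [Module k E] [IsScalarTower k F E] [FiniteDimensional F E] in
theorem res_fm {ε : F} (hB : ∀ x y, B x y = B y x) {Q : Submodule F E} {T : E →ₗ[F] E}
    (hT : T ∈ adj B ε) : res B Q T ∈ fm F Q ε := by
  intro x y
  rw [res_apply, res_apply, hT, hB]

/-- the operators with vanishing form on `Q` -/
def Rk (B : LinearMap.BilinForm F E) (Q : Submodule F E) (ε : F) : Submodule F (E →ₗ[F] E) :=
  adj B ε ⊓ LinearMap.ker (res B Q)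

omit [Module k E] [IsScalarTower k F E] [FiniteDimensional F E] in
theorem mem_Rk {Q : Submodule F E} {ε : F} {T : E →ₗ[F] E} :
    T ∈ Rk B Q ε ↔ T ∈ adj B ε ∧ ∀ x ∈ Q, ∀ y ∈ Q, B (T x) y = 0 := by
  unfold Rk
  rw [Submodule.mem_inf, LinearMap.mem_ker]
  refine and_congr_right fun _ => ⟨fun h x hx y hy => ?_, fun h => ?_⟩
  · have := congrArg (fun β : Frm F Q => β.ap ⟨x, hx⟩ ⟨y, hy⟩) h
    exact this
  · apply Frm.ext'
    intro x y
    exact h x x.2 y y.2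

/-- lifting a form on `Q` to an operator -/
theorem exists_lift_form {N : Bun C E} (hs : SelfDual N B)
    (hB : ∀ x y, B x y = B y x) (hnd : ∀ x, (∀ y, B x y = 0) → x = 0) (Q : Submodule F E)
    {ε : F} {β : Frm F Q} (hβ : β ∈ fm F Q ε) {g : E →ₗ[F] Q}
    (hg : ∀ x : Q, g x = x) : ∃ T ∈ adj B ε, res B Q T = β ∧
      ∀ p, (∀ a x, x ∈ (N.ch p).L a → (g x : E) ∈ (N.ch p).L a) → β ∈ (frm (N.sub Q)).lat p →
        T ∈ (N.hom N).lat p := by
  have hinj : Function.Injective B := by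
    rw [injective_iff_map_eq_zero]
    intro x hx
    exact hnd x fun y => by rw [hx]; rfl
  have hd : Module.finrank F E = Module.finrank F (E →ₗ[F] F) :=
    (Subspace.dual_finrank_eq (K := F) (V := E)).symm
  let e : E ≃ₗ[F] (E →ₗ[F] F) := LinearEquiv.ofInjectiveOfFinrankEq B hinj hd
  have he : ∀ x, e x = B x := fun x => rfl
  let T : E →ₗ[F] E := e.symm.toLinearMap ∘ₗ (β.toL.compl₁₂ g g)
  have hT : ∀ x y, B (T x) y = β.ap (g x) (g y) := by
    intro x y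
    rw [← he]
    simp only [T, LinearMap.comp_apply, LinearEquiv.coe_coe, LinearEquiv.apply_symm_apply]
    rfl
  refine ⟨T, ?_, ?_, ?_⟩
  · intro x y
    rw [hT, hB, hT, mem_fm.1 hβ]
  · apply Frm.ext'
    intro x y
    rw [res_apply, hT, hg, hg]
  · intro p hgp hβp b x hx
    rw [hs, add_zero]
    intro b' y hy
    rw [hT]
    have h1 := ((N.ch p).sub Q).mem_bil.1 hβp b (g x) (hgp b x hx) b' (g y) (hgp b' y hy)
    rw [add_zero] at h1
    exact h1

theorem cs_adj {N : Bun C E} (hs : SelfDual N B)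
    (hB : ∀ x y, B x y = B y x) (hnd : ∀ x, (∀ y, B x y = 0) → x = 0) (Q : Submodule F E)
    (ε : F) : cs (N.hom N) (adj B ε) = cs (N.hom N) (Rk B Q ε) +
      chi ((frm (N.sub Q)).sub (fm F Q ε)).lat := by
  let f : adj B ε →ₗ[F] fm F Q ε :=
    ((res B Q).domRestrict (adj B ε)).codRestrict (fm F Q ε) fun T => res_fm hB T.2
  refine cs_surj (N.hom N) ((frm (N.sub Q)).sub (fm F Q ε)) inf_le_left f ?_ ?_ ?_ ?_
  · intro β
    obtain ⟨g0, hg0⟩ := LinearMap.exists_leftInverse_of_injective Q.subtype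
      (by rw [Submodule.ker_subtype])
    obtain ⟨T, hT, hTβ, -⟩ := exists_lift_form hs hB hnd Q β.2 (g := g0)
      (fun x => LinearMap.congr_fun hg0 x)
    exact ⟨⟨T, hT⟩, Subtype.ext hTβ⟩
  · intro T
    constructor
    · intro h
      refine Submodule.mem_inf.2 ⟨T.2, ?_⟩
      have := congrArg Subtype.val h
      exact this
    · intro h
      apply Subtype.ext
      exact (Submodule.mem_inf.1 h).2
  · intro p T hT
    show res B Q T ∈ (frm (N.sub Q)).lat p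
    refine ((N.ch p).sub Q).mem_bil.2 ?_
    intro a x hx b y hy
    have h1 := hT a x hx
    have h2 := (hs p (a + 0) _).1 h1 b y hy
    rw [show a + b + 0 = a + 0 + b by ring]
    exact h2
  · intro p β hβ
    obtain ⟨e, he1, he2, he3⟩ := (N.ch p).exists_proj Q
    let g : E →ₗ[F] Q := e.codRestrict Q he1
    obtain ⟨T, hT, hTβ, hTp⟩ := exists_lift_form hs hB hnd Q β.2 (g := g)
      (fun x => Subtype.ext (he2 x x.2))
    exact ⟨⟨T, hT⟩, hTp p (fun a x hx => he3 a x hx) hβ, Subtype.ext hTβ⟩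

/-- the swap operator -/
def sw (g g' : E →ₗ[F] E) : (E →ₗ[F] E) →ₗ[F] (E →ₗ[F] E) where
  toFun T := T * g - g' * T
  map_add' S T := by
    rw [add_mul, mul_add]
    abel
  map_smul' c T := by
    rw [smul_mul_assoc, mul_smul_comm, RingHom.id_apply, smul_sub]

section sw

variable {Q : Submodule F E} {g g' : E →ₗ[F] E}

omit [Module k E] [IsScalarTower k F E] [FiniteDimensional F E] in
theorem sw_form (hg' : ∀ x y, B (g' x) y = B x (g y)) (T : E →ₗ[F] E) (x y : E) :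
    B (sw g g' T x) y = B (T (g x)) y - B (T x) (g y) := by
  show B ((T * g - g' * T) x) y = _
  rw [LinearMap.sub_apply, map_sub, LinearMap.sub_apply, Module.End.mul_apply,
    Module.End.mul_apply, hg']

omit [Module k E] [IsScalarTower k F E] [FiniteDimensional F E] in
theorem sw_mem (hB : ∀ x y, B x y = B y x) (hg1 : ∀ x ∈ Q, g x = x)
    (hg' : ∀ x y, B (g' x) y = B x (g y)) {ε : F} (hε : ε * ε = 1) {T : E →ₗ[F] E}
    (hT : T ∈ Rk B Q ε) : sw g g' T ∈ Rk B Q (-ε) := by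
  rw [mem_Rk] at hT ⊢
  refine ⟨fun x y => ?_, fun x hx y hy => ?_⟩
  · rw [hB x, sw_form hg', sw_form hg']
    have h2 : B (T y) (g x) = ε * B (T (g x)) y := by rw [hT.1 y (g x), hB y]
    have h3 : B (T x) (g y) = ε * B (T (g y)) x := by rw [hT.1 x (g y), hB x]
    rw [h2, h3]
    linear_combination (-(B (T (g x)) y)) * hε
  · rw [sw_form hg', hg1 x hx, hg1 y hy, sub_self]

omit [Module k E] [IsScalarTower k F E] [FiniteDimensional F E] in
theorem sw_left (hg : ∀ x, g x ∈ Q) (hg1 : ∀ x ∈ Q, g x = x)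
    (hg' : ∀ x y, B (g' x) y = B x (g y)) {ε : F} {T : E →ₗ[F] E}
    (hT : T ∈ Rk B Q ε) {x : E} (hx : x ∈ Q) (y : E) :
    B (sw g g' T x) y = B (T x) y := by
  rw [sw_form hg', hg1 x hx, (mem_Rk.1 hT).2 x hx _ (hg y), sub_zero]

omit [Module k E] [IsScalarTower k F E] [FiniteDimensional F E] in
theorem sw_right (hg : ∀ x, g x ∈ Q) (hg1 : ∀ x ∈ Q, g x = x)
    (hg' : ∀ x y, B (g' x) y = B x (g y)) {ε : F} {T : E →ₗ[F] E}
    (hT : T ∈ Rk B Q ε) (x : E) {y : E} (hy : y ∈ Q) :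
    B (sw g g' T x) y = - B (T x) y := by
  rw [sw_form hg', hg1 y hy, (mem_Rk.1 hT).2 _ (hg x) y hy, zero_sub]

end sw

section rk

variable {fil : ℤ → Submodule F E}

omit [Module k E] [IsScalarTower k F E] [FiniteDimensional F E] in
/-- a criterion for positivity -/
theorem mem_Ef_of_form (hf : Antitone fil)
    (hdual : ∀ i x, x ∈ fil i ↔ ∀ y ∈ fil (1 - i), B x y = 0) {c : ℤ} (hc : c ≤ 0)
    {Z : E →ₗ[F] E} (h1 : ∀ x ∈ fil 1, ∀ y, B (Z x) y = 0)
    (h2 : ∀ x, ∀ y ∈ fil 1, B (Z x) y = 0) : Z ∈ Ef fil c := by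
  intro i x hx
  rw [hdual]
  intro y hy
  rcases le_or_gt 1 i with hi | hi
  · exact h1 x (hf hi hx) y
  · exact h2 x y (hf (by omega) hy)

omit [Module k E] [IsScalarTower k F E] [FiniteDimensional F E] in
theorem le_Rk (hf : Antitone fil)
    (hdual : ∀ i x, x ∈ fil i ↔ ∀ y ∈ fil (1 - i), B x y = 0) {c : ℤ} (hc : -1 ≤ c) (ε : F) :
    adj B ε ⊓ Ef fil c ≤ Rk B (fil 1) ε := by
  intro T hT
  rw [mem_Rk]
  refine ⟨(Submodule.mem_inf.1 hT).1, fun x hx y hy => ?_⟩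
  exact (hdual _ _).1 ((Submodule.mem_inf.1 hT).2 1 x hx) y (hf (by omega) hy)

theorem exists_sw_aux {N : Bun C E} (hs : SelfDual N B)
    (hB : ∀ x y, B x y = B y x) (hnd : ∀ x, (∀ y, B x y = 0) → x = 0)
    (hf : Antitone fil) (hdual : ∀ i x, x ∈ fil i ↔ ∀ y ∈ fil (1 - i), B x y = 0) {c : ℤ}
    (hc : c ≤ 0) {g g' : E →ₗ[F] E} (hg : ∀ x, g x ∈ fil 1)
    (hg1 : ∀ x ∈ fil 1, g x = x) (hg' : ∀ x y, B (g' x) y = B x (g y)) {ε : F}
    (hε : ε * ε = 1) {T : E →ₗ[F] E} (hT : T ∈ Rk B (fil 1) ε) (p : P)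
    (hTp : T ∈ (N.hom N).lat p) :
    ∃ Z ∈ Rk B (fil 1) (-ε), Z ∈ (N.hom N).lat p ∧ sw g g' T - Z ∈ adj B (-ε) ⊓ Ef fil c := by
  obtain ⟨e, he1, he2, he3⟩ := (N.ch p).exists_proj (fil 1)
  obtain ⟨e', he'⟩ := exists_adj hnd e
  have hep : e ∈ ((N.hom N).ch p).L 0 := fun b x hx => by
    rw [add_zero]; exact he3 b x hx
  have hep' := hs.adj_mem he' hep
  refine ⟨sw e e' T, sw_mem hB he2 he' hε hT, ?_, ?_, ?_⟩
  · refine Submodule.sub_mem _ ?_ ?_
    · have := LChain.comp_mem _ _ _ hep hTp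
      rwa [add_zero] at this
    · have := LChain.comp_mem _ _ _ hTp hep'
      rwa [add_zero] at this
  · exact Submodule.sub_mem _ (mem_Rk.1 (sw_mem hB hg1 hg' hε hT)).1
      (mem_Rk.1 (sw_mem hB he2 he' hε hT)).1
  · apply mem_Ef_of_form hf hdual hc
    · intro x hx y
      rw [LinearMap.sub_apply, map_sub, LinearMap.sub_apply, sw_left hg hg1 hg' hT hx,
        sw_left he1 he2 he' hT hx, sub_self]
    · intro x y hy
      rw [LinearMap.sub_apply, map_sub, LinearMap.sub_apply, sw_right hg hg1 hg' hT x hy,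
        sw_right he1 he2 he' hT x hy, sub_self]

theorem cs_Rk {N : Bun C E} (hs : SelfDual N B)
    (hB : ∀ x y, B x y = B y x) (hnd : ∀ x, (∀ y, B x y = 0) → x = 0)
    (hf : Antitone fil) (hdual : ∀ i x, x ∈ fil i ↔ ∀ y ∈ fil (1 - i), B x y = 0) {c : ℤ}
    (hc' : -1 ≤ c) (hc : c ≤ 0) :
    cs (N.hom N) (Rk B (fil 1) 1) - cs (N.hom N) (adj B 1 ⊓ Ef fil c) =
      cs (N.hom N) (Rk B (fil 1) (-1)) - cs (N.hom N) (adj B (-1) ⊓ Ef fil c) := by
  obtain ⟨g0, hg0⟩ := LinearMap.exists_leftInverse_of_injective (fil 1).subtype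
    (by rw [Submodule.ker_subtype])
  let g : E →ₗ[F] E := (fil 1).subtype ∘ₗ g0
  have hg : ∀ x, g x ∈ fil 1 := fun x => (g0 x).2
  have hg1 : ∀ x ∈ fil 1, g x = x := fun x hx => by
    have := LinearMap.congr_fun hg0 ⟨x, hx⟩
    exact congrArg Subtype.val this
  obtain ⟨g', hg'⟩ := exists_adj hnd g
  have e1 : (1 : F) * 1 = 1 := one_mul 1
  have e2 : (-1 : F) * (-1) = 1 := by ring
  have m1 : ∀ T ∈ Rk B (fil 1) (1 : F), sw g g' T ∈ Rk B (fil 1) (-1 : F) :=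
    fun T hT => sw_mem hB hg1 hg' e1 hT
  have m2 : ∀ T ∈ Rk B (fil 1) (-1 : F), sw g g' T ∈ Rk B (fil 1) (1 : F) :=
    fun T hT => by
      have := sw_mem hB hg1 hg' e2 hT
      rwa [neg_neg] at this
  let f : Rk B (fil 1) (1 : F) →ₗ[F] Rk B (fil 1) (-1 : F) :=
    ((sw g g').domRestrict _).codRestrict _ fun T => m1 T T.2
  let h : Rk B (fil 1) (-1 : F) →ₗ[F] Rk B (fil 1) (1 : F) :=
    ((sw g g').domRestrict _).codRestrict _ fun T => m2 T T.2
  have key1 : ∀ (ε : F), ε * ε = 1 → ∀ T ∈ Rk B (fil 1) ε, T ∈ Ef fil c →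
      sw g g' T ∈ Ef fil c := by
    intro ε hε T hT hTc i x hx
    rw [hdual]
    intro y hy
    rcases le_or_gt 1 i with hi | hi
    · rw [sw_left hg hg1 hg' hT (hf hi hx)]
      exact (hdual _ _).1 (hTc i x hx) y hy
    · rw [sw_right hg hg1 hg' hT x (hf (by omega) hy), neg_eq_zero]
      exact (hdual _ _).1 (hTc i x hx) y hy
  have key2 : ∀ (ε : F), ε * ε = 1 → ∀ T ∈ Rk B (fil 1) ε,
      sw g g' (sw g g' T) - T ∈ Ef fil c := by
    intro ε hε T hT
    have hT' := sw_mem hB hg1 hg' hε hT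
    apply mem_Ef_of_form hf hdual hc
    · intro x hx y
      rw [LinearMap.sub_apply, map_sub, LinearMap.sub_apply, sw_left hg hg1 hg' hT' hx,
        sw_left hg hg1 hg' hT hx, sub_self]
    · intro x y hy
      rw [LinearMap.sub_apply, map_sub, LinearMap.sub_apply, sw_right hg hg1 hg' hT' x hy,
        sw_right hg hg1 hg' hT x hy, neg_neg, sub_self]
  refine cs_swap (N.hom N) (le_Rk hf hdual hc' 1) (le_Rk hf hdual hc' (-1)) f h
    ?_ ?_ ?_ ?_ ?_ ?_
  · intro T hT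
    exact Submodule.mem_inf.2 ⟨(mem_Rk.1 (f T).2).1,
      key1 1 e1 T T.2 (Submodule.mem_inf.1 hT).2⟩
  · intro T hT
    exact Submodule.mem_inf.2 ⟨(mem_Rk.1 (h T).2).1,
      key1 (-1) e2 T T.2 (Submodule.mem_inf.1 hT).2⟩
  · intro T
    exact Submodule.mem_inf.2 ⟨Submodule.sub_mem _ (mem_Rk.1 (h (f T)).2).1 (mem_Rk.1 T.2).1,
      key2 1 e1 T T.2⟩
  · intro T
    exact Submodule.mem_inf.2 ⟨Submodule.sub_mem _ (mem_Rk.1 (f (h T)).2).1 (mem_Rk.1 T.2).1,
      key2 (-1) e2 T T.2⟩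
  · intro p T hT
    obtain ⟨Z, hZ, hZp, hTZ⟩ := exists_sw_aux hs hB hnd hf hdual hc hg hg1 hg' e1 T.2 p hT
    exact ⟨⟨Z, hZ⟩, hZp, hTZ⟩
  · intro p T hT
    obtain ⟨Z, hZ, hZp, hTZ⟩ := exists_sw_aux hs hB hnd hf hdual hc hg hg1 hg' e2 T.2 p hT
    rw [neg_neg] at hZ hTZ
    exact ⟨⟨Z, hZ⟩, hZp, hTZ⟩

/-- the bracket -/
theorem bracket {N : Bun C E} (hs : SelfDual N B)
    (hB : ∀ x y, B x y = B y x) (hnd : ∀ x, (∀ y, B x y = 0) → x = 0)
    (hf : Antitone fil) (hdual : ∀ i x, x ∈ fil i ↔ ∀ y ∈ fil (1 - i), B x y = 0) {c : ℤ}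
    (hc' : -1 ≤ c) (hc : c ≤ 0) :
    (cs (N.hom N) (adj B (-1)) - cs (N.hom N) (adj B (-1) ⊓ Ef fil c)) -
      (cs (N.hom N) (adj B 1) - cs (N.hom N) (adj B 1 ⊓ Ef fil c)) =
    chi ((frm (N.sub (fil 1))).sub (fm F (fil 1) (-1))).lat -
      chi ((frm (N.sub (fil 1))).sub (fm F (fil 1) 1)).lat := by
  have h1 := cs_Rk hs hB hnd hf hdual hc' hc
  have h2 := cs_adj hs hB hnd (fil 1) (1 : F)
  have h3 := cs_adj hs hB hnd (fil 1) (-1 : F)
  linarith

end rk

end swap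

end Vale.Agent.P182.H578
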