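import Vale.Agent.P182.H922.DichoCfg
import Vale.Agent.P182.H922.Adapt
import Vale.Agent.P182.H578.N1

/-!
# Surjectivity

For `t` in the kernel and self-adjoint `β_s` commuting with the residues `S_s(t)`, the family
`(β_s t_l, β_s u_l)` is, modulo the conditions of the flags, of the form `(r_l, u_l(r))` with `r`
a solution of the first order relations with `t`. For `t` onto `V` one has `r = D t` with `D`
self-adjoint and commuting with all residues.
-/

namespace Vale.Agent.P182.H578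

open Module Matrix Vale.Agent.P182.H533 Vale.Agent.P182.B1 Vale.Agent.P182.H922

/-- a linear system is solvable if it is compatible -/
theorem lin_sys {L R Y : Type*} [Field L] [AddCommGroup R] [Module L R] [FiniteDimensional L R]
    [AddCommGroup Y] [Module L Y] (ψ : Y →ₗ[L] Dual L R) (g : Dual L Y)
    (h : ∀ y, ψ y = 0 → g y = 0) : ∃ r, ∀ y, ψ y r = g y := by
  have h1 : g ∈ LinearMap.range ψ.dualMap := by
    rw [LinearMap.range_dualMap_eq_dualAnnihilator_ker, Submodule.mem_dualAnnihilator]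
    intro y hy
    exact h y (LinearMap.mem_ker.1 hy)
  obtain ⟨θ, rfl⟩ := h1
  obtain ⟨r, rfl⟩ := (Module.evalEquiv L R).surjective θ
  exact ⟨r, fun y => rfl⟩

section nabla

variable {L V : Type*} [Field L] [AddCommGroup V] [Module L V] [FiniteDimensional L V]
  {q : V →ₗ[L] V →ₗ[L] L}

/-- the derivation of a connection -/
def connDer (n : H533.Conn q) : Derivation ℤ L L :=
  Derivation.mk' n.d.toIntLinearMap (fun a b => by
    show n.d (a * b) = a • n.d b + b • n.d a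
    rw [n.leib, smul_eq_mul, smul_eq_mul]; ring)

omit [FiniteDimensional L V] in
theorem connDer_apply (n : H533.Conn q) (a : L) : connDer n a = n.d a := rfl

/-- **Type constancy of a nilpotent self-adjoint operator.** -/
theorem exists_comm (h2 : (2 : L) ≠ 0) (hq : IsForm q) (n : H533.Conn q) {S : End L V}
    (hS : IsSA q S) (hn : IsNilpotent S) :
    ∃ Z : End L V, IsSk q Z ∧ ∀ v, n.δ (S v) = S (n.δ v) + (Z (S v) - S (Z v)) := by
  obtain ⟨fil, hJ⟩ := exists_JM (B := q) (Θ := S) h2 hq.symm hq.nondeg hS hn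
  obtain ⟨D, hD1, hD2, hD3, -⟩ := hJ.conn (connDer n)
  let Z : End L V :=
    { toFun := fun v => n.δ v - D v
      map_add' := fun v w => by rw [map_add, hD1.1]; abel
      map_smul' := fun a v => by
        rw [n.smul, hD1.2, connDer_apply, RingHom.id_apply, smul_sub]
        abel }
  have hZ : ∀ v, Z v = n.δ v - D v := fun v => rfl
  refine ⟨Z, ?_, ?_⟩
  · intro u v
    have h3 := n.metric u v
    have h4 := hD2 u v
    rw [connDer_apply] at h4
    rw [hZ, hZ, map_sub, map_sub, LinearMap.sub_apply]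
    linear_combination h4 - h3
  · intro v
    rw [hZ, hZ, map_sub, hD3]
    abel

end nabla

section surj

variable {L V J : Type*} [Field L] [AddCommGroup V] [Module L V] [FiniteDimensional L V]
  [Fintype J] [DecidableEq J] {𝒟 : Cfg L V J}

theorem trace_rank_one (q : V →ₗ[L] V →ₗ[L] L) (β : End L V) (a b : V) :
    LinearMap.trace L V (β * (q a).smulRight b) = q a (β b) := by
  have : β * (q a).smulRight b = (q a).smulRight (β b) := by
    apply LinearMap.ext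
    intro v
    simp
  rw [this, LinearMap.trace_smulRight]

omit [FiniteDimensional L V] in
/-- the operators as sums of operators of rank one -/
theorem opr_eq_sum (hΩ : 𝒟.Ωᵀ = -𝒟.Ω) (r r' : J → V) (s : Fin 3) :
    opr 𝒟.q (Tt L r) (Gm 𝒟.arm 𝒟.Ω s) (Tt L r') =
      ∑ l with 𝒟.arm l = s,
        ((𝒟.q (𝒟.om r' l)).smulRight (r l) + (𝒟.q (r' l)).smulRight (𝒟.om r l)) := by
  apply LinearMap.ext
  intro v
  rw [opr_Tt 𝒟 hΩ, LinearMap.sum_apply]
  rfl

/-- the trace of `β Ψ` -/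
theorem trace_opr (hΩ : 𝒟.Ωᵀ = -𝒟.Ω) (β : End L V) (r r' : J → V) (s : Fin 3) :
    LinearMap.trace L V (β * opr 𝒟.q (Tt L r) (Gm 𝒟.arm 𝒟.Ω s) (Tt L r')) =
      ∑ l with 𝒟.arm l = s, (𝒟.q (𝒟.om r' l) (β (r l)) + 𝒟.q (r' l) (β (𝒟.om r l))) := by
  rw [opr_eq_sum hΩ, Finset.mul_sum, map_sum]
  refine Finset.sum_congr rfl fun l _ => ?_
  rw [mul_add, map_add, trace_rank_one, trace_rank_one]

/-- the variation of the residue pairs trivially with the commutant -/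
theorem nabla_pair (h2 : (2 : L) ≠ 0) (hG : 𝒟.Good) {t : J → V} (ht : t ∈ 𝒟.K)
    (n : H533.Conn 𝒟.q) (s : Fin 3) {β : End L V} (hβ : IsSA 𝒟.q β)
    (hβS : β * Res 𝒟 t s = Res 𝒟 t s * β) :
    ∑ l with 𝒟.arm l = s,
      (𝒟.q (n.δ (𝒟.om t l)) (β (t l)) + 𝒟.q (n.δ (t l)) (β (𝒟.om t l))) = 0 := by
  obtain ⟨Z, -, hZ⟩ := exists_comm h2 hG.form n
    (Sop_SA 𝒟.arm hG.form (Tt L t) hG.skew s) (nilp_Res hG ht s)
  change ∀ v, n.δ (Res 𝒟 t s v) = Res 𝒟 t s (n.δ v) +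
    (Z (Res 𝒟 t s v) - Res 𝒟 t s (Z v)) at hZ
  have h3 : Z * Res 𝒟 t s - Res 𝒟 t s * Z = ∑ l with 𝒟.arm l = s,
      ((𝒟.q (n.δ (𝒟.om t l))).smulRight (t l) + (𝒟.q (𝒟.om t l)).smulRight (n.δ (t l)) +
        ((𝒟.q (n.δ (t l))).smulRight (𝒟.om t l) + (𝒟.q (t l)).smulRight (n.δ (𝒟.om t l)))) := by
    apply LinearMap.ext
    intro v
    have h4 : (Z * Res 𝒟 t s - Res 𝒟 t s * Z) v = n.δ (Res 𝒟 t s v) - Res 𝒟 t s (n.δ v) := by
      rw [hZ, LinearMap.sub_apply, Module.End.mul_apply, Module.End.mul_apply]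
      abel
    rw [h4, Res_apply 𝒟 hG.skew, Res_apply 𝒟 hG.skew, map_sum, ← Finset.sum_sub_distrib,
      LinearMap.sum_apply]
    refine Finset.sum_congr rfl fun l _ => ?_
    rw [map_add, n.smul, n.smul, n.metric, n.metric]
    simp only [LinearMap.add_apply, LinearMap.smulRight_apply, add_smul]
    abel
  have h5 : LinearMap.trace L V (β * (Z * Res 𝒟 t s - Res 𝒟 t s * Z)) = 0 := by
    rw [mul_sub, map_sub, ← mul_assoc, LinearMap.trace_mul_comm, ← mul_assoc, ← hβS, mul_assoc,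
      sub_self]
  rw [h3, Finset.mul_sum, map_sum] at h5
  have h6 : (2 : L) * ∑ l with 𝒟.arm l = s,
      (𝒟.q (n.δ (𝒟.om t l)) (β (t l)) + 𝒟.q (n.δ (t l)) (β (𝒟.om t l))) = 0 := by
    rw [← h5, Finset.mul_sum]
    refine Finset.sum_congr rfl fun l _ => ?_
    have e : ∀ a b, 𝒟.q a (β b) = 𝒟.q b (β a) := fun a b => by rw [hG.form.symm, hβ]
    simp only [mul_add, map_add, trace_rank_one]
    rw [e (𝒟.om t l), e (t l)]
    ring
  exact (mul_eq_zero.1 h6).resolve_left h2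

/-- the skew part pairs trivially with the commutant -/
theorem skew_pair (h2 : (2 : L) ≠ 0) (hG : 𝒟.Good) (t : J → V) (s : Fin 3) {β Y : End L V}
    (hβ : IsSA 𝒟.q β) (hβS : β * Res 𝒟 t s = Res 𝒟 t s * β) (hY : IsSk 𝒟.q Y) :
    ∑ l with 𝒟.arm l = s,
      (𝒟.q (Y (𝒟.om t l)) (β (t l)) + 𝒟.q (Y (t l)) (β (𝒟.om t l))) = 0 := by
  have hSA := Sop_SA 𝒟.arm hG.form (Tt L t) hG.skew s
  have h1 : LinearMap.trace L V ((β * Res 𝒟 t s) * Y) = 0 := by
    apply trace_adj_mul h2 (B := 𝒟.q) hG.form.nondeg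
    · intro u v
      rw [one_mul]
      show 𝒟.q (β (Res 𝒟 t s u)) v = 𝒟.q u ((β * Res 𝒟 t s) v)
      rw [hβS, hβ]
      exact hSA u (β v)
    · intro u v
      rw [hY]; ring
  have h3 : LinearMap.trace L V ((Y * β) * opr 𝒟.q (Tt L t) (Gm 𝒟.arm 𝒟.Ω s) (Tt L t)) = 0 := by
    rw [mul_assoc, LinearMap.trace_mul_comm]
    exact h1
  rw [trace_opr hG.skew] at h3
  rw [← neg_eq_zero, ← h3, ← Finset.sum_neg_distrib]
  refine Finset.sum_congr rfl fun l _ => ?_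
  have e : ∀ a b, 𝒟.q a ((Y * β) b) = - 𝒟.q (Y a) (β b) := fun a b => by
    rw [Module.End.mul_apply, hY, neg_neg]
  rw [e, e]
  ring

variable (𝒟) in
/-- the product of the column spaces -/
def Cpi : Submodule L (J → V) := Submodule.pi Set.univ 𝒟.C

variable (𝒟) in
/-- the product of the orthogonal spaces -/
def Ppi : Submodule L (J → V) := Submodule.pi Set.univ fun l => perp 𝒟.q (𝒟.C l)

omit [FiniteDimensional L V] [Fintype J] [DecidableEq J] in
theorem mem_Cpi {w : J → V} : w ∈ Cpi 𝒟 ↔ ∀ l, w l ∈ 𝒟.C l := by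
  simp [Cpi, Submodule.mem_pi]

omit [FiniteDimensional L V] [Fintype J] [DecidableEq J] in
theorem mem_Ppi {w : J → V} : w ∈ Ppi 𝒟 ↔ ∀ l, w l ∈ perp 𝒟.q (𝒟.C l) := by
  simp [Ppi, Submodule.mem_pi]

variable (L J) in
/-- skew matrices -/
def skM : Submodule L (Matrix J J L) where
  carrier := {η | ηᵀ = -η}
  zero_mem' := by simp
  add_mem' := fun {a b} ha hb => by
    show (a + b)ᵀ = -(a + b)
    rw [Matrix.transpose_add, ha, hb, neg_add]
  smul_mem' := fun c a ha => by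
    show (c • a)ᵀ = -(c • a)
    rw [Matrix.transpose_smul, ha, smul_neg]

/-- the linear system -/
def Lam (𝒟 : Cfg L V J) (t : J → V) :
    ((Fin 3 → adj 𝒟.q (-1)) × skM L J × Cpi 𝒟 × Ppi 𝒟) →ₗ[L] (J → V) where
  toFun y l := (y.1 (𝒟.arm l) : End L V) (𝒟.om t l) -
    𝒟.om (fun k => (y.1 (𝒟.arm k) : End L V) (t k)) l - ∑ k, (y.2.1 : Matrix J J L) l k • t k +
      ((y.2.2.2 : J → V) l - 𝒟.om (y.2.2.1 : J → V) l)
  map_add' x y := by
    funext l
    simp only [Cfg.om, Prod.fst_add, Prod.snd_add, Pi.add_apply, Submodule.coe_add,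
      LinearMap.add_apply, Matrix.add_apply, smul_add, add_smul, Finset.sum_add_distrib]
    abel
  map_smul' c x := by
    funext l
    simp only [Cfg.om, Prod.smul_fst, Prod.smul_snd, Pi.smul_apply, Submodule.coe_smul,
      LinearMap.smul_apply, Matrix.smul_apply, smul_add, smul_sub, smul_eq_mul,
      Finset.smul_sum, RingHom.id_apply, smul_smul]
    simp only [mul_comm c]

omit [FiniteDimensional L V] [DecidableEq J] in
theorem Lam_apply (t : J → V) (y : (Fin 3 → adj 𝒟.q (-1)) × skM L J × Cpi 𝒟 × Ppi 𝒟) (l : J) :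
    Lam 𝒟 t y l = (y.1 (𝒟.arm l) : End L V) (𝒟.om t l) -
    𝒟.om (fun k => (y.1 (𝒟.arm k) : End L V) (t k)) l - ∑ k, (y.2.1 : Matrix J J L) l k • t k +
      ((y.2.2.2 : J → V) l - 𝒟.om (y.2.2.1 : J → V) l) := rfl

/-- the right hand side -/
def Rhs (𝒟 : Cfg L V J) (z z' : J → V) :
    ((Fin 3 → adj 𝒟.q (-1)) × skM L J × Cpi 𝒟 × Ppi 𝒟) →ₗ[L] L where
  toFun y := ∑ l, (𝒟.q ((y.2.2.2 : J → V) l) (z l) + 𝒟.q ((y.2.2.1 : J → V) l) (z' l))
  map_add' x y := by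
    simp only [Prod.snd_add, Prod.fst_add, Submodule.coe_add, Pi.add_apply, map_add,
      LinearMap.add_apply, Finset.sum_add_distrib]
    abel
  map_smul' c x := by
    simp only [Prod.smul_snd, Prod.smul_fst, Submodule.coe_smul, Pi.smul_apply, map_smul,
      LinearMap.smul_apply, smul_eq_mul, RingHom.id_apply, Finset.mul_sum, mul_add]

/-- the pairing on families -/
def famPair (𝒟 : Cfg L V J) : (J → V) →ₗ[L] Dual L (J → V) where
  toFun a :=
    { toFun := fun r => ∑ l, 𝒟.q (a l) (r l)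
      map_add' := fun r r' => by simp only [Pi.add_apply, map_add, Finset.sum_add_distrib]
      map_smul' := fun c r => by
        simp only [Pi.smul_apply, map_smul, smul_eq_mul, Finset.mul_sum, RingHom.id_apply] }
  map_add' a b := by
    apply LinearMap.ext
    intro r
    show ∑ l, 𝒟.q ((a + b) l) (r l) = ∑ l, 𝒟.q (a l) (r l) + ∑ l, 𝒟.q (b l) (r l)
    simp only [Pi.add_apply, map_add, LinearMap.add_apply, Finset.sum_add_distrib]
  map_smul' c a := by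
    apply LinearMap.ext
    intro r
    show ∑ l, 𝒟.q ((c • a) l) (r l) = c • ∑ l, 𝒟.q (a l) (r l)
    simp only [Pi.smul_apply, map_smul, LinearMap.smul_apply, smul_eq_mul, Finset.mul_sum]

omit [FiniteDimensional L V] [DecidableEq J] in
theorem famPair_apply (a r : J → V) : famPair 𝒟 a r = ∑ l, 𝒟.q (a l) (r l) := rfl

omit [FiniteDimensional L V] in
theorem famPair_inj (hG : 𝒟.Good) {a : J → V} (h : famPair 𝒟 a = 0) : a = 0 := by
  funext l
  apply hG.form.nondeg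
  intro v
  have h1 := LinearMap.congr_fun h (Pi.single l v)
  rw [famPair_apply, Finset.sum_eq_single l, Pi.single_eq_same] at h1
  · exact h1
  · intro k _ hk
    rw [Pi.single_eq_of_ne hk, map_zero]
  · intro h; exact absurd (Finset.mem_univ _) h

/-- **Surjectivity.** -/
theorem surj_gen (h2 : (2 : L) ≠ 0) (hG : 𝒟.Good) (hV : 𝒟.Versal) {t : J → V} (ht : t ∈ 𝒟.K)
    {β : Fin 3 → End L V} (hβ : ∀ s, IsSA 𝒟.q (β s))
    (hβS : ∀ s, β s * Res 𝒟 t s = Res 𝒟 t s * β s)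
    (htr : ∀ t' ∈ 𝒟.K, ∑ s, LinearMap.trace L V
      (β s * opr 𝒟.q (Tt L t) (Gm 𝒟.arm 𝒟.Ω s) (Tt L t')) = 0) :
    ∃ r : J → V, (∀ l k, 𝒟.q (t l) (r k) = 𝒟.q (r l) (t k)) ∧
      (∀ s, IsSA 𝒟.q (opr 𝒟.q (Tt L t) (Gm 𝒟.arm 𝒟.Ω s) (Tt L r))) ∧
      ∀ l, β (𝒟.arm l) (t l) - r l ∈ 𝒟.C l ∧
        β (𝒟.arm l) (𝒟.om t l) - 𝒟.om r l ∈ perp 𝒟.q (𝒟.C l) := by
  -- the compatibility
  have hcomp : ∀ y, ((famPair 𝒟) ∘ₗ Lam 𝒟 t) y = 0 →
      Rhs 𝒟 (fun l => β (𝒟.arm l) (t l)) (fun l => β (𝒟.arm l) (𝒟.om t l)) y = 0 := by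
    rintro ⟨Y, ⟨η, hη⟩, ⟨w, hw⟩, ⟨w', hw'⟩⟩ hy
    have h0 := famPair_inj hG hy
    have h1 : ∀ l, (Y (𝒟.arm l) : End L V) (𝒟.om t l) -
        𝒟.om (fun k => (Y (𝒟.arm k) : End L V) (t k)) l - ∑ k, η l k • t k +
          (w' l - 𝒟.om w l) = 0 := fun l => congrFun h0 l
    show ∑ l, (𝒟.q (w' l) (β (𝒟.arm l) (t l)) + 𝒟.q (w l) (β (𝒟.arm l) (𝒟.om t l))) = 0
    rw [mem_Cpi] at hw
    rw [mem_Ppi] at hw'
    have hYs : ∀ s, IsSk 𝒟.q (Y s : End L V) := fun s u v => by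
      rw [(Y s).2 u v]; ring
    obtain ⟨n, hn, hd⟩ := hV (fun s => (Y s : End L V)) hYs η hη
    -- the solution given by the connection
    let z : J → V := fun l => n.δ (t l) - (Y (𝒟.arm l) : End L V) (t l)
    have hz : ∀ l, z l ∈ 𝒟.C l := fun l => hn _ _ _ (ht.1 l)
    have hz' : ∀ l, n.δ (𝒟.om t l) - (Y (𝒟.arm l) : End L V) (𝒟.om t l) ∈ perp 𝒟.q (𝒟.C l) :=
      fun l => conn_perp n (hYs _) (fun v hv => hn _ _ v hv) _ (ht.2 l)
    have hom : ∀ l, 𝒟.om (w - z) l =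
        w' l - (n.δ (𝒟.om t l) - (Y (𝒟.arm l) : End L V) (𝒟.om t l)) := by
      intro l
      have h3 : 𝒟.om (w - z) l = 𝒟.om w l - (𝒟.om (fun k => n.δ (t k)) l -
          𝒟.om (fun k => (Y (𝒟.arm k) : End L V) (t k)) l) := by
        simp only [Cfg.om, z, Pi.sub_apply, smul_sub, Finset.sum_sub_distrib]
      rw [h3, conn_om n]
      simp only [hd]
      have h4 := h1 l
      have h5 : w' l = 𝒟.om w l - ((Y (𝒟.arm l) : End L V) (𝒟.om t l) -
        𝒟.om (fun k => (Y (𝒟.arm k) : End L V) (t k)) l - ∑ k, η l k • t k) := by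
        rw [← sub_eq_zero, ← h4]; abel
      rw [h5]
      abel
    have hκ : w - z ∈ 𝒟.K := by
      refine ⟨fun l => sub_mem (hw l) (hz l), fun l => ?_⟩
      rw [hom]
      exact sub_mem (hw' l) (hz' l)
    -- the three contributions
    have c1 := htr _ hκ
    simp only [trace_opr hG.skew] at c1
    have c2 := Finset.sum_eq_zero (s := Finset.univ) fun s _ => nabla_pair h2 hG ht n s (hβ s) (hβS s)
    have c3 := Finset.sum_eq_zero (s := Finset.univ) fun s _ =>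
      skew_pair h2 hG t s (hβ s) (hβS s) (hYs s)
    have fib : ∀ f : Fin 3 → J → L, ∑ s, ∑ l with 𝒟.arm l = s, f s l = ∑ l, f (𝒟.arm l) l := by
      intro f
      rw [← Finset.sum_fiberwise (s := Finset.univ) (g := 𝒟.arm)]
      refine Finset.sum_congr rfl fun s _ => Finset.sum_congr rfl fun l hl => ?_
      rw [(Finset.mem_filter.1 hl).2]
    rw [fib (fun s l => 𝒟.q (𝒟.om (w - z) l) (β s (t l)) + 𝒟.q ((w - z) l) (β s (𝒟.om t l)))] at c1
    rw [fib (fun s l => 𝒟.q (n.δ (𝒟.om t l)) (β s (t l)) + 𝒟.q (n.δ (t l)) (β s (𝒟.om t l)))] at c2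
    rw [fib (fun s l => 𝒟.q ((Y s : End L V) (𝒟.om t l)) (β s (t l)) +
      𝒟.q ((Y s : End L V) (t l)) (β s (𝒟.om t l)))] at c3
    have c4 : ∑ l, (𝒟.q (w' l) (β (𝒟.arm l) (t l)) + 𝒟.q (w l) (β (𝒟.arm l) (𝒟.om t l))) =
        ∑ l, (𝒟.q (𝒟.om (w - z) l) (β (𝒟.arm l) (t l)) +
          𝒟.q ((w - z) l) (β (𝒟.arm l) (𝒟.om t l))) +
        (∑ l, (𝒟.q (n.δ (𝒟.om t l)) (β (𝒟.arm l) (t l)) +
          𝒟.q (n.δ (t l)) (β (𝒟.arm l) (𝒟.om t l))) -
        ∑ l, (𝒟.q ((Y (𝒟.arm l) : End L V) (𝒟.om t l)) (β (𝒟.arm l) (t l)) +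
          𝒟.q ((Y (𝒟.arm l) : End L V) (t l)) (β (𝒟.arm l) (𝒟.om t l)))) := by
      rw [← Finset.sum_sub_distrib, ← Finset.sum_add_distrib]
      refine Finset.sum_congr rfl fun l _ => ?_
      rw [hom]
      simp only [z, Pi.sub_apply, map_sub, LinearMap.sub_apply]
      ring
    rw [c4, c1, c2, c3]
    ring
  obtain ⟨r, hr⟩ := lin_sys ((famPair 𝒟) ∘ₗ Lam 𝒟 t) _ hcomp
  have hr' : ∀ (Y : Fin 3 → adj 𝒟.q (-1)) (η : skM L J) (w : Cpi 𝒟) (w' : Ppi 𝒟),
      ∑ l, 𝒟.q ((Y (𝒟.arm l) : End L V) (𝒟.om t l)) (r l) +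
        ∑ l, 𝒟.q ((Y (𝒟.arm l) : End L V) (t l)) (𝒟.om r l) -
        ∑ l, ∑ k, (η : Matrix J J L) l k * 𝒟.q (t k) (r l) +
        (∑ l, 𝒟.q ((w' : J → V) l) (r l) + ∑ l, 𝒟.q ((w : J → V) l) (𝒟.om r l)) =
      ∑ l, (𝒟.q ((w' : J → V) l) (β (𝒟.arm l) (t l)) +
        𝒟.q ((w : J → V) l) (β (𝒟.arm l) (𝒟.om t l))) := by
    intro Y η w w'
    have h1 := hr (Y, η, w, w')
    rw [LinearMap.comp_apply, famPair_apply] at h1
    refine Eq.trans ?_ h1
    simp only [Lam_apply, map_add, map_sub, LinearMap.add_apply, LinearMap.sub_apply,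
      Finset.sum_add_distrib, Finset.sum_sub_distrib]
    have p1 : ∀ a : J → V, ∑ l, 𝒟.q (𝒟.om a l) (r l) = - ∑ l, 𝒟.q (a l) (𝒟.om r l) := by
      intro a
      rw [pair_om hG, neg_neg]
      exact Finset.sum_congr rfl fun l _ => hG.form.symm _ _
    rw [p1, p1]
    simp only [map_sum, LinearMap.sum_apply, map_smul, LinearMap.smul_apply, smul_eq_mul]
    ring
  refine ⟨r, ?_, ?_, ?_⟩
  · -- F1
    intro i j
    by_cases hij : i = j
    · subst hij; rw [hG.form.symm]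
    let η : Matrix J J L := Matrix.single i j 1 - Matrix.single j i 1
    have hη : ηᵀ = -η := by
      simp only [η, Matrix.transpose_sub, Matrix.transpose_single, neg_sub]
    have h3 := hr' 0 ⟨η, hη⟩ 0 0
    have h4 : ∀ l k, η l k * 𝒟.q (t k) (r l) =
        (if l = i then (if k = j then 𝒟.q (t j) (r i) else 0) else 0) -
          (if l = j then (if k = i then 𝒟.q (t i) (r j) else 0) else 0) := by
      intro l k
      simp only [η, Matrix.sub_apply, sub_mul, Matrix.single_apply]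
      congr 1
      · by_cases hl : l = i
        · by_cases hk : k = j
          · subst hl; subst hk; simp
          · simp [hl, hk, Ne.symm hk]
        · simp [hl, Ne.symm hl]
      · by_cases hl : l = j
        · by_cases hk : k = i
          · subst hl; subst hk; simp
          · simp [hl, hk, Ne.symm hk]
        · simp [hl, Ne.symm hl]
    simp only [h4, Finset.sum_sub_distrib] at h3
    simp only [Finset.sum_ite_irrel, Finset.sum_const_zero, Finset.sum_ite_eq', Finset.mem_univ,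
      if_true] at h3
    simp at h3
    rw [sub_eq_zero] at h3
    rw [h3, hG.form.symm]
  · -- F2
    intro s
    set T := opr 𝒟.q (Tt L t) (Gm 𝒟.arm 𝒟.Ω s) (Tt L r) with hT
    intro v w
    let X : End L V := (𝒟.q v).smulRight w - (𝒟.q w).smulRight v
    have hX : ∀ a, X a = 𝒟.q v a • w - 𝒟.q w a • v := fun a => rfl
    have hXs : X ∈ adj 𝒟.q (-1) := by
      intro a b
      rw [hX, hX]
      simp only [map_sub, map_smul, LinearMap.sub_apply, LinearMap.smul_apply, smul_eq_mul]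
      rw [hG.form.symm a w, hG.form.symm a v]
      ring
    have h3 := hr' (fun s' => if s' = s then ⟨X, hXs⟩ else 0) 0 0 0
    have h4 : LinearMap.trace L V (X * T) = 0 := by
      rw [hT, trace_opr hG.skew, ← neg_eq_zero, ← Finset.sum_neg_distrib, Finset.sum_filter]
      have h5 : ∀ l, (if 𝒟.arm l = s then
          -(𝒟.q (𝒟.om r l) (X (t l)) + 𝒟.q (r l) (X (𝒟.om t l))) else 0) =
          -(𝒟.q (((if 𝒟.arm l = s then ⟨X, hXs⟩ else 0 : adj 𝒟.q (-1)) : End L V) (𝒟.om t l))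
              (r l) +
            𝒟.q (((if 𝒟.arm l = s then ⟨X, hXs⟩ else 0 : adj 𝒟.q (-1)) : End L V) (t l))
              (𝒟.om r l)) := by
        intro l
        split_ifs
        · rw [hG.form.symm (𝒟.om r l), hG.form.symm (r l)]; ring
        · simp
      rw [Finset.sum_congr rfl fun l _ => h5 l, Finset.sum_neg_distrib, Finset.sum_add_distrib,
        neg_eq_zero]
      simpa using h3
    have h6 : X * T = (𝒟.q v ∘ₗ T).smulRight w - (𝒟.q w ∘ₗ T).smulRight v := by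
      apply LinearMap.ext
      intro a
      rfl
    rw [h6, map_sub, LinearMap.trace_smulRight, LinearMap.trace_smulRight, sub_eq_zero] at h4
    rw [hG.form.symm]
    exact h4.symm
  · intro l
    constructor
    · apply perp_perp_le hG.form
      intro c hc
      have h3 := hr' 0 0 0 ⟨Pi.single l c, by
        rw [mem_Ppi]
        intro k
        by_cases hk : k = l
        · subst hk; rwa [Pi.single_eq_same]
        · rw [Pi.single_eq_of_ne hk]; exact zero_mem _⟩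
      have h4 : 𝒟.q c (r l) = 𝒟.q c (β (𝒟.arm l) (t l)) := by
        have e1 : ∀ f : J → V, ∑ k, 𝒟.q ((Pi.single l c : J → V) k) (f k) = 𝒟.q c (f l) := by
          intro f
          rw [Finset.sum_eq_single l]
          · rw [Pi.single_eq_same]
          · intro k _ hk
            rw [Pi.single_eq_of_ne hk, map_zero, LinearMap.zero_apply]
          · intro h; exact absurd (Finset.mem_univ _) h
        simp only [Finset.sum_add_distrib] at h3
        rw [e1, e1 (fun k => β (𝒟.arm k) (t k))] at h3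
        simpa using h3
      rw [hG.form.symm, map_sub, h4, sub_self]
    · intro c hc
      have h3 := hr' 0 0 ⟨Pi.single l c, by
        rw [mem_Cpi]
        intro k
        by_cases hk : k = l
        · subst hk; rwa [Pi.single_eq_same]
        · rw [Pi.single_eq_of_ne hk]; exact zero_mem _⟩ 0
      have h4 : 𝒟.q c (𝒟.om r l) = 𝒟.q c (β (𝒟.arm l) (𝒟.om t l)) := by
        have e1 : ∀ f : J → V, ∑ k, 𝒟.q ((Pi.single l c : J → V) k) (f k) = 𝒟.q c (f l) := by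
          intro f
          rw [Finset.sum_eq_single l]
          · rw [Pi.single_eq_same]
          · intro k _ hk
            rw [Pi.single_eq_of_ne hk, map_zero, LinearMap.zero_apply]
          · intro h; exact absurd (Finset.mem_univ _) h
        simp only [Finset.sum_add_distrib] at h3
        rw [e1 (fun k => 𝒟.om r k), e1 (fun k => β (𝒟.arm k) (𝒟.om t k))] at h3
        simpa using h3
      rw [hG.form.symm, map_sub, h4, sub_self]

/-- a solution of the first order relations with a family spanning `V` is given by an operator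
of the commutant -/
theorem exists_D (hG : 𝒟.Good) {t r : J → V} (hs : Function.Surjective (Tt L t))
    (hF1 : ∀ l k, 𝒟.q (t l) (r k) = 𝒟.q (r l) (t k))
    (hF2 : ∀ s, IsSA 𝒟.q (opr 𝒟.q (Tt L t) (Gm 𝒟.arm 𝒟.Ω s) (Tt L r))) :
    ∃ D : End L V, IsSA 𝒟.q D ∧ (∀ s, D * Res 𝒟 t s = Res 𝒟 t s * D) ∧
      (∀ s, opr 𝒟.q (Tt L t) (Gm 𝒟.arm 𝒟.Ω s) (Tt L r) = Res 𝒟 t s * D) ∧
      ∀ l, D (t l) = r l ∧ D (𝒟.om t l) = 𝒟.om r l := by
  obtain ⟨ρ, hρ⟩ := LinearMap.exists_rightInverse_of_surjective (Tt L t)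
    (LinearMap.range_eq_top.2 hs)
  have hρ' : ∀ v, Tt L t (ρ v) = v := fun v => LinearMap.congr_fun hρ v
  have key : ∀ x y, 𝒟.q (Tt L r x) (Tt L t y) = 𝒟.q (Tt L t x) (Tt L r y) := by
    intro x y
    rw [Tt_apply, Tt_apply, Tt_apply, Tt_apply]
    simp only [map_sum, map_smul, LinearMap.sum_apply, LinearMap.smul_apply, smul_eq_mul]
    refine Finset.sum_congr rfl fun k _ => ?_
    congr 1
    refine Finset.sum_congr rfl fun l _ => ?_
    rw [hF1]
  let D : End L V := Tt L r ∘ₗ ρ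
  have hD : ∀ v, D v = Tt L r (ρ v) := fun v => rfl
  have hDt : ∀ x, D (Tt L t x) = Tt L r x := by
    intro x
    apply hG.form.ext
    intro w
    obtain ⟨y, rfl⟩ := hs w
    rw [hD, key, hρ', key]
  have hSA : IsSA 𝒟.q D := by
    intro u v
    obtain ⟨x, rfl⟩ := hs u
    obtain ⟨y, rfl⟩ := hs v
    rw [hDt, hDt, key]
  have hl : ∀ l, D (t l) = r l := fun l => by
    have := hDt (Pi.single l 1)
    rwa [Tt_single, Tt_single] at this
  have hom : ∀ l, D (𝒟.om t l) = 𝒟.om r l := fun l => by rw [om_eq, om_eq, hDt]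
  have hopr : ∀ s, opr 𝒟.q (Tt L t) (Gm 𝒟.arm 𝒟.Ω s) (Tt L r) = Res 𝒟 t s * D := by
    intro s
    apply LinearMap.ext
    intro v
    rw [opr_Tt 𝒟 hG.skew, Module.End.mul_apply, Res_apply 𝒟 hG.skew]
    refine Finset.sum_congr rfl fun l _ => ?_
    rw [← hom, ← hl, hSA, hSA]
  refine ⟨D, hSA, fun s => ?_, hopr, fun l => ⟨hl l, hom l⟩⟩
  apply LinearMap.ext
  intro v
  apply hG.form.ext
  intro w
  have h1 := hF2 s v w
  rw [hopr] at h1
  have h2 : IsSA 𝒟.q (Res 𝒟 t s) := Sop_SA 𝒟.arm hG.form (Tt L t) hG.skew s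
  rw [h1, Module.End.mul_apply, Module.End.mul_apply, hSA, h2]

/-- elements of the kernel satisfy the first order relations -/
theorem K_rel (hG : 𝒟.Good) (hV : 𝒟.Versal) {t t' : J → V} (ht : t ∈ 𝒟.K) (ht' : t' ∈ 𝒟.K) :
    (∀ l k, 𝒟.q (t l) (t' k) = 𝒟.q (t' l) (t k)) ∧
      ∀ s, IsSA 𝒟.q (opr 𝒟.q (Tt L t) (Gm 𝒟.arm 𝒟.Ω s) (Tt L t')) := by
  have hK := kRelC hG hV
  have hX : Tt L t ∈ Tt L '' (𝒟.K : Set (J → V)) := ⟨t, ht, rfl⟩
  have hY : Tt L t' ∈ Tt L '' (𝒟.K : Set (J → V)) := ⟨t', ht', rfl⟩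
  constructor
  · intro l k
    have h1 := hK.F1 _ hX _ hY (Pi.single l 1) (Pi.single k 1)
    rwa [Tt_single, Tt_single, Tt_single, Tt_single] at h1
  · intro s v w
    exact hK.F2 _ hX _ hY s v w

/-- the elements of the kernel are given by the commutant of one which is onto -/
theorem K_exists_D (hG : 𝒟.Good) (hV : 𝒟.Versal) {t t' : J → V} (ht : t ∈ 𝒟.K) (ht' : t' ∈ 𝒟.K)
    (hs : Function.Surjective (Tt L t)) :
    ∃ D : End L V, IsSA 𝒟.q D ∧ (∀ s, D * Res 𝒟 t s = Res 𝒟 t s * D) ∧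
      (∀ s, opr 𝒟.q (Tt L t) (Gm 𝒟.arm 𝒟.Ω s) (Tt L t') = Res 𝒟 t s * D) ∧
      ∀ l, D (t l) = t' l ∧ D (𝒟.om t l) = 𝒟.om t' l :=
  exists_D hG hs (K_rel hG hV ht ht').1 (K_rel hG hV ht ht').2

/-- **Surjectivity** for `t` onto. -/
theorem surj (h2 : (2 : L) ≠ 0) (hG : 𝒟.Good) (hV : 𝒟.Versal) {t : J → V} (ht : t ∈ 𝒟.K)
    (hs : Function.Surjective (Tt L t)) {β : Fin 3 → End L V} (hβ : ∀ s, IsSA 𝒟.q (β s))
    (hβS : ∀ s, β s * Res 𝒟 t s = Res 𝒟 t s * β s) :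
    ∃ D : End L V, IsSA 𝒟.q D ∧ (∀ s, D * Res 𝒟 t s = Res 𝒟 t s * D) ∧
      ∀ l, (β (𝒟.arm l) - D) (t l) ∈ 𝒟.C l ∧
        (β (𝒟.arm l) - D) (𝒟.om t l) ∈ perp 𝒟.q (𝒟.C l) := by
  have htr : ∀ t' ∈ 𝒟.K, ∑ s, LinearMap.trace L V
      (β s * opr 𝒟.q (Tt L t) (Gm 𝒟.arm 𝒟.Ω s) (Tt L t')) = 0 := by
    intro t' ht'
    obtain ⟨D, -, hD, hopr, -⟩ := K_exists_D hG hV ht ht' hs
    refine Finset.sum_eq_zero fun s _ => ?_
    rw [hopr]
    have h1 : β s * (Res 𝒟 t s * D) = Res 𝒟 t s * (β s * D) := by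
      rw [← mul_assoc, hβS, mul_assoc]
    have h3 : Commute (Res 𝒟 t s) (β s * D) := by
      show Res 𝒟 t s * (β s * D) = β s * D * Res 𝒟 t s
      rw [← h1, mul_assoc, hD]
    obtain ⟨m, hm⟩ := nilp_Res hG ht s
    have h4 : IsNilpotent (β s * (Res 𝒟 t s * D)) := by
      rw [h1]
      exact ⟨m, by rw [h3.mul_pow, hm, zero_mul]⟩
    exact (LinearMap.isNilpotent_trace_of_isNilpotent h4).eq_zero
  obtain ⟨r, hF1, hF2, hr⟩ := surj_gen h2 hG hV ht hβ hβS htr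
  obtain ⟨D, hD1, hD2, -, hD3⟩ := exists_D hG hs hF1 hF2
  refine ⟨D, hD1, hD2, fun l => ?_⟩
  rw [LinearMap.sub_apply, LinearMap.sub_apply, (hD3 l).1, (hD3 l).2]
  exact hr l

/-- operators admissible for the columns of the arm `s` -/
def Adm (𝒟 : Cfg L V J) (t : J → V) (s : Fin 3) (γ : End L V) : Prop :=
  ∀ l, 𝒟.arm l = s → γ (t l) ∈ 𝒟.C l ∧ γ (𝒟.om t l) ∈ perp 𝒟.q (𝒟.C l)

/-- **Surjectivity**, one arm. -/
theorem surj_one (h2 : (2 : L) ≠ 0) (hG : 𝒟.Good) (hV : 𝒟.Versal) {t : J → V} (ht : t ∈ 𝒟.K)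
    (hs : Function.Surjective (Tt L t)) (s : Fin 3) {β : End L V} (hβ : IsSA 𝒟.q β)
    (hβS : β * Res 𝒟 t s = Res 𝒟 t s * β) :
    ∃ D : End L V, IsSA 𝒟.q D ∧ (∀ s, D * Res 𝒟 t s = Res 𝒟 t s * D) ∧
      Adm 𝒟 t s (β - D) ∧ ∀ s', s' ≠ s → Adm 𝒟 t s' D := by
  obtain ⟨D, h3, h4, h5⟩ := surj h2 hG hV ht hs (β := fun s' => if s' = s then β else 0)
    (fun s' => by
      by_cases h : s' = s
      · simpa [h] using hβ
      · intro u v; simp [h])
    (fun s' => by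
      by_cases h : s' = s
      · subst h; simpa using hβS
      · simp [h])
  refine ⟨D, h3, h4, fun l hl => ?_, fun s' hs' l hl => ?_⟩
  · have := h5 l
    simpa [hl] using this
  · have := h5 l
    rw [hl] at this
    simp only [hs', if_false, zero_sub, LinearMap.neg_apply, neg_mem_iff] at this
    exact this

section rules

variable {t : J → V} {s : Fin 3}

omit [FiniteDimensional L V] in
/-- products through the residue lower the flag -/
theorem adm_flag (hG : 𝒟.Good) {γ γ' : End L V} (hγ : Adm 𝒟 t s γ) (hγ' : Adm 𝒟 t s γ')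
    (hSA : IsSA 𝒟.q γ') {i : ℕ} {f : V} (hf : f ∈ 𝒟.F s (i + 1)) :
    γ (Res 𝒟 t s (γ' f)) ∈ 𝒟.F s i := by
  rw [Res_apply 𝒟 hG.skew, map_sum]
  refine Submodule.sum_mem _ fun l hl => ?_
  have hl' : 𝒟.arm l = s := (Finset.mem_filter.mp hl).2
  obtain ⟨h1, h3⟩ := hγ l hl'
  obtain ⟨h1', h3'⟩ := hγ' l hl'
  rw [map_add, map_smul, map_smul, ← hSA, ← hSA]
  have hC : 𝒟.C l = 𝒟.F s (𝒟.c l) := by rw [Cfg.C, hl']
  rw [hC] at h1 h3 h1' h3'
  have h5 : 𝒟.q (γ' (t l)) f = 0 := by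
    have h6 := hG.mono s (le_max_left (𝒟.c l) (i + 1)) h1'
    have h7 := hG.mono s (le_max_right (𝒟.c l) (i + 1)) hf
    exact hG.iso s _ h6 _ h7
  rw [h5, zero_smul, add_zero]
  by_cases hc : i + 1 ≤ 𝒟.c l
  · rw [h3' f (hG.mono s hc hf), zero_smul]
    exact zero_mem _
  · exact Submodule.smul_mem _ _ (hG.mono s (by omega) h1)

/-- products through the residue, on the orthogonal spaces -/
theorem adm_flag_perp (hG : 𝒟.Good) {γ γ' : End L V} (hγ : Adm 𝒟 t s γ) (hγ' : Adm 𝒟 t s γ')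
    (hSA : IsSA 𝒟.q γ) (hSA' : IsSA 𝒟.q γ') {i : ℕ} {f : V} (hf : f ∈ perp 𝒟.q (𝒟.F s i)) :
    γ (Res 𝒟 t s (γ' f)) ∈ perp 𝒟.q (𝒟.F s (i + 1)) := by
  intro g hg
  have h2 : IsSA 𝒟.q (Res 𝒟 t s) := Sop_SA 𝒟.arm hG.form (Tt L t) hG.skew s
  rw [hSA, h2, hSA']
  exact hf _ (adm_flag hG hγ' hγ hSA hg)

omit [FiniteDimensional L V] in
/-- products through the residue, at the top -/
theorem adm_flag_top (hG : 𝒟.Good) {γ γ' : End L V} (hγ : Adm 𝒟 t s γ) (hγ' : Adm 𝒟 t s γ')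
    (hSA : IsSA 𝒟.q γ') {i : ℕ} (hi : ∀ l, 𝒟.arm l = s → 𝒟.c l ≤ i) {f : V}
    (hf : f ∈ perp 𝒟.q (𝒟.F s i)) :
    γ (Res 𝒟 t s (γ' f)) ∈ 𝒟.F s i := by
  rw [Res_apply 𝒟 hG.skew, map_sum]
  refine Submodule.sum_mem _ fun l hl => ?_
  have hl' : 𝒟.arm l = s := (Finset.mem_filter.mp hl).2
  obtain ⟨h1, -⟩ := hγ l hl'
  obtain ⟨h1', -⟩ := hγ' l hl'
  rw [map_add, map_smul, map_smul, ← hSA, ← hSA]
  have hC : 𝒟.C l = 𝒟.F s (𝒟.c l) := by rw [Cfg.C, hl']
  rw [hC] at h1 h1'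
  have h5 : 𝒟.q (γ' (t l)) f = 0 := by
    rw [hG.form.symm]
    exact hf _ (hG.mono s (hi l hl') h1')
  rw [h5, zero_smul, add_zero]
  exact Submodule.smul_mem _ _ (hG.mono s (hi l hl') h1)

/-- **The rule for the flag.** -/
theorem rule_flag (hG : 𝒟.Good) {D β D' : End L V} (hD : Adm 𝒟 t s D) (hβ : Adm 𝒟 t s (β - D'))
    (hDs : IsSA 𝒟.q D) (hβs : IsSA 𝒟.q β) (hDs' : IsSA 𝒟.q D')
    (cD : D * Res 𝒟 t s = Res 𝒟 t s * D) (cβ : β * Res 𝒟 t s = Res 𝒟 t s * β)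
    (cD' : D' * Res 𝒟 t s = Res 𝒟 t s * D') (hcomm : D * D' = D' * D) {i : ℕ} {f : V}
    (hf : f ∈ 𝒟.F s (i + 1)) : Res 𝒟 t s ((D * β - β * D) f) ∈ 𝒟.F s i := by
  have hs : IsSA 𝒟.q (β - D') := fun u v => by
    rw [LinearMap.sub_apply, LinearMap.sub_apply, map_sub, map_sub, LinearMap.sub_apply, hβs, hDs']
  have h1 := adm_flag hG hD hβ hs hf
  have h3 := adm_flag hG hβ hD hDs hf
  have e1 : ∀ v, D (Res 𝒟 t s v) = Res 𝒟 t s (D v) := fun v => LinearMap.congr_fun cD v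
  have e2 : ∀ v, (β - D') (Res 𝒟 t s v) = Res 𝒟 t s ((β - D') v) := fun v => by
    rw [LinearMap.sub_apply, LinearMap.sub_apply, map_sub]
    congr 1
    · exact LinearMap.congr_fun cβ v
    · exact LinearMap.congr_fun cD' v
  rw [e1] at h1
  rw [e2] at h3
  have h4 := sub_mem h1 h3
  rw [← map_sub] at h4
  have h5 : D ((β - D') f) - (β - D') (D f) = (D * β - β * D) f := by
    have := LinearMap.congr_fun hcomm f
    rw [Module.End.mul_apply, Module.End.mul_apply] at this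
    simp only [LinearMap.sub_apply, Module.End.mul_apply, map_sub, this]
    abel
  rwa [h5] at h4

omit [FiniteDimensional L V] [DecidableEq J] in
/-- **The rule for the columns**, `t_l` against `u_k` for `c_l ≤ c_k`. -/
theorem rule_tu (hG : 𝒟.Good) {D β D' : End L V} (hD : Adm 𝒟 t s D) (hβ : Adm 𝒟 t s (β - D'))
    (hDs : IsSA 𝒟.q D) (hβs : IsSA 𝒟.q β) (hDs' : IsSA 𝒟.q D') (hcomm : D * D' = D' * D)
    {l k : J} (hl : 𝒟.arm l = s) (hk : 𝒟.arm k = s) (hlk : 𝒟.c l ≤ 𝒟.c k) :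
    𝒟.q (t l) ((D * β - β * D) (𝒟.om t k)) = 0 := by
  have hs : IsSA 𝒟.q (β - D') := fun u v => by
    rw [LinearMap.sub_apply, LinearMap.sub_apply, map_sub, map_sub, LinearMap.sub_apply, hβs, hDs']
  have hC : 𝒟.C l ≤ 𝒟.C k := by
    rw [Cfg.C, Cfg.C, hl, hk]
    exact hG.mono s hlk
  have h1 : 𝒟.q (D (t l)) ((β - D') (𝒟.om t k)) = 0 := by
    rw [hG.form.symm]
    exact (hβ k hk).2 _ (hC (hD l hl).1)
  have h3 : 𝒟.q ((β - D') (t l)) (D (𝒟.om t k)) = 0 := by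
    rw [hG.form.symm]
    exact (hD k hk).2 _ (hC (hβ l hl).1)
  rw [hDs] at h1
  rw [hs] at h3
  have h5 : D ((β - D') (𝒟.om t k)) - (β - D') (D (𝒟.om t k)) = (D * β - β * D) (𝒟.om t k) := by
    have := LinearMap.congr_fun hcomm (𝒟.om t k)
    rw [Module.End.mul_apply, Module.End.mul_apply] at this
    simp only [LinearMap.sub_apply, Module.End.mul_apply, map_sub, this]
    abel
  rw [← h5, map_sub, h1, h3, sub_self]

omit [FiniteDimensional L V] [DecidableEq J] in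
/-- **The rule for the columns**, `t_l` against `t_k`. -/
theorem rule_tt (hG : 𝒟.Good) {D β D' : End L V} (hD : Adm 𝒟 t s D) (hβ : Adm 𝒟 t s (β - D'))
    (hDs : IsSA 𝒟.q D) (hβs : IsSA 𝒟.q β) (hDs' : IsSA 𝒟.q D') (hcomm : D * D' = D' * D)
    {l k : J} (hl : 𝒟.arm l = s) (hk : 𝒟.arm k = s) :
    𝒟.q (t l) ((D * β - β * D) (t k)) = 0 := by
  have hs : IsSA 𝒟.q (β - D') := fun u v => by
    rw [LinearMap.sub_apply, LinearMap.sub_apply, map_sub, map_sub, LinearMap.sub_apply, hβs, hDs']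
  have hCC : ∀ a ∈ 𝒟.C l, ∀ b ∈ 𝒟.C k, 𝒟.q a b = 0 := by
    intro a ha b hb
    rw [Cfg.C, hl] at ha
    rw [Cfg.C, hk] at hb
    exact hG.iso s _ (hG.mono s (le_max_left (𝒟.c l) (𝒟.c k)) ha) _
      (hG.mono s (le_max_right (𝒟.c l) (𝒟.c k)) hb)
  have h1 := hCC _ (hD l hl).1 _ (hβ k hk).1
  have h3 := hCC _ (hβ l hl).1 _ (hD k hk).1
  rw [hDs] at h1
  rw [hs] at h3
  have h5 : D ((β - D') (t k)) - (β - D') (D (t k)) = (D * β - β * D) (t k) := by
    have := LinearMap.congr_fun hcomm (t k)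
    rw [Module.End.mul_apply, Module.End.mul_apply] at this
    simp only [LinearMap.sub_apply, Module.End.mul_apply, map_sub, this]
    abel
  rw [← h5, map_sub, h1, h3, sub_self]

end rules

end surj

end Vale.Agent.P182.H578
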