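import Vale.Agent.P182.H533.Dich
import Mathlib.Algebra.MvPolynomial.Funext
import Mathlib.LinearAlgebra.Matrix.Charpoly.Coeff

/-!
Nilpotency of the operators `x* y` when the residues of `x x*` span nilpotent operators.
-/

namespace Vale.Agent.P182.H578

open Module Matrix Vale.Agent.P182.H533

section alg

variable {L V J ι : Type*} [Field L] [AddCommGroup V] [Module L V] [Fintype J] [DecidableEq J]

/-- the Gram matrix -/
def gram (q : V →ₗ[L] V →ₗ[L] L) (X Y : (J → L) →ₗ[L] V) : Matrix J J L :=
  Matrix.of fun l k => q (X (Pi.single l 1)) (Y (Pi.single k 1))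

omit [Fintype J] in
theorem gram_apply (q : V →ₗ[L] V →ₗ[L] L) (X Y : (J → L) →ₗ[L] V) (l k : J) :
    gram q X Y l k = q (X (Pi.single l 1)) (Y (Pi.single k 1)) := rfl

theorem gram_mulVec (q : V →ₗ[L] V →ₗ[L] L) (X Y : (J → L) →ₗ[L] V) (v : J → L) :
    gram q X Y *ᵥ v = ad q X (Y v) := by
  funext l
  rw [ad_apply]
  conv_rhs => rw [pi_eq_sum_univ' v, map_sum, map_sum]
  rw [Matrix.mulVec, dotProduct]
  refine Finset.sum_congr rfl fun k _ => ?_
  rw [gram_apply, map_smul, map_smul, smul_eq_mul, mul_comm]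

theorem pow_gram (q : V →ₗ[L] V →ₗ[L] L) (X Y : (J → L) →ₗ[L] V) (G : Matrix J J L) (n : ℕ)
    (v : J → L) : (G * gram q X Y) ^ (n + 1) *ᵥ v =
      G *ᵥ ad q X ((opr q Y G X ^ n) (Y v)) := by
  induction n generalizing v with
  | zero => rw [zero_add, pow_one, pow_zero, Module.End.one_apply, ← Matrix.mulVec_mulVec,
      gram_mulVec]
  | succ n ih =>
    rw [pow_succ (G * gram q X Y), ← Matrix.mulVec_mulVec, ih, pow_succ (opr q Y G X),
      Module.End.mul_apply, opr_apply, ← gram_mulVec q X Y v, Matrix.mulVec_mulVec]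

/-- the key nilpotency, for one symmetric matrix -/
theorem nilp_gram {q : V →ₗ[L] V →ₗ[L] L} {X Y : (J → L) →ₗ[L] V} {G : Matrix J J L}
    (h1 : ∀ u v, q (X u) (Y v) = q (Y u) (X v)) (h2 : opr q X G Y = opr q Y G X)
    (hn : IsNilpotent (opr q X G X)) : IsNilpotent (G * gram q X Y) := by
  have e1 : ∀ v, ad q X (Y v) = ad q Y (X v) := fun v => funext fun l => h1 _ _
  have e2 : opr q Y G X * opr q Y G X = opr q Y G Y * opr q X G X := by
    refine LinearMap.ext fun v => ?_
    rw [Module.End.mul_apply, Module.End.mul_apply, opr_apply, opr_apply, opr_apply, opr_apply,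
      e1]
  have e3 : opr q X G X * opr q Y G Y = opr q Y G X * opr q Y G X := by
    rw [← h2]
    refine LinearMap.ext fun v => ?_
    rw [Module.End.mul_apply, Module.End.mul_apply, opr_apply, opr_apply, opr_apply, opr_apply,
      e1]
  have hc : Commute (opr q Y G Y) (opr q X G X) := (e2.symm.trans e3.symm)
  obtain ⟨m, hm⟩ := hn
  have e4 : opr q Y G X ^ (2 * m) = 0 := by
    rw [pow_mul, pow_two, e2, hc.mul_pow, hm, mul_zero]
  refine ⟨2 * m + 1, ?_⟩
  apply Matrix.mulVec_injective
  funext v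
  rw [pow_gram, e4, LinearMap.zero_apply, Matrix.zero_mulVec]
  have : ad q X (0 : V) = 0 := map_zero _
  rw [this, Matrix.mulVec_zero]

variable [Fintype ι]

theorem opr_sum (q : V →ₗ[L] V →ₗ[L] L) (X Y : (J → L) →ₗ[L] V) (G : ι → Matrix J J L)
    (a : ι → L) : opr q X (∑ s, a s • G s) Y = ∑ s, a s • opr q X (G s) Y := by
  refine LinearMap.ext fun v => ?_
  rw [opr_apply, LinearMap.sum_apply, Matrix.sum_mulVec, map_sum]
  refine Finset.sum_congr rfl fun s _ => ?_
  rw [Matrix.smul_mulVec, map_smul, LinearMap.smul_apply, opr_apply]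

variable [DecidableEq ι] {arm : J → ι}

/-- **F1**, nilpotency over the base field -/
theorem nilp_of_rel {q : V →ₗ[L] V →ₗ[L] L} (hq : IsForm q) {Ω : Matrix J J L} (hΩ : Ωᵀ = -Ω)
    {K : Set ((J → L) →ₗ[L] V)} (hK : KRel arm q Ω K) {X Y : (J → L) →ₗ[L] V} (hX : X ∈ K)
    (hY : Y ∈ K) (a : ι → L) (hn : IsNilpotent (∑ s, a s • Sop arm q X Ω s)) :
    IsNilpotent ((∑ s, a s • Gm arm Ω s) * gram q X Y) := by
  refine nilp_gram (fun u v => hK.F1 X hX Y hY u v) ?_ ?_
  · rw [opr_sum, opr_sum]
    exact Finset.sum_congr rfl fun s _ => by rw [hK.swap hq hΩ hX hY]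
  · rw [opr_sum]
    exact hn

end alg

section poly

variable {L J ι : Type*} [Field L] [Fintype J] [DecidableEq J] [Fintype ι]

omit [Fintype ι] in
theorem pow_card_eq_zero {M : Matrix J J L} (h : IsNilpotent M) : M ^ Fintype.card J = 0 := by
  have h1 := (Matrix.isNilpotent_charpoly_sub_pow_of_isNilpotent h).eq_zero
  have h2 := Matrix.aeval_self_charpoly M
  rw [sub_eq_zero.1 h1, map_pow, Polynomial.aeval_X] at h2
  exact h2

/-- nilpotency for all values of the parameters in an infinite field implies nilpotency for all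
values in an extension -/
theorem nilp_ext [Infinite L] {F : Type*} [Field F] [Algebra L F] (G : ι → Matrix J J L)
    (A : Matrix J J L) (h : ∀ a : ι → L, IsNilpotent ((∑ s, a s • G s) * A)) (b : ι → F) :
    IsNilpotent ((∑ s, b s • (G s).map (algebraMap L F)) * A.map (algebraMap L F)) := by
  classical
  let R := MvPolynomial ι L
  let M : Matrix J J R := (∑ s, (MvPolynomial.X s : R) • (G s).map (MvPolynomial.C (σ := ι))) *
    A.map (MvPolynomial.C (σ := ι))
  have hev : ∀ a : ι → L, (MvPolynomial.eval a).mapMatrix M = (∑ s, a s • G s) * A := by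
    intro a
    rw [map_mul, map_sum]
    congr 1
    · refine Finset.sum_congr rfl fun s _ => ?_
      ext i j
      simp
    · ext i j
      simp
  have hM : M ^ (Fintype.card J) = 0 := by
    refine Matrix.ext fun i j => ?_
    apply MvPolynomial.funext
    intro a
    have h1 : (MvPolynomial.eval a).mapMatrix (M ^ Fintype.card J) = 0 := by
      rw [map_pow, hev]
      exact pow_card_eq_zero (h a)
    have h2 := congrFun (congrFun h1 i) j
    simpa using h2
  refine ⟨Fintype.card J, ?_⟩
  have h3 : (MvPolynomial.aeval (R := L) b : R →ₐ[L] F).toRingHom.mapMatrix M =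
      (∑ s, b s • (G s).map (algebraMap L F)) * A.map (algebraMap L F) := by
    rw [map_mul, map_sum]
    congr 1
    · refine Finset.sum_congr rfl fun s _ => ?_
      ext i j
      simp
    · ext i j
      simp
  rw [← h3, ← map_pow, hM, map_zero]

end poly

end Vale.Agent.P182.H578
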