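import Vale.Agent.P182.H578.N1b
import Vale.Agent.P182.H578.F1
import Vale.Agent.P182.H62.ThetaEx
import Vale.Agent.P182.H430.NInt

/-!
The theorem on nilpotent Higgs fields for the concrete bundle `N`, in terms of constants.
-/

namespace Vale.Agent.P182.H578

open Module Matrix Polynomial Vale.Agent.P182.H430 Vale.Agent.P182.H533

variable {k : Type*} [Field k] {J : Type*} [Fintype J] [DecidableEq J] (X : NData k J)
variable (F : Type*) [Field F] [Algebra k[X] F] [IsFractionRing k[X] F]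
  [Algebra k F] [IsScalarTower k k[X] F]

/-- the inverse of the matrix of the form -/
noncomputable def Wi : Matrix J J F := fun l m =>
  (X.lin F (X.arm l))⁻¹ * (X.lin F (X.arm m))⁻¹ * algebraMap k F (X.Om' l m)

theorem Bm_Wi (hdet : IsUnit X.Om'.det) : (Matrix.of (X.Bm F)) * Wi X F = 1 := by
  have hM : X.Mi * X.Om' = 1 := Matrix.nonsing_inv_mul _ hdet
  ext l m
  rw [Matrix.mul_apply]
  have h1 : ∀ j, Matrix.of (X.Bm F) l j * Wi X F j m =
      X.lin F (X.arm l) * (X.lin F (X.arm m))⁻¹ * algebraMap k F (X.Mi l j * X.Om' j m) := by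
    intro j
    have := X.lin_ne F (X.arm j)
    rw [Matrix.of_apply, NData.Bm, Wi, map_mul]
    field_simp
  simp only [h1]
  rw [← Finset.mul_sum, ← map_sum, ← Matrix.mul_apply, hM]
  by_cases h : l = m
  · subst h
    rw [Matrix.one_apply_eq, Matrix.one_apply_eq, map_one, mul_one,
      mul_inv_cancel₀ (X.lin_ne F (X.arm l))]
  · rw [Matrix.one_apply_ne h, Matrix.one_apply_ne h, map_zero, mul_zero]

/-- partial fractions -/
theorem Wi_eq : Wi X F = ∑ s, (X.lin F s)⁻¹ • (Gm X.arm X.Ω s).map (algebraMap k F) := by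
  ext l m
  rw [Matrix.sum_apply]
  have h1 : ∀ s, ((X.lin F s)⁻¹ • (Gm X.arm X.Ω s).map (algebraMap k F)) l m =
      (if X.arm l = s then (X.lin F s)⁻¹ * algebraMap k F (X.Ω l m) else 0) -
        (if X.arm m = s then (X.lin F s)⁻¹ * algebraMap k F (X.Ω l m) else 0) := by
    intro s
    rw [Matrix.smul_apply, Matrix.map_apply, Gm_apply, smul_eq_mul]
    split_ifs <;> simp
  simp only [h1]
  rw [Finset.sum_sub_distrib, Finset.sum_ite_eq, Finset.sum_ite_eq, if_pos (Finset.mem_univ _),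
    if_pos (Finset.mem_univ _)]
  show (X.lin F (X.arm l))⁻¹ * (X.lin F (X.arm m))⁻¹ *
    algebraMap k F ((X.z (X.arm l) - X.z (X.arm m)) * X.Ω l m) = _
  have h0 : algebraMap k F (X.z (X.arm l) - X.z (X.arm m)) =
      X.lin F (X.arm m) - X.lin F (X.arm l) := by
    rw [X.lin_diff F (X.arm l) (X.arm m)]
    ring
  have h2 := X.lin_ne F (X.arm l)
  have h3 := X.lin_ne F (X.arm m)
  rw [map_mul, h0]
  field_simp

/-- the Higgs field of a constant symmetric matrix -/
noncomputable def Th (g : Matrix J J k) : (J → F) →ₗ[F] (J → F) :=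
  Matrix.mulVecLin (Wi X F * g.map (algebraMap k F))

/-- the form of a constant symmetric matrix -/
noncomputable def gf (g : Matrix J J k) : (J → F) →ₗ[F] (J → F) →ₗ[F] F :=
  Matrix.toLinearMap₂' F (g.map (algebraMap k F))

theorem b_eq : X.b F = Matrix.toLinearMap₂' F (Matrix.of (X.Bm F)) := by
  refine LinearMap.ext fun x => LinearMap.ext fun y => ?_
  rw [X.b_apply, Matrix.toLinearMap₂'_apply]
  refine Finset.sum_congr rfl fun l _ => Finset.sum_congr rfl fun m _ => ?_
  rw [Matrix.of_apply]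
  simp only [smul_eq_mul]
  ring

theorem b_Th (hdet : IsUnit X.Om'.det) (g : Matrix J J k) (hg : g.transpose = g) (x y : J → F) :
    X.b F (Th X F g x) y = gf F g x y := by
  rw [b_eq, gf, Matrix.toLinearMap₂'_apply', Matrix.toLinearMap₂'_apply', Th,
    Matrix.mulVecLin_apply]
  have h1 : (Matrix.of (X.Bm F)).transpose = Matrix.of (X.Bm F) := by
    ext l m
    exact X.Bm_symm F m l
  have h2 : (g.map (algebraMap k F)).transpose = g.map (algebraMap k F) := by
    rw [← Matrix.transpose_map, hg]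
  rw [Matrix.dotProduct_mulVec, Matrix.dotProduct_mulVec]
  congr 1
  rw [← Matrix.mulVec_transpose, h1, Matrix.mulVec_mulVec, ← Matrix.mul_assoc, Bm_Wi X F hdet,
    Matrix.one_mul, ← Matrix.mulVec_transpose, h2]

variable {F}

omit [Algebra k[X] F] [IsFractionRing k[X] F] [IsScalarTower k k[X] F] in
theorem gf_cv (g : Matrix J J k) (v w : J → k) :
    gf F g (NData.cv F v) (NData.cv F w) = algebraMap k F (v ⬝ᵥ g *ᵥ w) := by
  rw [gf, Matrix.toLinearMap₂'_apply']
  have h1 : (g.map (algebraMap k F)) *ᵥ (NData.cv F w) = fun l => algebraMap k F ((g *ᵥ w) l) := by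
    funext l
    show ∑ j, _ = algebraMap k F (∑ j, g l j * w j)
    rw [map_sum]
    exact Finset.sum_congr rfl fun j _ => by rw [map_mul]; rfl
  rw [h1]
  show ∑ j, _ = algebraMap k F (∑ j, v j * (g *ᵥ w) j)
  rw [map_sum]
  exact Finset.sum_congr rfl fun j _ => by rw [map_mul]; rfl

omit [Algebra k[X] F] [IsFractionRing k[X] F] [IsScalarTower k k[X] F] in
theorem gf_symm (g : Matrix J J k) (hg : g.transpose = g) (x y : J → F) :
    gf F g x y = gf F g y x := by
  rw [gf, Matrix.toLinearMap₂'_apply', Matrix.toLinearMap₂'_apply', Matrix.dotProduct_mulVec,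
    ← Matrix.mulVec_transpose, ← Matrix.transpose_map, hg, dotProduct_comm]

/-- integrality of the form of `g` on the generators -/
theorem gf_gen {g : Matrix J J k} (hg : g.transpose = g)
    (h1 : ∀ l m, X.arm l = X.arm m → g l m = 0)
    (h2 : ∀ l m, X.arm l = X.arm m → X.c l ≤ X.c m → ∑ j, g l j * X.Ω m j = 0)
    (p : Option k) (i j : J ⊕ J ⊕ J) :
    gf F g (X.gx F i) (X.gx F j) ∈ (linePl k F p).M (X.per p) (X.gw p i + X.gw p j + 0) := by
  have hcc : ∀ (v w : J → k) (n : ℤ), n ≤ 0 →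
      gf F g (NData.cv F v) (NData.cv F w) ∈ (linePl k F p).M (X.per p) n := by
    intro v w n hn
    rw [gf_cv]
    exact Place.M_anti _ hn (NData.const_mem p _ _)
  obtain ⟨v, hv⟩ := X.gx_cv (F := F) i
  obtain ⟨v', hv'⟩ := X.gx_cv (F := F) j
  by_cases hm : X.Marked p
  · obtain ⟨s, rfl⟩ := hm
    have hB : ∀ l m, X.arm l = s → X.arm m = s →
        gf F g (NData.cv F (Pi.single l (1 : k))) (NData.cv F (X.Ω m)) ∈
          (linePl k F (some (X.z s))).M (X.per (some (X.z s)))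
            ((X.n + 1 - X.c l) + (X.c m - X.n) + 0) := by
      intro l m hl hm
      by_cases hlm : X.c l ≤ X.c m
      · have e : (Pi.single l (1 : k)) ⬝ᵥ g *ᵥ (X.Ω m) = 0 := by
          rw [single_one_dotProduct]
          exact h2 l m (hl.trans hm.symm) hlm
        rw [gf_cv, e, map_zero]
        exact Submodule.zero_mem _
      · exact hcc _ _ _ (by omega)
    rcases X.gen_cases (F := F) s i with ⟨l, hl, hx, hw⟩ | ⟨l, hl, hx, hw⟩ | ⟨v, hx, hw⟩ <;>
      rcases X.gen_cases (F := F) s j with ⟨m, hm, hy, hw'⟩ | ⟨m, hm, hy, hw'⟩ | ⟨v', hy, hw'⟩ <;>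
      rw [hx, hy, hw, hw']
    · have e : (Pi.single l (1 : k)) ⬝ᵥ g *ᵥ (Pi.single m (1 : k)) = 0 := by
        rw [single_one_dotProduct, Matrix.mulVec_single_one]
        exact h1 l m (hl.trans hm.symm)
      rw [gf_cv, e, map_zero]
      exact Submodule.zero_mem _
    · exact hB l m hl hm
    · have h3 := X.hc1 l
      exact hcc _ _ _ (by omega)
    · rw [gf_symm g hg, add_comm ((X.c l : ℤ) - X.n)]
      exact hB m l hm hl
    · have h3 := X.hcn l
      have h4 := X.hcn m
      exact hcc _ _ _ (by omega)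
    · have h3 := X.hcn l
      exact hcc _ _ _ (by omega)
    · have h3 := X.hc1 m
      exact hcc _ _ _ (by omega)
    · have h3 := X.hcn m
      exact hcc _ _ _ (by omega)
    · exact hcc _ _ _ (by omega)
  · rw [hv, hv']
    refine hcc _ _ _ ?_
    rcases p with _ | a
    · rw [X.gw_none, X.gw_none]; norm_num
    · rw [X.gw_unmarked hm, X.gw_unmarked hm]; norm_num

/-- integrality of the Higgs field -/
theorem Th_mem [IsAlgClosed k] (hdet : IsUnit X.Om'.det)
    (hs : ∀ p a x, x ∈ ((X.N F).ch p).L a ↔ ∀ c y, y ∈ ((X.N F).ch p).L c →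
      X.b F x y ∈ ((X.cur F).pl p).M ((X.cur F).per p) (a + c + X.kap p))
    {g : Matrix J J k} (hg : g.transpose = g)
    (h1 : ∀ l m, X.arm l = X.arm m → g l m = 0)
    (h2 : ∀ l m, X.arm l = X.arm m → X.c l ≤ X.c m → ∑ j, g l j * X.Ω m j = 0)
    (p : Option k) : Th X F g ∈ (((X.N F).hom (X.N F)).ch p).L (-X.kap p) := by
  intro b x hx
  rw [hs]
  intro c y hy
  rw [b_Th X F hdet g hg, show b + -X.kap p + c + X.kap p = b + c + 0 by ring]
  have e1 : ∀ y : J → F, ∃ c : (J ⊕ J ⊕ J) → F, y = ∑ i, c i • X.gx F i := by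
    intro y
    refine ⟨Sum.elim 0 (Sum.elim 0 y), ?_⟩
    rw [Fintype.sum_sum_type, Fintype.sum_sum_type]
    simp only [Sum.elim_inl, Sum.elim_inr, Pi.zero_apply, zero_smul, Finset.sum_const_zero,
      zero_add]
    have e2 : ∀ l, X.gx F (Sum.inr (Sum.inr l)) = Pi.single l (1 : F) := fun l =>
      NData.cv_single l
    simp only [e2]
    exact pi_eq_sum_univ' y
  exact (gen_bil (Q := (X.cur F).pl p) (hp := (X.cur F).per_pos p) (hp₂ := (X.cur F).per_pos p)
      (x := X.gx F) (w := X.gw p) (x₂ := X.gx F) (w₂ := X.gw p) (hx := e1) (hx₂ := e1)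
      (β := gf F g) (d := 0)).2 (fun i j => gf_gen X hg h1 h2 p i j) b x hx c y hy

/-- a theta characteristic of the curve -/
theorem theta_cur [IsAlgClosed k] : ∃ θ : Option k → ℤ, Theta (X.cur F) θ ∧
    ∀ p, 2 * θ p = X.kap p := by
  have hodd : ∀ p, (X.cur F).per p % 2 = 1 := by
    intro p
    rw [X.cur_per]
    by_cases hm : X.Marked p
    · obtain ⟨s, rfl⟩ := hm
      rw [X.per_marked]
      omega
    · rw [X.per_unmarked hm]
  refine ⟨_, exists_theta (X.cur F) none (X.per_unmarked X.not_marked_none) hodd, ?_⟩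
  intro p
  have h1 := hodd p
  rw [X.cur_per] at h1
  rcases p with _ | a
  · rw [X.kap_none]
    simp
  · rw [X.kap_some]
    simp only [reduceCtorEq, if_false]
    rw [X.cur_per]
    omega

theorem b_nondeg (hdet : IsUnit X.Om'.det) (x : J → F) (h : ∀ y, X.b F x y = 0) : x = 0 := by
  funext j
  have h1 := h (Wi X F *ᵥ Pi.single j 1)
  rw [b_eq, Matrix.toLinearMap₂'_apply', Matrix.mulVec_mulVec, Bm_Wi X F hdet, Matrix.one_mulVec,
    dotProduct_single, mul_one] at h1
  exact h1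

theorem nilp_Th [Infinite k] {g : Matrix J J k}
    (hn : ∀ a : Fin 3 → k, IsNilpotent ((∑ s, a s • Gm X.arm X.Ω s) * g)) :
    IsNilpotent (Th X F g) := by
  obtain ⟨n, hn⟩ := nilp_ext (F := F) (fun s => Gm X.arm X.Ω s) g hn
    (fun s => (X.lin F s)⁻¹)
  rw [← Wi_eq] at hn
  refine ⟨n, ?_⟩
  have h1 : Th X F g = Matrix.toLin' (Wi X F * g.map (algebraMap k F)) := rfl
  rw [h1, ← Matrix.toLin'_pow, hn, map_zero]

/-- **N1**, constants form, relative to the properties of the bundle -/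
theorem const_of_bundle [IsAlgClosed k] (h2 : (2 : k) ≠ 0) (hdet : IsUnit X.Om'.det)
    (hs : ∀ p a x, x ∈ ((X.N F).ch p).L a ↔ ∀ c y, y ∈ ((X.N F).ch p).L c →
      X.b F x y ∈ ((X.cur F).pl p).M ((X.cur F).per p) (a + c + X.kap p))
    {I : Type*} (V : Vers (X.N F) (X.b F) X.kap I)
    (hN0 : ∀ φ : (J → F) →ₗ[F] F, (∀ p a x, x ∈ ((X.N F).ch p).L a →
      φ x ∈ ((X.cur F).pl p).M ((X.cur F).per p) a) → φ = 0)
    (hN1 : ∀ θ : Option k → ℤ, (∀ p, 2 * θ p = X.kap p) →
      ∀ φ : (J → F) →ₗ[F] F, (∀ p a x, x ∈ ((X.N F).ch p).L a →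
      φ x ∈ ((X.cur F).pl p).M ((X.cur F).per p) (a - θ p)) → φ = 0)
    {g : Matrix J J k} (hg : g.transpose = g)
    (h1 : ∀ l m, X.arm l = X.arm m → g l m = 0)
    (h3 : ∀ l m, X.arm l = X.arm m → X.c l ≤ X.c m → ∑ j, g l j * X.Ω m j = 0)
    (hn : ∀ a : Fin 3 → k, IsNilpotent ((∑ s, a s • Gm X.arm X.Ω s) * g)) : g = 0 := by
  obtain ⟨θ, hθ, hθκ⟩ := theta_cur X (F := F)
  have hκ : X.kap = fun p => 2 * θ p := (funext hθκ).symm
  have h2F : (2 : F) ≠ 0 := by
    have := (map_ne_zero (algebraMap k F)).2 h2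
    rwa [map_ofNat] at this
  have hinf : Infinite k := IsAlgClosed.instInfinite
  have hT := no_nilpotent' (N := X.N F) (B := X.b F) hθ h2F (inv_mul_cancel₀ h2)
    (fun p a x => by rw [hs, hκ]) (X.b_symm F) (b_nondeg X hdet) (hκ ▸ V) hN0 (hN1 θ hθκ)
    (Θ := Th X F g)
    (fun x y => by rw [b_Th X F hdet g hg, X.b_symm F x, b_Th X F hdet g hg, gf_symm g hg])
    (fun p => by
      have := Th_mem X (F := F) hdet hs hg h1 h3 p
      rwa [hκ] at this)
    (nilp_Th X hn)
  ext l m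
  have h4 := b_Th X F hdet g hg (NData.cv F (Pi.single l (1 : k)))
    (NData.cv F (Pi.single m (1 : k)))
  rw [hT, LinearMap.zero_apply, map_zero, LinearMap.zero_apply, gf_cv, single_one_dotProduct,
    Matrix.mulVec_single_one] at h4
  exact (map_eq_zero (algebraMap k F)).1 h4.symm

end Vale.Agent.P182.H578
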