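import Vale.Agent.P182.H55.NullCrit
import Vale.Agent.P182.H578.Der

/-!
# The null case: (B) for the assembly
-/

namespace Vale.Agent.P182.H578

open Module Vale.Agent.P182.H533 Vale.Agent.P182.B1 Vale.Agent.P182.H922

variable {L V J : Type*} [Field L] [AddCommGroup V] [Module L V] [FiniteDimensional L V]
  [Fintype J] [DecidableEq J] {𝒟 : Cfg L V J}

/-- the self adjoint commutant is commutative -/
theorem comm_of_struct {E : Type*} [AddCommGroup E] [Module L E] {q : E →ₗ[L] E →ₗ[L] L}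
    {S : Fin 3 → End L E} (h : H89.StructS q S) {M M' : End L E} (h1 : IsSA q M)
    (h2 : ∀ s, M * S s = S s * M) (h1' : IsSA q M') (h2' : ∀ s, M' * S s = S s * M') :
    M * M' = M' * M := by
  obtain ⟨⟨m, e, -, -, hem, -, hspan⟩, -⟩ := h
  obtain ⟨κ, rfl⟩ := hspan M h1 h2
  obtain ⟨κ', rfl⟩ := hspan M' h1' h2'
  rw [Finset.sum_mul_sum, Finset.sum_mul_sum, Finset.sum_comm]
  refine Finset.sum_congr rfl fun i _ => Finset.sum_congr rfl fun j _ => ?_
  rw [smul_mul_smul_comm, smul_mul_smul_comm, hem, hem, mul_comm (κ j)]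
  by_cases h : i = j
  · subst h; rfl
  · rw [if_neg h, if_neg (Ne.symm h), smul_zero]

/-- **(B)** in the form of the assembly of the honest null case. -/
theorem stB (hG : 𝒟.Good) (hV : 𝒟.Versal) {t t' : J → V} {C : Core 𝒟.q (Res 𝒟 t)}
    (hI : C.I = ⊥) (ht : t ∈ 𝒟.K) (ht' : t' ∈ 𝒟.K)
    (hK : ∀ r ∈ 𝒟.K, ∃ a b : L, r = a • t + b • t') {D : End L C.V1} (hDs : IsSA C.q1 D)
    (hDc : ∀ s, D * C.S1 hG.form s = C.S1 hG.form s * D)
    (hD : ∀ l, C.P hG.form (t' l) = D (C.P hG.form (t l)))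
    (hS : H89.StructS C.q1 (C.S1 hG.form)) : H55.StB hG t' C D := by
  intro n P d hP hPS hPP hP1 hd hDP x hx _ s H2 Y Y' hY hYo hYS hY' h hho hhr
  refine der_HH hG hV hI ht ht' hK (P := P) (d := d) ⟨fun i => by rw [hPP, if_pos rfl],
    fun i j hij => by rw [hPP, if_neg hij], hP1, hd, hDP⟩ hP hPS hD
    (fun M h1 h2 => comm_of_struct hS h1 h2 hDs hDc) hx s H2 hY hYo hYS hY' hho hhr

/-- **The honest null case** for critical configurations, from infinitely many good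
parameters. -/
theorem null_honest_of_goodL {L : Type*} {V : Type*} {J : Type*} [Field L] [AddCommGroup V]
    [Module L V] [FiniteDimensional L V] [Fintype J] [DecidableEq J] {𝒟 : Cfg L V J}
    [IsAlgClosed L] [CharZero L] (h : CritN 𝒟) {t : J → V} (ht : MaxCoreC 𝒟 t)
    (hm : Moves 𝒟 t) (C : Core 𝒟.q (Res 𝒟 t)) (hI : C.I = ⊥) {t' : J → V} (ht' : t' ∈ 𝒟.K)
    {D : End L C.V1} (hDs : IsSA C.q1 D)
    (hD1 : ∀ s, C.res h.good.form (opr 𝒟.q (Tt L t) (Gm 𝒟.arm 𝒟.Ω s) (Tt L t')) =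
      C.S1 h.good.form s * D)
    (hD2 : ∀ s, C.res h.good.form (opr 𝒟.q (Tt L t) (Gm 𝒟.arm 𝒟.Ω s) (Tt L t')) =
      D * C.S1 h.good.form s)
    (he : ∃ a b : L, a ≠ b ∧ D.HasEigenvalue a ∧ D.HasEigenvalue b)
    {X : Set L} (hX : X.Infinite) (hXg : ∀ x ∈ X, GoodL h.good (t' := t') C D x) :
    ¬ NullCore C h.good.form := by
  intro hN
  have hrel := Rel_K h.good h.versal ht.1 ht'
  obtain ⟨p, hp⟩ := H258.nul_core h.good t C hN
  exact H55.null_honest_crit h ht hm C hI ht' hDs hD1 hD2 he hX hXg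
    (stB h.good h.versal hI ht.1 ht' (H55.span_of_D h.good h.dim ht.1 ht' C hD1 he) hDs
      (fun s => by rw [← hD2, ← hD1]) (H55.P_of_D h.good hrel C hI hD1)
      (H58.structThm _ _ _ p hp (H258.realS_core h.good h.versal ht.1 hm C))) hN

end Vale.Agent.P182.H578
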