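import Vale.Agent.P182.H578.Str

/-!
The weight filtration of a self-adjoint nilpotent operator and its metric connections.
-/

namespace Vale.Agent.P182.H578

open LinearMap Submodule

variable {F : Type*} [Field F] {E : Type*} [AddCommGroup E] [Module F E]
  {B : LinearMap.BilinForm F E} {Θ : E →ₗ[F] E}

/-- a connection over the derivation `δ` -/
def IsConn (δ : Derivation ℤ F F) (D : E → E) : Prop :=
  (∀ x y, D (x + y) = D x + D y) ∧ ∀ (f : F) x, D (f • x) = f • D x + δ f • x

/-- a metric connection -/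
def IsMetric (B : LinearMap.BilinForm F E) (δ : Derivation ℤ F F) (D : E → E) : Prop :=
  ∀ x y, δ (B x y) = B (D x) y + B x (D y)

/-- the operators of degree at least `d` for a filtration -/
def Ef (fil : ℤ → Submodule F E) (d : ℤ) : Submodule F (E →ₗ[F] E) where
  carrier := {T | ∀ i, ∀ x ∈ fil i, T x ∈ fil (i + d)}
  zero_mem' := fun _ _ _ => (fil _).zero_mem
  add_mem' := fun hS hT i x hx => (fil _).add_mem (hS i x hx) (hT i x hx)
  smul_mem' := fun c _ hT i x hx => (fil _).smul_mem c (hT i x hx)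

theorem mem_Ef {fil : ℤ → Submodule F E} {d : ℤ} {T : E →ₗ[F] E} :
    T ∈ Ef fil d ↔ ∀ i, ∀ x ∈ fil i, T x ∈ fil (i + d) := Iff.rfl

/-- what is needed about the weight filtration -/
structure JM (B : LinearMap.BilinForm F E) (Θ : E →ₗ[F] E) (fil : ℤ → Submodule F E) : Prop where
  anti : Antitone fil
  dual : ∀ i x, x ∈ fil i ↔ ∀ y ∈ fil (1 - i), B x y = 0
  bdd : ∃ M : ℕ, fil (-M) = ⊤ ∧ fil (M + 1) = ⊥
  deg : Θ ∈ Ef fil 2
  inj : ∀ d : ℤ, d ≤ -1 → ∀ T ∈ Ef fil d, Θ * T - T * Θ ∈ Ef fil (d + 3) → T ∈ Ef fil (d + 1)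
  conn : ∀ δ : Derivation ℤ F F, ∃ D : E → E, IsConn δ D ∧ IsMetric B δ D ∧
    (∀ x, D (Θ x) = Θ (D x)) ∧ ∀ i, ∀ x ∈ fil i, D x ∈ fil i

namespace StrSys

variable {ι : Type} [Fintype ι] (S : StrSys B Θ ⊤ ι)

/-- coordinates -/
noncomputable def c (S : StrSys B Θ ⊤ ι) (j : ι) (a : ℕ) (x : E) : F :=
  (S.lam j)⁻¹ * B x ((Θ ^ (S.m j - a)) (S.e j))

omit [Fintype ι] in
theorem c_add (j : ι) (a : ℕ) (x y : E) : S.c j a (x + y) = S.c j a x + S.c j a y := by
  unfold c
  rw [map_add, LinearMap.add_apply, mul_add]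

omit [Fintype ι] in
theorem c_smul (j : ι) (a : ℕ) (f : F) (x : E) : S.c j a (f • x) = f * S.c j a x := by
  unfold c
  rw [map_smul, LinearMap.smul_apply, smul_eq_mul]
  ring

omit [Fintype ι] in
theorem c_gen_same (j : ι) (a : ℕ) (ha : a ≤ S.m j) : S.c j a ((Θ ^ a) (S.e j)) = 1 := by
  unfold c
  rw [S.pair, if_pos (by omega)]
  exact inv_mul_cancel₀ (S.lam_ne j)

omit [Fintype ι] in
theorem c_gen_ne (j i : ι) (a b : ℕ) (ha : a ≤ S.m j) (h : j ≠ i ∨ a ≠ b) :
    S.c j a ((Θ ^ b) (S.e i)) = 0 := by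
  unfold c
  by_cases hij : j = i
  · subst hij
    have hab : a ≠ b := h.resolve_left (fun h => h rfl)
    rw [S.pair, if_neg (by omega), mul_zero]
  · rw [S.orth i j (fun h => hij h.symm), mul_zero]

omit [Fintype ι] in
theorem pow_zero {j : ι} {b : ℕ} (hb : S.m j < b) : (Θ ^ b) (S.e j) = 0 :=
  pow_zero_of_le (S.top j) hb

omit [Fintype ι] in
theorem ind {p : E → Prop} (h1 : ∀ j a, p ((Θ ^ a) (S.e j))) (h2 : p 0)
    (h3 : ∀ x y, p x → p y → p (x + y)) (h4 : ∀ (f : F) x, p x → p (f • x)) (x : E) : p x := by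
  have hx : x ∈ Submodule.span F {x | ∃ j a, x = (Θ ^ a) (S.e j)} := S.span_eq.ge trivial
  induction hx using Submodule.span_induction with
  | mem x hx => obtain ⟨j, a, rfl⟩ := hx; exact h1 j a
  | zero => exact h2
  | add x y _ _ hx hy => exact h3 x y hx hy
  | smul f x _ hx => exact h4 f x hx

/-- expansion in the string basis -/
theorem expand (x : E) :
    x = ∑ j, ∑ a ∈ Finset.range (S.m j + 1), S.c j a x • (Θ ^ a) (S.e j) := by
  classical
  refine S.ind (p := fun x => x = ∑ j, ∑ a ∈ Finset.range (S.m j + 1),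
    S.c j a x • (Θ ^ a) (S.e j)) ?_ ?_ ?_ ?_ x
  · intro i b
    rw [Finset.sum_eq_single i]
    · rcases Nat.lt_or_ge (S.m i) b with hb | hb
      · rw [S.pow_zero hb]
        symm
        apply Finset.sum_eq_zero
        intro a _
        unfold c
        rw [map_zero, LinearMap.zero_apply, mul_zero, zero_smul]
      · rw [Finset.sum_eq_single b]
        · rw [S.c_gen_same i b hb, one_smul]
        · intro a ha hab
          rw [S.c_gen_ne i i a b (by have := Finset.mem_range.1 ha; omega) (Or.inr hab),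
            zero_smul]
        · intro h
          exact absurd (Finset.mem_range.2 (by omega)) h
    · intro j _ hj
      apply Finset.sum_eq_zero
      intro a ha
      rw [S.c_gen_ne j i a b (by have := Finset.mem_range.1 ha; omega) (Or.inl hj), zero_smul]
    · intro h
      exact absurd (Finset.mem_univ _) h
  · symm
    apply Finset.sum_eq_zero
    intro j _
    apply Finset.sum_eq_zero
    intro a _
    unfold c
    rw [map_zero, LinearMap.zero_apply, mul_zero, zero_smul]
  · intro x y hx hy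
    conv_lhs => rw [hx, hy]
    rw [← Finset.sum_add_distrib]
    refine Finset.sum_congr rfl fun j _ => ?_
    rw [← Finset.sum_add_distrib]
    refine Finset.sum_congr rfl fun a _ => ?_
    rw [S.c_add, add_smul]
  · intro f x hx
    conv_lhs => rw [hx]
    rw [Finset.smul_sum]
    refine Finset.sum_congr rfl fun j _ => ?_
    rw [Finset.smul_sum]
    refine Finset.sum_congr rfl fun a _ => ?_
    rw [S.c_smul, smul_smul]

/-- the weight filtration -/
def fil (S : StrSys B Θ ⊤ ι) (i : ℤ) : Submodule F E :=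
  Submodule.span F {x | ∃ (j : ι) (a : ℕ), i ≤ 2 * (a : ℤ) - S.m j ∧ x = (Θ ^ a) (S.e j)}

omit [Fintype ι] in
theorem gen_mem {i : ℤ} {j : ι} {a : ℕ} (h : i ≤ 2 * (a : ℤ) - S.m j) :
    (Θ ^ a) (S.e j) ∈ S.fil i := Submodule.subset_span ⟨j, a, h, rfl⟩

omit [Fintype ι] in
theorem fil_anti : Antitone S.fil := by
  intro i i' h
  refine Submodule.span_mono ?_
  rintro x ⟨j, a, h1, rfl⟩
  exact ⟨j, a, h.trans h1, rfl⟩

omit [Fintype ι] in
theorem fil_perp {i i' : ℤ} (h : 1 ≤ i + i') {x y : E} (hx : x ∈ S.fil i) (hy : y ∈ S.fil i') :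
    B x y = 0 := by
  induction hx using Submodule.span_induction with
  | zero => rw [map_zero, LinearMap.zero_apply]
  | add x x' _ _ h1 h2 => rw [map_add, LinearMap.add_apply, h1, h2, add_zero]
  | smul f x _ h1 => rw [map_smul, LinearMap.smul_apply, h1, smul_zero]
  | mem x hx =>
    obtain ⟨j, a, hja, rfl⟩ := hx
    induction hy using Submodule.span_induction with
    | zero => rw [map_zero]
    | add y y' _ _ h1 h2 => rw [map_add, h1, h2, add_zero]
    | smul f y _ h1 => rw [map_smul, h1, smul_zero]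
    | mem y hy =>
      obtain ⟨j', b, hjb, rfl⟩ := hy
      by_cases hjj : j = j'
      · subst hjj
        rw [S.pair, if_neg (by omega)]
      · exact S.orth _ _ hjj _ _

theorem mem_fil_of_c {i : ℤ} {x : E}
    (h : ∀ j a, a ≤ S.m j → 2 * (a : ℤ) - S.m j < i → S.c j a x = 0) : x ∈ S.fil i := by
  rw [S.expand x]
  refine Submodule.sum_mem _ fun j _ => Submodule.sum_mem _ fun a ha => ?_
  by_cases hw : 2 * (a : ℤ) - S.m j < i
  · rw [h j a (by have := Finset.mem_range.1 ha; omega) hw, zero_smul]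
    exact Submodule.zero_mem _
  · exact Submodule.smul_mem _ _ (S.gen_mem (by omega))

omit [Fintype ι] in
theorem c_of_mem_fil {i : ℤ} {x : E} (hx : x ∈ S.fil i) (j : ι) (a : ℕ) (ha : a ≤ S.m j)
    (hw : 2 * (a : ℤ) - S.m j < i) : S.c j a x = 0 := by
  unfold c
  rw [S.fil_perp (i' := 2 * ((S.m j - a : ℕ) : ℤ) - S.m j) (by push_cast [ha]; omega) hx
    (S.gen_mem le_rfl), mul_zero]

theorem fil_dual (i : ℤ) (x : E) : x ∈ S.fil i ↔ ∀ y ∈ S.fil (1 - i), B x y = 0 := by
  constructor
  · intro hx y hy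
    exact S.fil_perp (by omega) hx hy
  · intro h
    apply S.mem_fil_of_c
    intro j a ha hw
    unfold c
    rw [h _ (S.gen_mem (by push_cast [ha]; omega)), mul_zero]

omit [Fintype ι] in
theorem theta_deg : Θ ∈ Ef S.fil 2 := by
  intro i x hx
  induction hx using Submodule.span_induction with
  | zero => rw [map_zero]; exact Submodule.zero_mem _
  | add x x' _ _ h1 h2 => rw [map_add]; exact Submodule.add_mem _ h1 h2
  | smul f x _ h1 => rw [map_smul]; exact Submodule.smul_mem _ _ h1
  | mem x hx =>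
    obtain ⟨j, a, hja, rfl⟩ := hx
    rw [← Module.End.mul_apply, ← pow_succ']
    apply S.gen_mem
    push_cast
    omega

theorem fil_inj (hΘ : ∀ x y, B (Θ x) y = B x (Θ y)) (d : ℤ)
    (hd : d ≤ -1) (T : E →ₗ[F] E) (hT : T ∈ Ef S.fil d)
    (h : Θ * T - T * Θ ∈ Ef S.fil (d + 3)) : T ∈ Ef S.fil (d + 1) := by
  intro i x hx
  rw [S.fil_dual]
  intro y hy
  induction hx using Submodule.span_induction with
  | zero => rw [map_zero, map_zero, LinearMap.zero_apply]
  | add x x' _ _ h1 h2 => rw [map_add, map_add, LinearMap.add_apply, h1, h2, add_zero]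
  | smul f x _ h1 => rw [map_smul, map_smul, LinearMap.smul_apply, h1, smul_zero]
  | mem x hx =>
    obtain ⟨j, a, hja, rfl⟩ := hx
    induction hy using Submodule.span_induction with
    | zero => rw [map_zero]
    | add y y' _ _ h1 h2 => rw [map_add, h1, h2, add_zero]
    | smul f y _ h1 => rw [map_smul, h1, smul_zero]
    | mem y hy =>
      obtain ⟨j', b, hjb, rfl⟩ := hy
      by_cases hs : 1 - d ≤ (2 * (a : ℤ) - S.m j) + (2 * (b : ℤ) - S.m j')
      · exact S.fil_perp (i := (2 * (a : ℤ) - S.m j) + d) (i' := 2 * (b : ℤ) - S.m j')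
          (by omega) (hT _ _ (S.gen_mem le_rfl)) (S.gen_mem le_rfl)
      have hs' : 2 * ((a : ℤ) + b) = S.m j + S.m j' - d := by omega
      -- the shift relation
      have hshift : ∀ a b : ℕ, 2 * ((a : ℤ) + b) = S.m j + S.m j' - d - 2 →
          B (T ((Θ ^ (a + 1)) (S.e j))) ((Θ ^ b) (S.e j')) =
            B (T ((Θ ^ a) (S.e j))) ((Θ ^ (b + 1)) (S.e j')) := by
        intro a b hab
        have h1 := h _ _ (S.gen_mem (i := 2 * (a : ℤ) - S.m j) (j := j) (a := a) le_rfl)
        have h2 := S.fil_perp (i' := 2 * (b : ℤ) - S.m j') (by omega) h1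
          (S.gen_mem (j := j') (a := b) le_rfl)
        rw [LinearMap.sub_apply, map_sub, LinearMap.sub_apply, sub_eq_zero,
          Module.End.mul_apply, Module.End.mul_apply, hΘ] at h2
        rw [pow_succ' Θ a, pow_succ' Θ b, Module.End.mul_apply, Module.End.mul_apply]
        exact h2.symm
      have hall : ∀ n a b : ℕ, 2 * ((a : ℤ) + b) = S.m j + S.m j' - d → n ≤ b →
          B (T ((Θ ^ a) (S.e j))) ((Θ ^ b) (S.e j')) =
            B (T ((Θ ^ (a + n)) (S.e j))) ((Θ ^ (b - n)) (S.e j')) := by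
        intro n
        induction n with
        | zero => intro a b _ _; rfl
        | succ n ih =>
          intro a b hab hn
          rw [ih a b hab (by omega)]
          have h3 := hshift (a + n) (b - n - 1) (by
            have : ((b - n - 1 : ℕ) : ℤ) = b - n - 1 := by omega
            rw [this]
            push_cast
            omega)
          have e1 : b - n - 1 + 1 = b - n := by omega
          have e2 : b - (n + 1) = b - n - 1 := by omega
          have e3 : a + (n + 1) = a + n + 1 := by ring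
          rw [e1] at h3
          rw [e2, e3, h3]
      rcases Nat.lt_or_ge (S.m j) (a + b) with h1 | h1
      · rw [hall b a b hs' le_rfl, S.pow_zero h1, map_zero, map_zero, LinearMap.zero_apply]
      · have h4 := hall (a + b) 0 (a + b) (by push_cast; omega) le_rfl
        have h5 := hall a 0 (a + b) (by push_cast; omega) (by omega)
        have e1 : a + b - a = b := by omega
        rw [Nat.zero_add, e1] at h5
        rw [← h5, S.pow_zero (j := j') (by omega), map_zero]

/-- the metric connection commuting with `Θ` -/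
noncomputable def nab (S : StrSys B Θ ⊤ ι) (δ : Derivation ℤ F F) (x : E) : E :=
  ∑ j, ∑ a ∈ Finset.range (S.m j + 1),
    (δ (S.c j a x) + δ (S.lam j) / (2 * S.lam j) * S.c j a x) • (Θ ^ a) (S.e j)

theorem nab_conn (δ : Derivation ℤ F F) : IsConn δ (S.nab δ) := by
  constructor
  · intro x y
    unfold nab
    rw [← Finset.sum_add_distrib]
    refine Finset.sum_congr rfl fun j _ => ?_
    rw [← Finset.sum_add_distrib]
    refine Finset.sum_congr rfl fun a _ => ?_
    rw [S.c_add, map_add, ← add_smul]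
    congr 1
    ring
  · intro f x
    unfold nab
    have h1 : δ f • x = ∑ j, ∑ a ∈ Finset.range (S.m j + 1),
        (δ f * S.c j a x) • (Θ ^ a) (S.e j) := by
      conv_lhs => rw [S.expand x]
      rw [Finset.smul_sum]
      refine Finset.sum_congr rfl fun j _ => ?_
      rw [Finset.smul_sum]
      refine Finset.sum_congr rfl fun a _ => ?_
      rw [smul_smul]
    rw [h1, Finset.smul_sum, ← Finset.sum_add_distrib]
    refine Finset.sum_congr rfl fun j _ => ?_
    rw [Finset.smul_sum, ← Finset.sum_add_distrib]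
    refine Finset.sum_congr rfl fun a _ => ?_
    rw [smul_smul, ← add_smul, S.c_smul, Derivation.leibniz]
    congr 1
    simp only [smul_eq_mul]
    ring

omit [Fintype ι] in
theorem c_theta_zero (hΘ : ∀ x y, B (Θ x) y = B x (Θ y)) (j : ι) (x : E) :
    S.c j 0 (Θ x) = 0 := by
  unfold c
  rw [hΘ, ← Module.End.mul_apply, ← pow_succ', Nat.sub_zero, S.top, map_zero, mul_zero]

omit [Fintype ι] in
theorem c_theta_succ (hΘ : ∀ x y, B (Θ x) y = B x (Θ y)) (j : ι) (a : ℕ) (ha : a + 1 ≤ S.m j)
    (x : E) : S.c j (a + 1) (Θ x) = S.c j a x := by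
  unfold c
  have e1 : S.m j - (a + 1) + 1 = S.m j - a := by omega
  rw [hΘ, ← Module.End.mul_apply, ← pow_succ', e1]

theorem nab_theta (hΘ : ∀ x y, B (Θ x) y = B x (Θ y)) (δ : Derivation ℤ F F) (x : E) :
    S.nab δ (Θ x) = Θ (S.nab δ x) := by
  unfold nab
  rw [map_sum]
  refine Finset.sum_congr rfl fun j _ => ?_
  rw [map_sum, Finset.sum_range_succ', Finset.sum_range_succ (n := S.m j)
    (f := fun a => Θ ((δ (S.c j a x) + δ (S.lam j) / (2 * S.lam j) * S.c j a x) •
      (Θ ^ a) (S.e j)))]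
  rw [S.c_theta_zero hΘ, map_zero, mul_zero, add_zero, zero_smul, add_zero]
  have h1 : Θ ((δ (S.c j (S.m j) x) + δ (S.lam j) / (2 * S.lam j) * S.c j (S.m j) x) •
      (Θ ^ (S.m j)) (S.e j)) = 0 := by
    rw [map_smul, ← Module.End.mul_apply, ← pow_succ', S.top, smul_zero]
  rw [h1, add_zero]
  refine Finset.sum_congr rfl fun a ha => ?_
  rw [S.c_theta_succ hΘ j a (by have := Finset.mem_range.1 ha; omega), map_smul,
    ← Module.End.mul_apply, ← pow_succ']

theorem nab_fil (δ : Derivation ℤ F F) (i : ℤ) (x : E) (hx : x ∈ S.fil i) :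
    S.nab δ x ∈ S.fil i := by
  unfold nab
  refine Submodule.sum_mem _ fun j _ => Submodule.sum_mem _ fun a ha => ?_
  by_cases hw : 2 * (a : ℤ) - S.m j < i
  · rw [S.c_of_mem_fil hx j a (by have := Finset.mem_range.1 ha; omega) hw]
    rw [map_zero, mul_zero, add_zero, zero_smul]
    exact Submodule.zero_mem _
  · exact Submodule.smul_mem _ _ (S.gen_mem (by omega))

/-- pairing with a string vector -/
theorem pair_c (j : ι) (a : ℕ) (ha : a ≤ S.m j) (x : E) :
    B x ((Θ ^ a) (S.e j)) = S.lam j * S.c j (S.m j - a) x := by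
  unfold c
  have e1 : S.m j - (S.m j - a) = a := by omega
  rw [e1, ← mul_assoc, mul_inv_cancel₀ (S.lam_ne j), one_mul]

theorem form_eq (x y : E) : B x y = ∑ j, ∑ a ∈ Finset.range (S.m j + 1),
    S.lam j * (S.c j a y * S.c j (S.m j - a) x) := by
  conv_lhs => rw [S.expand y]
  rw [map_sum]
  refine Finset.sum_congr rfl fun j _ => ?_
  rw [map_sum]
  refine Finset.sum_congr rfl fun a ha => ?_
  rw [map_smul, smul_eq_mul, S.pair_c j a (by have := Finset.mem_range.1 ha; omega)]
  ring

theorem nab_metric (h2 : (2 : F) ≠ 0) (hB : ∀ x y, B x y = B y x) (δ : Derivation ℤ F F) :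
    IsMetric B δ (S.nab δ) := by
  have key : ∀ x y, B x (S.nab δ y) = ∑ j, ∑ a ∈ Finset.range (S.m j + 1),
      S.lam j * ((δ (S.c j a y) + δ (S.lam j) / (2 * S.lam j) * S.c j a y) *
        S.c j (S.m j - a) x) := by
    intro x y
    unfold nab
    rw [map_sum]
    refine Finset.sum_congr rfl fun j _ => ?_
    rw [map_sum]
    refine Finset.sum_congr rfl fun a ha => ?_
    rw [map_smul, smul_eq_mul, S.pair_c j a (by have := Finset.mem_range.1 ha; omega)]
    ring
  intro x y
  rw [hB (S.nab δ x) y, key, key, S.form_eq x y, map_sum, ← Finset.sum_add_distrib]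
  refine Finset.sum_congr rfl fun j _ => ?_
  rw [← Finset.sum_range_reflect (fun a => S.lam j * ((δ (S.c j a x) +
    δ (S.lam j) / (2 * S.lam j) * S.c j a x) * S.c j (S.m j - a) y)), map_sum,
    ← Finset.sum_add_distrib]
  refine Finset.sum_congr rfl fun a ha => ?_
  have ha' := Finset.mem_range.1 ha
  have e1 : S.m j + 1 - 1 - a = S.m j - a := by omega
  have e2 : S.m j - (S.m j - a) = a := by omega
  rw [e1, e2, Derivation.leibniz, Derivation.leibniz]
  simp only [smul_eq_mul]
  have hl := S.lam_ne j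
  field_simp
  ring

end StrSys

/-- the weight filtration of a self-adjoint nilpotent operator -/
theorem exists_JM [FiniteDimensional F E] (h2 : (2 : F) ≠ 0) (hB : ∀ x y, B x y = B y x)
    (hnd : ∀ x, (∀ y, B x y = 0) → x = 0) (hΘ : ∀ x y, B (Θ x) y = B x (Θ y))
    (hn : IsNilpotent Θ) : ∃ fil : ℤ → Submodule F E, JM B Θ fil := by
  obtain ⟨ι, hι, ⟨S⟩⟩ := exists_str h2 hB hΘ hn (Module.finrank F (⊤ : Submodule F E)) ⊤ le_rfl
    (fun _ _ => trivial) (fun x _ h => hnd x fun y => h y trivial)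
  refine ⟨S.fil, S.fil_anti, S.fil_dual, ?_, S.theta_deg, fun d hd T hT h =>
    S.fil_inj hΘ d hd T hT h, fun δ => ⟨S.nab δ, S.nab_conn δ, S.nab_metric h2 hB δ,
      S.nab_theta hΘ δ, S.nab_fil δ⟩⟩
  refine ⟨∑ j, S.m j, ?_, ?_⟩
  · rw [Submodule.eq_top_iff']
    intro x
    apply S.mem_fil_of_c
    intro j a ha hw
    have := Finset.single_le_sum (f := S.m) (fun i _ => Nat.zero_le _) (Finset.mem_univ j)
    push_cast at hw
    have h3 : (S.m j : ℤ) ≤ ∑ j, (S.m j : ℤ) := by exact_mod_cast this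
    omega
  · rw [Submodule.eq_bot_iff]
    intro x hx
    rw [S.expand x]
    refine Finset.sum_eq_zero fun j _ => Finset.sum_eq_zero fun a ha => ?_
    have ha' := Finset.mem_range.1 ha
    have := Finset.single_le_sum (f := S.m) (fun i _ => Nat.zero_le _) (Finset.mem_univ j)
    have h3 : (S.m j : ℤ) ≤ ((∑ j, S.m j : ℕ) : ℤ) := by exact_mod_cast this
    rw [S.c_of_mem_fil hx j a (by omega) (by omega), zero_smul]

end Vale.Agent.P182.H578
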