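import Vale.Agent.P182.H578.Const
import Vale.Agent.P182.H922.N1sq
import Vale.Agent.P182.H430.NConst

/-!
Restriction of the constants theorem to the columns of positive height.
-/

namespace Vale.Agent.P182.H578

open Module Matrix Vale.Agent.P182.H430 Vale.Agent.P182.H533 Vale.Agent.P182.H922

section sub

variable {L J : Type*} [Field L] [Fintype J] [DecidableEq J]

/-- restriction of a matrix to a subset -/
def rsm (p : J → Prop) (M : Matrix J J L) : Matrix {l // p l} {l // p l} L :=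
  M.submatrix Subtype.val Subtype.val

omit [Fintype J] [DecidableEq J] in
theorem rsm_apply (p : J → Prop) (M : Matrix J J L) (l k : {l // p l}) :
    rsm p M l k = M l k := rfl

/-- powers of a matrix whose columns outside `p` vanish -/
theorem rsm_pow {p : J → Prop} [DecidablePred p] {M : Matrix J J L}
    (h : ∀ l k, ¬ p k → M l k = 0) (n : ℕ) :
    (rsm p M) ^ n = rsm p (M ^ n) ∧ ∀ l k, p l → ¬ p k → (M ^ n) l k = 0 := by
  induction n with
  | zero =>
    refine ⟨?_, fun l k hl hk => ?_⟩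
    · rw [pow_zero, pow_zero]
      exact (Matrix.submatrix_one _ Subtype.val_injective).symm
    · rw [pow_zero, Matrix.one_apply_ne]
      rintro rfl
      exact hk hl
  | succ n ih =>
    refine ⟨?_, fun l k hl hk => ?_⟩
    · rw [pow_succ, ih.1, pow_succ]
      ext l k
      rw [Matrix.mul_apply, rsm_apply, Matrix.mul_apply, ← Fintype.sum_subtype_add_sum_subtype p]
      have : ∑ i : {x // ¬ p x}, (M ^ n) l i * M i k = 0 :=
        Finset.sum_eq_zero fun i _ => by rw [ih.2 l i l.2 i.2, zero_mul]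
      rw [this, add_zero]
      rfl
    · rw [pow_succ, Matrix.mul_apply]
      exact Finset.sum_eq_zero fun j _ => by rw [h j k hk, mul_zero]

theorem rsm_mul {p : J → Prop} [DecidablePred p] (A : Matrix J J L) {g : Matrix J J L}
    (h : ∀ l k, ¬ p l → g l k = 0) : rsm p A * rsm p g = rsm p (A * g) := by
  ext l k
  rw [Matrix.mul_apply, rsm_apply, Matrix.mul_apply, ← Fintype.sum_subtype_add_sum_subtype p]
  have : ∑ i : {x // ¬ p x}, A l i * g i k = 0 :=
    Finset.sum_eq_zero fun i _ => by rw [h i k i.2, mul_zero]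
  rw [this, add_zero]
  rfl

theorem rsm_Gm {ι : Type*} [DecidableEq ι] (p : J → Prop) [DecidablePred p] (arm : J → ι)
    (Ω : Matrix J J L) (s : ι) :
    Gm (fun l : {l // p l} => arm l) (rsm p Ω) s = rsm p (Gm arm Ω s) := by
  ext l k
  rw [Gm_apply, rsm_apply, rsm_apply, Gm_apply]

theorem rsm_lin {ι : Type*} [DecidableEq ι] [Fintype ι] (p : J → Prop) [DecidablePred p]
    (arm : J → ι) (Ω : Matrix J J L) (a : ι → L) :
    ∑ s, a s • Gm (fun l : {l // p l} => arm l) (rsm p Ω) s =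
      rsm p (∑ s, a s • Gm arm Ω s) := by
  ext l k
  rw [Matrix.sum_apply, rsm_apply, Matrix.sum_apply]
  refine Finset.sum_congr rfl fun s _ => ?_
  rw [Matrix.smul_apply, Matrix.smul_apply, rsm_Gm]
  rfl

end sub

section main

variable {L J : Type*} [Field L] [Fintype J] [DecidableEq J]

/-- the data on the columns of positive height -/
def restrData [CharZero L] (arm : J → Fin 3) (c : J → ℕ) (Ω : Matrix J J L) (hΩ : Ωᵀ = -Ω) :
    NData L {l // 1 ≤ c l} where
  n := Finset.univ.sup c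
  z := ![0, 1, -1]
  hz := by
    intro i j h
    have h11 : (1 : L) ≠ -1 := fun e => by
      have h2 : (2 : L) = 0 := by linear_combination e
      exact two_ne_zero h2
    fin_cases i <;> fin_cases j <;> simp at h ⊢
    · exact h11 h
    · exact h11 h.symm
  arm l := arm l
  c l := c l
  hc1 l := l.2
  hcn l := Finset.le_sup (Finset.mem_univ _)
  Ω := rsm _ Ω
  skew l m := by
    rw [rsm_apply, rsm_apply]
    have := congrFun (congrFun hΩ m.1) l.1
    rw [Matrix.transpose_apply, Matrix.neg_apply] at this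
    exact this

theorem restrData_vers [CharZero L] {arm : J → Fin 3} {c : J → ℕ} {Ω : Matrix J J L}
    (hΩ : Ωᵀ = -Ω) (hV : VDer Ω) : (restrData arm c Ω hΩ).VersΩ := by
  intro η hη
  let η' : Matrix J J L := Matrix.of fun l m =>
    if h : 1 ≤ c l ∧ 1 ≤ c m then η ⟨l, h.1⟩ ⟨m, h.2⟩ else 0
  have hη0 : ∀ l m, η' l m = if h : 1 ≤ c l ∧ 1 ≤ c m then η ⟨l, h.1⟩ ⟨m, h.2⟩ else 0 :=
    fun l m => rfl
  have hη' : η'ᵀ = -η' := by
    ext l m
    rw [Matrix.transpose_apply, Matrix.neg_apply, hη0, hη0]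
    by_cases h : 1 ≤ c l ∧ 1 ≤ c m
    · rw [dif_pos h, dif_pos h.symm, hη]
    · rw [dif_neg h, dif_neg (fun h' => h h'.symm), neg_zero]
  obtain ⟨d, hd, hdΩ⟩ := hV η' hη'
  have hd1 : d 1 = 0 := by
    have := hd 1 1
    rw [mul_one, mul_one, one_mul] at this
    exact left_eq_add.1 this
  let δ : Derivation ℤ L L := Derivation.mk' d.toIntLinearMap (fun a b => by
    show d (a * b) = a • d b + b • d a
    rw [hd, smul_eq_mul, smul_eq_mul]
    ring)
  have hδ : ∀ x, δ x = d x := fun x => rfl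
  refine ⟨⟨δ, ?_⟩, ?_⟩
  · intro s
    fin_cases s
    · exact map_zero d
    · exact hd1
    · show d (-1) = 0
      rw [map_neg, hd1, neg_zero]
  · intro l m
    show d (Ω l m) = η l m
    rw [hdΩ, hη0, dif_pos ⟨l.2, m.2⟩]

theorem restrict_main [CharZero L] {arm : J → Fin 3} {c : J → ℕ} {Ω : Matrix J J L}
    (hΩ : Ωᵀ = -Ω) {g : Matrix J J L} (hg : gᵀ = g)
    (h0 : ∀ l k, arm l = arm k → g l k = 0)
    (h1 : ∀ l k, arm l = arm k → c l ≤ c k → (g * Ω) l k = 0)
    (hz : ∀ l k, c l = 0 → g l k = 0)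
    (hn : ∀ a : Fin 3 → L, IsNilpotent ((∑ s, a s • Gm arm Ω s) * g))
    (H : ∀ g' : Matrix {l // 1 ≤ c l} {l // 1 ≤ c l} L, g'ᵀ = g' →
      (∀ l m, (restrData arm c Ω hΩ).arm l = (restrData arm c Ω hΩ).arm m → g' l m = 0) →
      (∀ l m, (restrData arm c Ω hΩ).arm l = (restrData arm c Ω hΩ).arm m →
        (restrData arm c Ω hΩ).c l ≤ (restrData arm c Ω hΩ).c m →
        ∑ j, g' l j * (restrData arm c Ω hΩ).Ω m j = 0) →
      (∀ a : Fin 3 → L, IsNilpotent ((∑ s, a s • Gm (restrData arm c Ω hΩ).arm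
        (restrData arm c Ω hΩ).Ω s) * g')) → g' = 0) : g = 0 := by
  have hz' : ∀ l k, ¬ 1 ≤ c l → g l k = 0 := fun l k h => hz l k (by omega)
  have hg' : ∀ l k, g l k = g k l := fun l k => congrFun (congrFun hg k) l
  have hz'' : ∀ l k, ¬ 1 ≤ c k → g l k = 0 := fun l k h => by rw [hg', hz' k l h]
  have key := H (rsm _ g) ?_ ?_ ?_ ?_
  · ext l k
    by_cases hl : 1 ≤ c l
    · by_cases hk : 1 ≤ c k
      · exact congrFun (congrFun key ⟨l, hl⟩) ⟨k, hk⟩
      · exact hz'' l k hk
    · exact hz' l k hl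
  · ext l k
    exact hg' _ _
  · intro l m h
    exact h0 l m h
  · intro l m h hc
    have h2 := h1 l m h hc
    rw [Matrix.mul_apply, ← Fintype.sum_subtype_add_sum_subtype (fun j => 1 ≤ c j)] at h2
    have h3 : ∑ i : {x // ¬ 1 ≤ c x}, g l i * Ω i m = 0 :=
      Finset.sum_eq_zero fun i _ => by rw [hz'' l i i.2, zero_mul]
    rw [h3, add_zero] at h2
    have h4 : ∀ j : {x // 1 ≤ c x}, g l j * Ω m j = - (g l j * Ω j m) := by
      intro j
      have := congrFun (congrFun hΩ j.1) m.1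
      rw [Matrix.transpose_apply, Matrix.neg_apply] at this
      rw [this]
      ring
    show ∑ j : {x // 1 ≤ c x}, g l j * Ω m j = 0
    simp only [h4]
    rw [Finset.sum_neg_distrib, h2, neg_zero]
  · intro a
    have h2 : ∑ s, a s • Gm (restrData arm c Ω hΩ).arm (restrData arm c Ω hΩ).Ω s =
        rsm _ (∑ s, a s • Gm arm Ω s) := rsm_lin _ arm Ω a
    obtain ⟨n, hn⟩ := hn a
    refine ⟨n, ?_⟩
    rw [h2, rsm_mul _ hz', (rsm_pow (fun l k hk => ?_) n).1, hn]
    · rfl
    · rw [Matrix.mul_apply]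
      exact Finset.sum_eq_zero fun j _ => by rw [hz'' j k hk, mul_zero]

/-- **N1, constants form** (general nilpotent). -/
theorem N1_general [CharZero L] [IsAlgClosed L] {arm : J → Fin 3} {c : J → ℕ} {Ω : Matrix J J L}
    (hΩ : Ωᵀ = -Ω) (hV : VDer Ω)
    (hJ : ∀ s, 2 * (Finset.univ.filter fun l => 1 ≤ c l ∧ arm l = s).card ≤
      (Finset.univ.filter fun l => 1 ≤ c l).card) {g : Matrix J J L} (hg : gᵀ = g)
    (h0 : ∀ l k, arm l = arm k → g l k = 0)
    (h1 : ∀ l k, arm l = arm k → c l ≤ c k → (g * Ω) l k = 0)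
    (hz : ∀ l k, c l = 0 → g l k = 0)
    (hn : ∀ a : Fin 3 → L, IsNilpotent ((∑ s, a s • Gm arm Ω s) * g)) : g = 0 := by
  refine restrict_main hΩ hg h0 h1 hz hn ?_
  intro g' hg' h0' h1' hn'
  have h2 : (2 : L) ≠ 0 := two_ne_zero
  have hv := restrData_vers (arm := arm) (c := c) hΩ hV
  have hJ' : ∀ s, 2 * Fintype.card {l // (restrData arm c Ω hΩ).arm l = s} ≤
      Fintype.card {l // 1 ≤ c l} := by
    intro s
    have e1 : Fintype.card {l // 1 ≤ c l} = (Finset.univ.filter fun l => 1 ≤ c l).card :=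
      Fintype.card_subtype _
    have e2 : Fintype.card {l // (restrData arm c Ω hΩ).arm l = s} =
        (Finset.univ.filter fun l => 1 ≤ c l ∧ arm l = s).card := by
      rw [← Fintype.card_subtype]
      exact Fintype.card_congr (Equiv.subtypeSubtypeEquivSubtypeInter (fun l => 1 ≤ c l)
        (fun l => arm l = s))
    rw [e1, e2]
    exact hJ s
  have hdet := (restrData arm c Ω hΩ).det_unit h2 hv hJ'
  have hinf : Infinite L := IsAlgClosed.instInfinite
  let F := FractionRing (Polynomial L)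
  refine (restrData arm c Ω hΩ).N1_const (F := F) hdet h2 hv
    (fun l m => congrFun (congrFun hg' m) l) h0' h1' ?_
  have h3 := nilp_ext (F := F) (fun s => Gm (restrData arm c Ω hΩ).arm (restrData arm c Ω hΩ).Ω s)
    g' hn' (fun s => ((restrData arm c Ω hΩ).lin F s)⁻¹)
  rw [← Wi_eq] at h3
  have h4 : Wi (restrData arm c Ω hΩ) F = (restrData arm c Ω hΩ).GG F := by
    ext l m
    unfold Wi NData.GG
    ring
  rwa [h4] at h3

end main

end Vale.Agent.P182.H578
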