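import Vale.Agent.P182.H578.Surj

/-!
# The rule off the diagonal

`D = ∑ d_i P_i` acts on `t` inside the kernel; then `S_s Z` lowers the flag of the arm `s` for
every skew `Z` commuting with `S_s` and without diagonal blocks.
-/

namespace Vale.Agent.P182.H578

open Module Matrix Vale.Agent.P182.H533 Vale.Agent.P182.B1 Vale.Agent.P182.H922

section rel

variable {L V J : Type*} [Field L] [AddCommGroup V] [Module L V] [FiniteDimensional L V]
  [Fintype J] [DecidableEq J] {𝒟 : Cfg L V J}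

variable (𝒟) in
/-- the first order relations -/
def Rel (t r : J → V) : Prop :=
  (∀ l k, 𝒟.q (t l) (r k) = 𝒟.q (r l) (t k)) ∧
    ∀ s, IsSA 𝒟.q (opr 𝒟.q (Tt L t) (Gm 𝒟.arm 𝒟.Ω s) (Tt L r))

theorem Rel_K (hG : 𝒟.Good) (hV : 𝒟.Versal) {t t' : J → V} (ht : t ∈ 𝒟.K) (ht' : t' ∈ 𝒟.K) :
    Rel 𝒟 t t' := K_rel hG hV ht ht'

omit [FiniteDimensional L V] in
/-- the adjoint of the mixed operator -/
theorem opr_adj' (hG : 𝒟.Good) (r r' : J → V) (s : Fin 3) (v w : V) :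
    𝒟.q (opr 𝒟.q (Tt L r) (Gm 𝒟.arm 𝒟.Ω s) (Tt L r') v) w =
      𝒟.q v (opr 𝒟.q (Tt L r') (Gm 𝒟.arm 𝒟.Ω s) (Tt L r) w) := by
  rw [opr_Tt 𝒟 hG.skew, opr_Tt 𝒟 hG.skew, map_sum, LinearMap.sum_apply, map_sum]
  refine Finset.sum_congr rfl fun l _ => ?_
  simp only [map_add, map_smul, LinearMap.add_apply, LinearMap.smul_apply, smul_eq_mul]
  rw [hG.form.symm (𝒟.om r' l) v, hG.form.symm (r' l) v]
  ring

omit [FiniteDimensional L V] in
/-- symmetry of the mixed operators -/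
theorem Rel.swap (hG : 𝒟.Good) {t r : J → V} (h : Rel 𝒟 t r) (s : Fin 3) :
    opr 𝒟.q (Tt L t) (Gm 𝒟.arm 𝒟.Ω s) (Tt L r) =
      opr 𝒟.q (Tt L r) (Gm 𝒟.arm 𝒟.Ω s) (Tt L t) := by
  apply LinearMap.ext
  intro v
  apply hG.form.ext
  intro w
  rw [h.2, opr_adj' hG r t]

variable (𝒟) in
/-- operators lowering the flag of the arm `s` -/
structure Low (s : Fin 3) (A : End L V) : Prop where
  flag : ∀ i, ∀ f ∈ 𝒟.F s (i + 1), A f ∈ 𝒟.F s i
  orth : ∀ i, ∀ f ∈ perp 𝒟.q (𝒟.F s i), A f ∈ perp 𝒟.q (𝒟.F s (i + 1))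
  top : ∀ i, (∀ l, 𝒟.arm l = s → 𝒟.c l ≤ i) → ∀ f ∈ perp 𝒟.q (𝒟.F s i), A f ∈ 𝒟.F s i

omit [FiniteDimensional L V] [Fintype J] [DecidableEq J] in
theorem Low.sub {s : Fin 3} {A B : End L V} (hA : Low 𝒟 s A) (hB : Low 𝒟 s B) :
    Low 𝒟 s (A - B) where
  flag i f hf := by rw [LinearMap.sub_apply]; exact sub_mem (hA.flag i f hf) (hB.flag i f hf)
  orth i f hf := by rw [LinearMap.sub_apply]; exact sub_mem (hA.orth i f hf) (hB.orth i f hf)
  top i hi f hf := by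
    rw [LinearMap.sub_apply]; exact sub_mem (hA.top i hi f hf) (hB.top i hi f hf)

omit [FiniteDimensional L V] [Fintype J] [DecidableEq J] in
theorem Low.add {s : Fin 3} {A B : End L V} (hA : Low 𝒟 s A) (hB : Low 𝒟 s B) :
    Low 𝒟 s (A + B) where
  flag i f hf := by rw [LinearMap.add_apply]; exact add_mem (hA.flag i f hf) (hB.flag i f hf)
  orth i f hf := by rw [LinearMap.add_apply]; exact add_mem (hA.orth i f hf) (hB.orth i f hf)
  top i hi f hf := by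
    rw [LinearMap.add_apply]; exact add_mem (hA.top i hi f hf) (hB.top i hi f hf)

omit [FiniteDimensional L V] [Fintype J] [DecidableEq J] in
theorem Low.smul {s : Fin 3} {A : End L V} (hA : Low 𝒟 s A) (c : L) : Low 𝒟 s (c • A) where
  flag i f hf := Submodule.smul_mem _ c (hA.flag i f hf)
  orth i f hf := Submodule.smul_mem _ c (hA.orth i f hf)
  top i hi f hf := Submodule.smul_mem _ c (hA.top i hi f hf)

variable (𝒟) in
/-- families compatible with the columns of the arm `s` -/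
def Nn (s : Fin 3) (a a' : J → V) : Prop :=
  ∀ l, 𝒟.arm l = s → a l ∈ 𝒟.C l ∧ a' l ∈ perp 𝒟.q (𝒟.C l)

/-- the operator of two families -/
def OO (𝒟 : Cfg L V J) (s : Fin 3) (a a' b b' : J → V) : End L V :=
  ∑ l with 𝒟.arm l = s, ((𝒟.q (b' l)).smulRight (a l) + (𝒟.q (b l)).smulRight (a' l))

omit [FiniteDimensional L V] in
theorem OO_apply (s : Fin 3) (a a' b b' : J → V) (v : V) : OO 𝒟 s a a' b b' v =
    ∑ l with 𝒟.arm l = s, (𝒟.q (b' l) v • a l + 𝒟.q (b l) v • a' l) := by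
  rw [OO, LinearMap.sum_apply]
  rfl

omit [FiniteDimensional L V] in
theorem OO_adj (hG : 𝒟.Good) (s : Fin 3) (a a' b b' : J → V) (v w : V) :
    𝒟.q (OO 𝒟 s a a' b b' v) w = 𝒟.q v (OO 𝒟 s b b' a a' w) := by
  rw [OO_apply, OO_apply, map_sum, LinearMap.sum_apply, map_sum]
  refine Finset.sum_congr rfl fun l _ => ?_
  simp only [map_add, map_smul, LinearMap.add_apply, LinearMap.smul_apply, smul_eq_mul]
  rw [hG.form.symm (b' l) v, hG.form.symm (b l) v]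
  ring

omit [FiniteDimensional L V] in
theorem OO_flag (hG : 𝒟.Good) {s : Fin 3} {a a' b b' : J → V} (ha : Nn 𝒟 s a a')
    (hb : Nn 𝒟 s b b') (i : ℕ) (f : V) (hf : f ∈ 𝒟.F s (i + 1)) :
    OO 𝒟 s a a' b b' f ∈ 𝒟.F s i := by
  rw [OO_apply]
  refine Submodule.sum_mem _ fun l hl => ?_
  have hl' : 𝒟.arm l = s := (Finset.mem_filter.mp hl).2
  obtain ⟨h1, h3⟩ := ha l hl'
  obtain ⟨h1', h3'⟩ := hb l hl'
  have hC : 𝒟.C l = 𝒟.F s (𝒟.c l) := by rw [Cfg.C, hl']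
  rw [hC] at h1 h3 h1' h3'
  have h5 : 𝒟.q (b l) f = 0 := by
    have h6 := hG.mono s (le_max_left (𝒟.c l) (i + 1)) h1'
    have h7 := hG.mono s (le_max_right (𝒟.c l) (i + 1)) hf
    exact hG.iso s _ h6 _ h7
  rw [h5, zero_smul, add_zero]
  by_cases hc : i + 1 ≤ 𝒟.c l
  · rw [h3' f (hG.mono s hc hf), zero_smul]
    exact zero_mem _
  · exact Submodule.smul_mem _ _ (hG.mono s (by omega) h1)

omit [FiniteDimensional L V] in
/-- **The operator of two compatible families lowers the flag.** -/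
theorem OO_low (hG : 𝒟.Good) {s : Fin 3} {a a' b b' : J → V} (ha : Nn 𝒟 s a a')
    (hb : Nn 𝒟 s b b') : Low 𝒟 s (OO 𝒟 s a a' b b') where
  flag := OO_flag hG ha hb
  orth i f hf g hg := by
    rw [OO_adj hG]
    exact hf _ (OO_flag hG hb ha i g hg)
  top i hi f hf := by
    rw [OO_apply]
    refine Submodule.sum_mem _ fun l hl => ?_
    have hl' : 𝒟.arm l = s := (Finset.mem_filter.mp hl).2
    obtain ⟨h1, -⟩ := ha l hl'
    obtain ⟨h1', -⟩ := hb l hl'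
    have hC : 𝒟.C l = 𝒟.F s (𝒟.c l) := by rw [Cfg.C, hl']
    rw [hC] at h1 h1'
    have h5 : 𝒟.q (b l) f = 0 := by
      rw [hG.form.symm]
      exact hf _ (hG.mono s (hi l hl') h1')
    rw [h5, zero_smul, add_zero]
    exact Submodule.smul_mem _ _ (hG.mono s (hi l hl') h1)

theorem opr_OO (hG : 𝒟.Good) (r r' : J → V) (s : Fin 3) :
    opr 𝒟.q (Tt L r) (Gm 𝒟.arm 𝒟.Ω s) (Tt L r') = OO 𝒟 s r (𝒟.om r) r' (𝒟.om r') :=
  opr_eq_sum hG.skew r r' s

/-- **The general rule.** `t' ∈ K`, `β` self-adjoint, `r` with `(β t - r, β u - u(r))`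
compatible with the columns of the arm `s`. -/
theorem rule_gen (hG : 𝒟.Good) {t t' r : J → V} (hR : Rel 𝒟 t t') (ht' : t' ∈ 𝒟.K) {s : Fin 3}
    {β : End L V} (hβ : IsSA 𝒟.q β)
    (hr : Nn 𝒟 s (fun l => β (t l) - r l) (fun l => β (𝒟.om t l) - 𝒟.om r l)) :
    Low 𝒟 s ((opr 𝒟.q (Tt L t) (Gm 𝒟.arm 𝒟.Ω s) (Tt L t') * β -
      β * opr 𝒟.q (Tt L t) (Gm 𝒟.arm 𝒟.Ω s) (Tt L t')) -
      (opr 𝒟.q (Tt L t') (Gm 𝒟.arm 𝒟.Ω s) (Tt L r) -
        opr 𝒟.q (Tt L r) (Gm 𝒟.arm 𝒟.Ω s) (Tt L t'))) := by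
  have hn : Nn 𝒟 s t' (𝒟.om t') := fun l _ => ⟨ht'.1 l, ht'.2 l⟩
  have h1 := OO_low hG hn hr
  have h2 := OO_low hG hr hn
  have e1 : OO 𝒟 s t' (𝒟.om t') (fun l => β (t l) - r l) (fun l => β (𝒟.om t l) - 𝒟.om r l) =
      opr 𝒟.q (Tt L t) (Gm 𝒟.arm 𝒟.Ω s) (Tt L t') * β -
        opr 𝒟.q (Tt L t') (Gm 𝒟.arm 𝒟.Ω s) (Tt L r) := by
    rw [hR.swap hG, opr_OO hG, opr_OO hG]
    apply LinearMap.ext
    intro v
    rw [LinearMap.sub_apply, Module.End.mul_apply, OO_apply, OO_apply, OO_apply,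
      ← Finset.sum_sub_distrib]
    refine Finset.sum_congr rfl fun l _ => ?_
    simp only [map_sub, LinearMap.sub_apply, sub_smul]
    rw [hβ, hβ]
    abel
  have e2 : OO 𝒟 s (fun l => β (t l) - r l) (fun l => β (𝒟.om t l) - 𝒟.om r l) t' (𝒟.om t') =
      β * opr 𝒟.q (Tt L t) (Gm 𝒟.arm 𝒟.Ω s) (Tt L t') -
        opr 𝒟.q (Tt L r) (Gm 𝒟.arm 𝒟.Ω s) (Tt L t') := by
    rw [opr_OO hG, opr_OO hG]
    apply LinearMap.ext
    intro v
    rw [LinearMap.sub_apply, Module.End.mul_apply, OO_apply, OO_apply, OO_apply, map_sum,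
      ← Finset.sum_sub_distrib]
    refine Finset.sum_congr rfl fun l _ => ?_
    simp only [map_add, map_smul, smul_sub]
    abel
  have h3 := h1.sub h2
  rw [e1, e2] at h3
  convert h3 using 1
  abel

/-- **The general rule for the columns.** -/
theorem rule_gen_tu (hG : 𝒟.Good) {t t' r : J → V} (ht' : t' ∈ 𝒟.K) {s : Fin 3} {β : End L V}
    (hr : Nn 𝒟 s (fun l => β (t l) - r l) (fun l => β (𝒟.om t l) - 𝒟.om r l))
    {l k : J} (hl : 𝒟.arm l = s) (hk : 𝒟.arm k = s) (hlk : 𝒟.c l ≤ 𝒟.c k) :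
    𝒟.q (t' l) (β (𝒟.om t k)) = 𝒟.q (t' l) (𝒟.om r k) ∧
      𝒟.q (β (t l)) (𝒟.om t' k) = 𝒟.q (r l) (𝒟.om t' k) := by
  have hC : 𝒟.C l ≤ 𝒟.C k := by
    rw [Cfg.C, Cfg.C, hl, hk]
    exact hG.mono s hlk
  constructor
  · have := (hr k hk).2 _ (hC (ht'.1 l))
    rw [map_sub, LinearMap.sub_apply, sub_eq_zero] at this
    rw [hG.form.symm, this, hG.form.symm]
  · have := ht'.2 k _ (hC (hr l hl).1)
    rw [map_sub, sub_eq_zero] at this
    rw [hG.form.symm, this, hG.form.symm]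

/-- **The general rule for the columns.** -/
theorem rule_gen_tt (hG : 𝒟.Good) {t t' r : J → V} (ht' : t' ∈ 𝒟.K) {s : Fin 3} {β : End L V}
    (hr : Nn 𝒟 s (fun l => β (t l) - r l) (fun l => β (𝒟.om t l) - 𝒟.om r l))
    {l k : J} (hl : 𝒟.arm l = s) (hk : 𝒟.arm k = s) :
    𝒟.q (t' l) (β (t k)) = 𝒟.q (t' l) (r k) := by
  have h1 := ht'.1 l
  have h3 := (hr k hk).1
  rw [Cfg.C, hl] at h1
  rw [Cfg.C, hk] at h3
  have := hG.iso s _ (hG.mono s (le_max_left (𝒟.c l) (𝒟.c k)) h1) _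
      (hG.mono s (le_max_right (𝒟.c l) (𝒟.c k)) h3)
  rw [map_sub, sub_eq_zero] at this
  exact this

variable (𝒟) in
/-- the hypotheses of the rule: `D t ∈ K`, `D` self-adjoint and commuting with the residues,
and `D t` is related to every family related to `t` -/
structure RuleD (t : J → V) (D : End L V) : Prop where
  sa : IsSA 𝒟.q D
  comm : ∀ s, D * Res 𝒟 t s = Res 𝒟 t s * D
  mem : (fun l => D (t l)) ∈ 𝒟.K
  rel : ∀ r, Rel 𝒟 t r → Rel 𝒟 (fun l => D (t l)) r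

omit [FiniteDimensional L V] [DecidableEq J] in
theorem om_map (D : End L V) (t : J → V) (l : J) : 𝒟.om (fun l => D (t l)) l = D (𝒟.om t l) := by
  simp only [Cfg.om, map_sum, map_smul]

/-- **The rule.** -/
theorem rule (h2 : (2 : L) ≠ 0) (hG : 𝒟.Good) (hV : 𝒟.Versal) {t : J → V} (ht : t ∈ 𝒟.K)
    {D : End L V} (hD : RuleD 𝒟 t D) (s : Fin 3) {β : End L V} (hβ : IsSA 𝒟.q β)
    (hβS : β * Res 𝒟 t s = Res 𝒟 t s * β)
    (htr : ∀ t' ∈ 𝒟.K, LinearMap.trace L V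
      (β * opr 𝒟.q (Tt L t) (Gm 𝒟.arm 𝒟.Ω s) (Tt L t')) = 0) :
    Low 𝒟 s (Res 𝒟 t s * (D * β - β * D)) ∧
      (∀ l k, 𝒟.arm l = s → 𝒟.arm k = s → 𝒟.c l ≤ 𝒟.c k →
        𝒟.q (t l) ((D * β - β * D) (𝒟.om t k)) = 0) ∧
      ∀ l k, 𝒟.arm l = s → 𝒟.arm k = s → 𝒟.q (t l) ((D * β - β * D) (t k)) = 0 := by
  obtain ⟨r, hF1, hF2, hr⟩ := surj_gen h2 hG hV ht (β := fun s' => if s' = s then β else 0)
    (fun s' => by
      by_cases h : s' = s
      · simpa [h] using hβ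
      · intro u v; simp [h])
    (fun s' => by
      by_cases h : s' = s
      · subst h; simpa using hβS
      · simp [h])
    (fun t' ht' => by
      refine Finset.sum_eq_zero fun s' _ => ?_
      by_cases h : s' = s
      · subst h; simpa using htr t' ht'
      · simp [h])
  have hRr : Rel 𝒟 t r := ⟨hF1, hF2⟩
  have hn : Nn 𝒟 s (fun l => β (t l) - r l) (fun l => β (𝒟.om t l) - 𝒟.om r l) := by
    intro l hl
    have := hr l
    simpa [hl] using this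
  have hRD := hD.rel r hRr
  have hRt : Rel 𝒟 t (fun l => D (t l)) := Rel_K hG hV ht hD.mem
  have hopr : opr 𝒟.q (Tt L t) (Gm 𝒟.arm 𝒟.Ω s) (Tt L fun l => D (t l)) = Res 𝒟 t s * D := by
    apply LinearMap.ext
    intro v
    rw [opr_Tt 𝒟 hG.skew, Module.End.mul_apply, Res_apply 𝒟 hG.skew]
    refine Finset.sum_congr rfl fun l _ => ?_
    rw [om_map, hD.sa, hD.sa]
  refine ⟨?_, ?_, ?_⟩
  · have h1 := rule_gen hG hRt hD.mem hβ hn
    rw [hRD.swap hG, sub_self, sub_zero, hopr] at h1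
    have e : Res 𝒟 t s * D * β - β * (Res 𝒟 t s * D) = Res 𝒟 t s * (D * β - β * D) := by
      rw [← mul_assoc, hβS, mul_sub, mul_assoc, mul_assoc]
    rwa [e] at h1
  · intro l k hl hk hlk
    obtain ⟨h1, h3⟩ := rule_gen_tu hG hD.mem hn hl hk hlk
    have h4 : 𝒟.q (D (t l)) (𝒟.om r k) = 𝒟.q (r l) (D (𝒟.om t k)) := by
      rw [← om_map, Cfg.om, Cfg.om, map_sum, map_sum]
      refine Finset.sum_congr rfl fun j _ => ?_
      rw [map_smul, map_smul, hRD.1]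
    rw [LinearMap.sub_apply, Module.End.mul_apply, Module.End.mul_apply, map_sub, ← hD.sa,
      ← hβ (t l), h1, h4, ← om_map, h3, sub_self]
  · intro l k hl hk
    have h1 := rule_gen_tt hG hD.mem hn hl hk
    have h3 := rule_gen_tt hG hD.mem hn hk hl
    rw [LinearMap.sub_apply, Module.End.mul_apply, Module.End.mul_apply, map_sub, ← hD.sa,
      ← hβ (t l), h1, hG.form.symm (β (t l)), h3, hRD.1 l k, hG.form.symm, sub_self]

/-- off-diagonal skew operators are commutators -/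
theorem exists_beta {q : V →ₗ[L] V →ₗ[L] L} {ι : Type*} [Fintype ι] {P : ι → End L V}
    (hP : ∀ i, IsSA q (P i)) (hPi : ∀ i, P i * P i = P i) (hPo : ∀ i j, i ≠ j → P i * P j = 0)
    {d : ι → L} (hd : Function.Injective d) {D : End L V} (hD : D = ∑ i, d i • P i)
    {Z : End L V} (hZ : IsSk q Z) (hZ0 : ∀ i, P i * Z * P i = 0)
    (hZ1 : Z = (∑ i, P i) * Z * ∑ i, P i) :
    ∃ β : End L V, IsSA q β ∧ D * β - β * D = Z ∧ β = (∑ i, P i) * β * ∑ i, P i ∧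
      ∀ S : End L V, (∀ i, P i * S = S * P i) → Z * S = S * Z → β * S = S * β := by
  classical
  refine ⟨∑ i, ∑ j, (d i - d j)⁻¹ • (P i * Z * P j), ?_, ?_, ?_, ?_⟩
  · intro u v
    simp only [LinearMap.sum_apply, map_sum, LinearMap.smul_apply, map_smul, smul_eq_mul,
      Module.End.mul_apply]
    rw [Finset.sum_comm]
    refine Finset.sum_congr rfl fun j _ => Finset.sum_congr rfl fun i _ => ?_
    rw [hP i, hZ, hP j]
    have : (d i - d j)⁻¹ = -(d j - d i)⁻¹ := by rw [← inv_neg, neg_sub]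
    rw [this]
    ring
  · have hPsum : ∀ i, (∑ k, d k • P k) * P i = d i • P i := by
      intro i
      rw [Finset.sum_mul, Finset.sum_eq_single i]
      · rw [smul_mul_assoc, hPi]
      · intro k _ hk
        rw [smul_mul_assoc, hPo k i hk, smul_zero]
      · intro h; exact absurd (Finset.mem_univ _) h
    have hPsum' : ∀ i, P i * (∑ k, d k • P k) = d i • P i := by
      intro i
      rw [Finset.mul_sum, Finset.sum_eq_single i]
      · rw [mul_smul_comm, hPi]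
      · intro k _ hk
        rw [mul_smul_comm, hPo i k hk.symm, smul_zero]
      · intro h; exact absurd (Finset.mem_univ _) h
    rw [hD, Finset.mul_sum, Finset.sum_mul, ← Finset.sum_sub_distrib]
    conv_rhs => rw [hZ1, Finset.sum_mul, Finset.sum_mul]
    refine Finset.sum_congr rfl fun i _ => ?_
    rw [Finset.mul_sum, Finset.sum_mul, ← Finset.sum_sub_distrib, Finset.mul_sum]
    refine Finset.sum_congr rfl fun j _ => ?_
    have e1 : (∑ k, d k • P k) * ((d i - d j)⁻¹ • (P i * Z * P j)) =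
        ((d i - d j)⁻¹ * d i) • (P i * Z * P j) := by
      rw [mul_smul_comm, ← mul_assoc, ← mul_assoc, hPsum, smul_mul_assoc, smul_mul_assoc,
        smul_smul]
    have e2 : ((d i - d j)⁻¹ • (P i * Z * P j)) * (∑ k, d k • P k) =
        ((d i - d j)⁻¹ * d j) • (P i * Z * P j) := by
      rw [smul_mul_assoc, mul_assoc (P i * Z), hPsum', mul_smul_comm, smul_smul]
    rw [e1, e2, ← sub_smul, ← mul_sub]
    by_cases hij : i = j
    · subst hij
      rw [hZ0, smul_zero]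
    · rw [inv_mul_cancel₀ (sub_ne_zero.2 fun h => hij (hd h)), one_smul]
  · have h1 : ∀ i, (∑ k, P k) * P i = P i := by
      intro i
      rw [Finset.sum_mul, Finset.sum_eq_single i (fun k _ hk => hPo k i hk)
        (fun h => absurd (Finset.mem_univ _) h), hPi]
    have h3 : ∀ i, P i * (∑ k, P k) = P i := by
      intro i
      rw [Finset.mul_sum, Finset.sum_eq_single i (fun k _ hk => hPo i k hk.symm)
        (fun h => absurd (Finset.mem_univ _) h), hPi]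
    generalize (∑ k, P k) = E at h1 h3
    rw [Finset.mul_sum, Finset.sum_mul]
    refine Finset.sum_congr rfl fun i _ => ?_
    rw [Finset.mul_sum, Finset.sum_mul]
    refine Finset.sum_congr rfl fun j _ => ?_
    rw [mul_smul_comm, smul_mul_assoc, ← mul_assoc, ← mul_assoc, h1, mul_assoc (P i * Z), h3]
  · intro S hS hZS
    rw [Finset.sum_mul, Finset.mul_sum]
    refine Finset.sum_congr rfl fun i _ => ?_
    rw [Finset.sum_mul, Finset.mul_sum]
    refine Finset.sum_congr rfl fun j _ => ?_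
    rw [smul_mul_assoc, mul_smul_comm, mul_assoc (P i * Z), hS j, ← mul_assoc (P i * Z),
      mul_assoc (P i), hZS, ← mul_assoc (P i), hS i, mul_assoc, mul_assoc, mul_assoc]

/-- **The rule off the diagonal.** -/
theorem rule_off (h2 : (2 : L) ≠ 0) (hG : 𝒟.Good) (hV : 𝒟.Versal) {t : J → V} (ht : t ∈ 𝒟.K)
    {ι : Type*} [Fintype ι] {P : ι → End L V} (hP : ∀ i, IsSA 𝒟.q (P i))
    (hPi : ∀ i, P i * P i = P i) (hPo : ∀ i j, i ≠ j → P i * P j = 0)
    (hPS : ∀ i s, P i * Res 𝒟 t s = Res 𝒟 t s * P i)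
    {d : ι → L} (hd : Function.Injective d) (hD : RuleD 𝒟 t (∑ i, d i • P i))
    (hE : ∀ t' ∈ 𝒟.K, ∀ s, ∃ D' : End L V, D' * Res 𝒟 t s = Res 𝒟 t s * D' ∧
      (∑ i, P i) * opr 𝒟.q (Tt L t) (Gm 𝒟.arm 𝒟.Ω s) (Tt L t') * (∑ i, P i) = Res 𝒟 t s * D')
    (s : Fin 3) {Z : End L V} (hZ : IsSk 𝒟.q Z) (hZ0 : ∀ i, P i * Z * P i = 0)
    (hZ1 : Z = (∑ i, P i) * Z * ∑ i, P i) (hZS : Z * Res 𝒟 t s = Res 𝒟 t s * Z) :
    Low 𝒟 s (Res 𝒟 t s * Z) ∧
      (∀ l k, 𝒟.arm l = s → 𝒟.arm k = s → 𝒟.c l ≤ 𝒟.c k →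
        𝒟.q (t l) (Z (𝒟.om t k)) = 0) ∧
      ∀ l k, 𝒟.arm l = s → 𝒟.arm k = s → 𝒟.q (t l) (Z (t k)) = 0 := by
  obtain ⟨β, hβ, hβZ, hβE, hβS⟩ := exists_beta hP hPi hPo hd rfl hZ hZ0 hZ1
  have h1 := rule h2 hG hV ht hD s hβ (hβS _ (fun i => hPS i s) hZS) (by
    intro t' ht'
    obtain ⟨D', hD', hD''⟩ := hE t' ht' s
    set E := ∑ i, P i
    have h3 : LinearMap.trace L V (β * opr 𝒟.q (Tt L t) (Gm 𝒟.arm 𝒟.Ω s) (Tt L t')) =
        LinearMap.trace L V (β * (E * opr 𝒟.q (Tt L t) (Gm 𝒟.arm 𝒟.Ω s) (Tt L t') * E)) := by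
      conv_lhs => rw [hβE]
      rw [mul_assoc, mul_assoc, LinearMap.trace_mul_comm, mul_assoc, mul_assoc]
    have hc := hβS _ (fun i => hPS i s) hZS
    rw [h3, hD'', ← mul_assoc, hc, mul_assoc]
    have h4 : Commute (Res 𝒟 t s) (β * D') := by
      show Res 𝒟 t s * (β * D') = β * D' * Res 𝒟 t s
      rw [← mul_assoc, ← hc, mul_assoc, ← hD', mul_assoc]
    obtain ⟨m, hm⟩ := nilp_Res hG ht s
    have h5 : IsNilpotent (Res 𝒟 t s * (β * D')) := ⟨m, by rw [h4.mul_pow, hm, zero_mul]⟩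
    exact (LinearMap.isNilpotent_trace_of_isNilpotent h5).eq_zero)
  rw [hβZ] at h1
  exact h1

/-- **The rule off the diagonal**, `t` onto. -/
theorem rule_off_onto (h2 : (2 : L) ≠ 0) (hG : 𝒟.Good) (hV : 𝒟.Versal) {t : J → V}
    (ht : t ∈ 𝒟.K) (hs : Function.Surjective (Tt L t))
    {ι : Type*} [Fintype ι] {P : ι → End L V} (hP : ∀ i, IsSA 𝒟.q (P i))
    (hPi : ∀ i, P i * P i = P i) (hPo : ∀ i j, i ≠ j → P i * P j = 0) (hP1 : ∑ i, P i = 1)
    (hPS : ∀ i s, P i * Res 𝒟 t s = Res 𝒟 t s * P i)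
    (hPD : ∀ D' : End L V, IsSA 𝒟.q D' → (∀ s, D' * Res 𝒟 t s = Res 𝒟 t s * D') →
      ∀ i, P i * D' = D' * P i)
    {d : ι → L} (hd : Function.Injective d) (hDK : (fun l => (∑ i, d i • P i) (t l)) ∈ 𝒟.K)
    (s : Fin 3) {Z : End L V} (hZ : IsSk 𝒟.q Z) (hZ0 : ∀ i, P i * Z * P i = 0)
    (hZS : Z * Res 𝒟 t s = Res 𝒟 t s * Z) :
    Low 𝒟 s (Res 𝒟 t s * Z) ∧
      (∀ l k, 𝒟.arm l = s → 𝒟.arm k = s → 𝒟.c l ≤ 𝒟.c k →
        𝒟.q (t l) (Z (𝒟.om t k)) = 0) ∧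
      ∀ l k, 𝒟.arm l = s → 𝒟.arm k = s → 𝒟.q (t l) (Z (t k)) = 0 := by
  have hDs : IsSA 𝒟.q (∑ i, d i • P i) := by
    intro u v
    simp only [LinearMap.sum_apply, map_sum, LinearMap.smul_apply, map_smul, smul_eq_mul]
    exact Finset.sum_congr rfl fun i _ => by rw [hP i]
  have hDc : ∀ D' : End L V, (∀ i, P i * D' = D' * P i) →
      (∑ i, d i • P i) * D' = D' * ∑ i, d i • P i := by
    intro D' h
    rw [Finset.sum_mul, Finset.mul_sum]
    exact Finset.sum_congr rfl fun i _ => by rw [smul_mul_assoc, mul_smul_comm, h]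
  refine rule_off h2 hG hV ht hP hPi hPo hPS hd ?_ ?_ s hZ hZ0 (by rw [hP1, one_mul, mul_one]) hZS
  · refine ⟨hDs, fun s => hDc _ fun i => hPS i s, hDK, ?_⟩
    intro r hr
    obtain ⟨D', hD1, hD2, hD3, hD4⟩ := exists_D hG hs hr.1 hr.2
    set D := ∑ i, d i • P i
    have hcomm : D * D' = D' * D := hDc _ (hPD D' hD1 hD2)
    refine ⟨fun l k => ?_, fun s => ?_⟩
    · rw [← (hD4 k).1, ← (hD4 l).1, hDs, hD1]
      congr 1
      exact LinearMap.congr_fun hcomm _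
    · have e : opr 𝒟.q (Tt L fun l => D (t l)) (Gm 𝒟.arm 𝒟.Ω s) (Tt L r) =
          D * (Res 𝒟 t s * D') := by
        rw [← hD3]
        apply LinearMap.ext
        intro v
        rw [opr_Tt 𝒟 hG.skew, Module.End.mul_apply, opr_Tt 𝒟 hG.skew, map_sum]
        refine Finset.sum_congr rfl fun l _ => ?_
        rw [om_map, map_add, map_smul, map_smul]
      rw [e]
      have hSA : IsSA 𝒟.q (Res 𝒟 t s) := Sop_SA 𝒟.arm hG.form (Tt L t) hG.skew s
      intro u v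
      rw [Module.End.mul_apply, Module.End.mul_apply, hDs, hSA, hD1]
      congr 1
      have e1 : ∀ w, D' (Res 𝒟 t s w) = Res 𝒟 t s (D' w) := fun w =>
        LinearMap.congr_fun (hD2 s) w
      have e2 : ∀ w, D (Res 𝒟 t s w) = Res 𝒟 t s (D w) := fun w =>
        LinearMap.congr_fun (hDc _ fun i => hPS i s) w
      have e3 : ∀ w, D (D' w) = D' (D w) := fun w => LinearMap.congr_fun hcomm w
      rw [Module.End.mul_apply, Module.End.mul_apply, e1, e2, e3]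
  · intro t' ht' s
    obtain ⟨D', -, hD2, hD3, -⟩ := K_exists_D hG hV ht ht' hs
    exact ⟨D', hD2 s, by rw [hP1, one_mul, mul_one, hD3]⟩

end rel

end Vale.Agent.P182.H578
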