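import Mathlib

/-!
Self-adjoint nilpotent operators: decomposition into orthogonal strings.
-/

namespace Vale.Agent.P182.H578

open LinearMap Submodule

variable {F : Type*} [Field F] {E : Type*} [AddCommGroup E] [Module F E]

/-- a system of orthogonal strings for the operator `Θ`, spanning `W` -/
structure StrSys (B : LinearMap.BilinForm F E) (Θ : E →ₗ[F] E) (W : Submodule F E)
    (ι : Type) where
  m : ι → ℕ
  e : ι → E
  lam : ι → F
  lam_ne : ∀ j, lam j ≠ 0
  top : ∀ j, (Θ ^ (m j + 1)) (e j) = 0
  pair : ∀ j a b, B ((Θ ^ a) (e j)) ((Θ ^ b) (e j)) = if a + b = m j then lam j else 0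
  orth : ∀ i j, i ≠ j → ∀ a b, B ((Θ ^ a) (e i)) ((Θ ^ b) (e j)) = 0
  span_eq : Submodule.span F {x | ∃ j a, x = (Θ ^ a) (e j)} = W

section exist

variable {B : LinearMap.BilinForm F E} {Θ : E →ₗ[F] E}

theorem pow_adj (hΘ : ∀ x y, B (Θ x) y = B x (Θ y)) (k : ℕ) (x y : E) :
    B ((Θ ^ k) x) y = B x ((Θ ^ k) y) := by
  induction k generalizing x y with
  | zero => simp
  | succ k ih =>
    rw [pow_succ]
    simp only [Module.End.mul_apply]
    rw [ih, hΘ]
    have : (Θ ^ k * Θ) y = (Θ * Θ ^ k) y := by rw [(Commute.refl Θ).pow_left k]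
    simp only [Module.End.mul_apply] at this
    rw [this]

theorem pow_zero_of_le {m k : ℕ} {x : E} (h : (Θ ^ (m + 1)) x = 0) (hk : m < k) :
    (Θ ^ k) x = 0 := by
  obtain ⟨c, rfl⟩ := Nat.exists_eq_add_of_lt hk
  have : m + c + 1 = c + (m + 1) := by ring
  rw [this, pow_add, Module.End.mul_apply, h, map_zero]

/-- adjust the generator of a string -/
theorem adjust (h2 : (2 : F) ≠ 0)
    (hΘ : ∀ x y, B (Θ x) y = B x (Θ y)) (W : Submodule F E)
    (hW : ∀ x ∈ W, Θ x ∈ W) {m : ℕ} {e : E} (he : e ∈ W) (hm : (Θ ^ (m + 1)) e = 0)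
    {lam : F} (hl : lam ≠ 0) (hlam : B e ((Θ ^ m) e) = lam) :
    ∀ k ≤ m, ∃ e' ∈ W, (Θ ^ (m + 1)) e' = 0 ∧ B e' ((Θ ^ m) e') = lam ∧
      ∀ b, m - k ≤ b → b < m → B e' ((Θ ^ b) e') = 0 := by
  intro k
  induction k with
  | zero =>
    intro _
    exact ⟨e, he, hm, hlam, fun b h1 h2 => by omega⟩
  | succ k ih =>
    intro hk
    obtain ⟨e', he', hm', hl', hz⟩ := ih (by omega)
    set b0 := m - (k + 1) with hb0
    have hpW : ∀ (j : ℕ) x, x ∈ W → (Θ ^ j) x ∈ W := by
      intro j
      induction j with
      | zero => intro x hx; simpa using hx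
      | succ j ih2 =>
        intro x hx
        rw [pow_succ, Module.End.mul_apply]
        exact ih2 _ (hW _ hx)
    set c : F := -(B e' ((Θ ^ b0) e')) / (2 * lam) with hc
    refine ⟨e' + c • (Θ ^ (k + 1)) e', W.add_mem he' (W.smul_mem _ (hpW _ _ he')), ?_, ?_, ?_⟩
    · rw [map_add, map_smul, hm', ← Module.End.mul_apply, ← pow_add,
        pow_zero_of_le hm' (by omega)]
      simp
    · have h1 : ∀ j, B ((Θ ^ (k + 1)) e') ((Θ ^ j) e') = B e' ((Θ ^ (k + 1 + j)) e') := by
        intro j
        rw [pow_adj hΘ, ← Module.End.mul_apply, ← pow_add]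
      have h3 : (Θ ^ m) ((Θ ^ (k + 1)) e') = 0 := by
        rw [← Module.End.mul_apply, ← pow_add, pow_zero_of_le hm' (by omega)]
      have h4 : B ((Θ ^ (k + 1)) e') ((Θ ^ m) e') = 0 := by
        rw [h1, pow_zero_of_le hm' (by omega), map_zero]
      simp only [map_add, map_smul, LinearMap.add_apply, LinearMap.smul_apply, h3, h4, hl',
        smul_zero, add_zero]
    · intro b hb1 hb2
      have h1 : ∀ j, B ((Θ ^ (k + 1)) e') ((Θ ^ j) e') = B e' ((Θ ^ (k + 1 + j)) e') := by
        intro j
        rw [pow_adj hΘ, ← Module.End.mul_apply, ← pow_add]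
      have h3 : (Θ ^ b) ((Θ ^ (k + 1)) e') = (Θ ^ (b + (k + 1))) e' := by
        rw [← Module.End.mul_apply, ← pow_add]
      simp only [map_add, map_smul, LinearMap.add_apply, LinearMap.smul_apply, h3, h1,
        smul_eq_mul]
      rcases Nat.lt_or_ge b0 b with hb | hb
      · rw [hz b (by omega) hb2]
        rw [pow_zero_of_le (k := b + (k + 1)) hm' (by omega),
          pow_zero_of_le (k := k + 1 + b) hm' (by omega),
          pow_zero_of_le (k := k + 1 + (b + (k + 1))) hm' (by omega)]
        simp
      · have hbb : b = b0 := by omega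
        have e1 : b + (k + 1) = m := by omega
        have e2 : k + 1 + b = m := by omega
        rw [e1, e2, hl', pow_zero_of_le (k := k + 1 + m) hm' (by omega)]
        simp only [map_zero, mul_zero, add_zero]
        rw [hc, hbb]
        field_simp
        ring

/-- splitting off one string -/
theorem exists_str [FiniteDimensional F E] (h2 : (2 : F) ≠ 0) (hB : ∀ x y, B x y = B y x)
    (hΘ : ∀ x y, B (Θ x) y = B x (Θ y)) (hn : IsNilpotent Θ) (n : ℕ) :
    ∀ W : Submodule F E, Module.finrank F W ≤ n → (∀ x ∈ W, Θ x ∈ W) →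
      (∀ x ∈ W, (∀ y ∈ W, B x y = 0) → x = 0) →
      ∃ (ι : Type) (_ : Fintype ι), Nonempty (StrSys B Θ W ι) := by
  induction n with
  | zero =>
    intro W hW _ _
    have hW0 : W = ⊥ := by
      apply Submodule.finrank_eq_zero.1
      omega
    refine ⟨Empty, inferInstance, ⟨⟨Empty.elim, Empty.elim, Empty.elim, fun j => j.elim,
      fun j => j.elim, fun j => j.elim, fun j => j.elim, ?_⟩⟩⟩
    rw [hW0, Submodule.span_eq_bot]
    rintro x ⟨j, _⟩
    exact j.elim
  | succ n ih =>
    intro W hW hst hnd
    rcases Nat.lt_or_ge (Module.finrank F W) (n + 1) with hlt | hge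
    · exact ih W (by omega) hst hnd
    have hpW : ∀ (j : ℕ) x, x ∈ W → (Θ ^ j) x ∈ W := by
      intro j
      induction j with
      | zero => intro x hx; simpa using hx
      | succ j ih2 =>
        intro x hx
        rw [pow_succ, Module.End.mul_apply]
        exact ih2 _ (hst _ hx)
    -- the maximal power
    obtain ⟨K, hK⟩ := hn
    have hex : ∃ m : ℕ, ∀ x ∈ W, (Θ ^ (m + 1)) x = 0 := by
      refine ⟨K, fun x _ => ?_⟩
      rw [pow_succ, Module.End.mul_apply, hK]
      rfl
    classical
    set m := Nat.find hex with hmdef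
    have hm : ∀ x ∈ W, (Θ ^ (m + 1)) x = 0 := Nat.find_spec hex
    have hne : ∃ y ∈ W, (Θ ^ m) y ≠ 0 := by
      rcases Nat.eq_zero_or_pos m with h0 | hpos
      · by_contra hcon
        push Not at hcon
        have hW0 : W = ⊥ := by
          rw [Submodule.eq_bot_iff]
          intro x hx
          have := hcon x hx
          rw [h0] at this
          simpa using this
        rw [hW0, finrank_bot] at hge
        omega
      · have := Nat.find_min hex (m := m - 1) (by omega)
        push Not at this
        obtain ⟨y, hy, hy2⟩ := this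
        refine ⟨y, hy, ?_⟩
        have e1 : m - 1 + 1 = m := by omega
        rwa [e1] at hy2
    obtain ⟨y, hy, hy0⟩ := hne
    have hxy : ∃ x ∈ W, B x ((Θ ^ m) y) ≠ 0 := by
      by_contra hcon
      push Not at hcon
      apply hy0
      apply hnd _ (hpW _ _ hy)
      intro z hz
      rw [hB]
      exact hcon z hz
    obtain ⟨x, hx, hxy⟩ := hxy
    have he0 : ∃ e0 ∈ W, B e0 ((Θ ^ m) e0) ≠ 0 := by
      by_contra hcon
      push Not at hcon
      have h1 := hcon (x + y) (W.add_mem hx hy)
      have hxx := hcon x hx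
      have hyy := hcon y hy
      have hyx : B y ((Θ ^ m) x) = B x ((Θ ^ m) y) := by
        rw [← pow_adj hΘ, hB]
      simp only [map_add, LinearMap.add_apply, hxx, hyy, hyx] at h1
      apply hxy
      have : (2 : F) * B x ((Θ ^ m) y) = 0 := by linear_combination h1
      rcases mul_eq_zero.1 this with h | h
      · exact absurd h h2
      · exact h
    obtain ⟨e0, he0W, he0⟩ := he0
    obtain ⟨e, heW, hem, hlam, hz⟩ := adjust h2 hΘ W hst he0W (hm e0 he0W)
      he0 rfl m le_rfl
    set lam := B e0 ((Θ ^ m) e0) with hlamdef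
    have hz' : ∀ b, b < m → B e ((Θ ^ b) e) = 0 := fun b hb => hz b (by omega) hb
    have hpair : ∀ a b, B ((Θ ^ a) e) ((Θ ^ b) e) = if a + b = m then lam else 0 := by
      intro a b
      rw [pow_adj hΘ, ← Module.End.mul_apply, ← pow_add]
      split_ifs with hab
      · rw [hab, hlam]
      · rcases Nat.lt_or_ge (a + b) m with h | h
        · exact hz' _ h
        · rw [pow_zero_of_le (hm e heW) (by omega), map_zero]
    -- the complement
    let W' : Submodule F E := W ⊓ ⨅ a : ℕ, LinearMap.ker (B ((Θ ^ a) e))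
    have hmem' : ∀ z, z ∈ W' ↔ z ∈ W ∧ ∀ a : ℕ, B ((Θ ^ a) e) z = 0 := by
      intro z
      simp [W', Submodule.mem_inf, Submodule.mem_iInf]
    have hW'st : ∀ z ∈ W', Θ z ∈ W' := by
      intro z hz
      rw [hmem'] at hz ⊢
      refine ⟨hst z hz.1, fun a => ?_⟩
      rw [← hΘ, ← Module.End.mul_apply, ← pow_succ']
      exact hz.2 _
    -- decomposition
    have hdec : ∀ z ∈ W, ∃ c : ℕ → F,
        z - ∑ a ∈ Finset.range (m + 1), c a • (Θ ^ a) e ∈ W' := by
      intro z hz
      refine ⟨fun a => lam⁻¹ * B ((Θ ^ (m - a)) e) z, ?_⟩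
      rw [hmem']
      refine ⟨W.sub_mem hz (W.sum_mem fun a _ => W.smul_mem _ (hpW _ _ heW)), fun a => ?_⟩
      rw [map_sub, map_sum]
      rcases Nat.lt_or_ge m a with ha | ha
      · rw [pow_zero_of_le (hm e heW) ha]
        simp
      · rw [Finset.sum_eq_single (m - a)]
        · rw [map_smul, hpair, if_pos (by omega), smul_eq_mul]
          have e1 : m - (m - a) = a := by omega
          simp only [e1]
          field_simp
          ring
        · intro b hb hba
          rw [map_smul, hpair, if_neg (by omega), smul_zero]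
        · intro h
          exact absurd (Finset.mem_range.2 (by omega)) h
    have hnd' : ∀ z ∈ W', (∀ w ∈ W', B z w = 0) → z = 0 := by
      intro z hz hzw
      have hz' := (hmem' z).1 hz
      apply hnd z hz'.1
      intro w hw
      obtain ⟨c, hc⟩ := hdec w hw
      have h1 := hzw _ hc
      rw [map_sub, map_sum] at h1
      have h3 : ∑ a ∈ Finset.range (m + 1), B z (c a • (Θ ^ a) e) = 0 := by
        apply Finset.sum_eq_zero
        intro a _
        rw [map_smul, hB, hz'.2, smul_zero]
      rw [h3, sub_zero] at h1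
      exact h1
    have hlt' : Module.finrank F W' < Module.finrank F W := by
      apply Submodule.finrank_lt_finrank_of_lt
      refine lt_of_le_of_ne inf_le_left ?_
      intro hEq
      have : e ∈ W' := by rw [hEq]; exact heW
      have h1 := ((hmem' e).1 this).2 m
      rw [hB, hlam] at h1
      exact he0 h1
    obtain ⟨ι, hι, ⟨S⟩⟩ := ih W' (by omega) hW'st hnd'
    have hSe : ∀ j a, (Θ ^ a) (S.e j) ∈ W' := by
      intro j a
      have h1 : (Θ ^ a) (S.e j) ∈ Submodule.span F {x | ∃ j a, x = (Θ ^ a) (S.e j)} :=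
        Submodule.subset_span ⟨j, a, rfl⟩
      exact S.span_eq.le h1
    refine ⟨Option ι, inferInstance, ⟨⟨fun o => o.elim m S.m, fun o => o.elim e S.e,
      fun o => o.elim lam S.lam, ?_, ?_, ?_, ?_, ?_⟩⟩⟩
    · rintro (_ | j)
      · exact he0
      · exact S.lam_ne j
    · rintro (_ | j)
      · exact hm e heW
      · exact S.top j
    · rintro (_ | j) a b
      · exact hpair a b
      · exact S.pair j a b
    · rintro (_ | i) (_ | j) hij a b
      · exact absurd rfl hij
      · exact ((hmem' _).1 (hSe j b)).2 a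
      · show B ((Θ ^ a) (S.e i)) ((Θ ^ b) e) = 0
        rw [hB]
        exact ((hmem' _).1 (hSe i a)).2 b
      · exact S.orth i j (fun h => hij (by rw [h])) a b
    · apply le_antisymm
      · rw [Submodule.span_le]
        rintro z ⟨(_ | j), a, rfl⟩
        · exact hpW _ _ heW
        · exact ((hmem' _).1 (hSe j a)).1
      · intro z hz
        obtain ⟨c, hc⟩ := hdec z hz
        have h1 : z = (z - ∑ a ∈ Finset.range (m + 1), c a • (Θ ^ a) e) +
            ∑ a ∈ Finset.range (m + 1), c a • (Θ ^ a) e := by abel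
        rw [h1]
        apply Submodule.add_mem
        · refine Submodule.span_mono ?_ (S.span_eq.ge hc)
          rintro w ⟨j, a, rfl⟩
          exact ⟨some j, a, rfl⟩
        · apply Submodule.sum_mem
          intro a _
          apply Submodule.smul_mem
          exact Submodule.subset_span ⟨none, a, rfl⟩

end exist

end Vale.Agent.P182.H578
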