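import Vale.Agent.P182.H578.JM

/-!
Self-adjoint and skew operators, the trace form, filtrations.
-/

namespace Vale.Agent.P182.H578

open LinearMap Submodule

variable {F : Type*} [Field F] {E : Type*} [AddCommGroup E] [Module F E]

/-- `ε`-adjoint operators: self-adjoint for `ε = 1`, skew for `ε = -1` -/
def adj (B : LinearMap.BilinForm F E) (ε : F) : Submodule F (E →ₗ[F] E) where
  carrier := {T | ∀ x y, B (T x) y = ε * B x (T y)}
  zero_mem' := fun x y => by simp
  add_mem' := fun {S T} hS hT x y => by
    rw [LinearMap.add_apply, LinearMap.add_apply, map_add, map_add, LinearMap.add_apply,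
      hS x y, hT x y, mul_add]
  smul_mem' := fun c T hT x y => by
    rw [LinearMap.smul_apply, LinearMap.smul_apply, map_smul, map_smul, LinearMap.smul_apply,
      hT x y, smul_eq_mul, smul_eq_mul]
    ring

theorem mem_adj {B : LinearMap.BilinForm F E} {ε : F} {T : E →ₗ[F] E} :
    T ∈ adj B ε ↔ ∀ x y, B (T x) y = ε * B x (T y) := Iff.rfl

section facts

variable {B : LinearMap.BilinForm F E} (hB : ∀ x y, B x y = B y x)
  (hnd : ∀ x, (∀ y, B x y = 0) → x = 0)

include hnd in
/-- adjoints exist -/
theorem exists_adj [FiniteDimensional F E] (T : E →ₗ[F] E) :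
    ∃ T' : E →ₗ[F] E, ∀ x y, B (T' x) y = B x (T y) := by
  have hinj : Function.Injective B := by
    rw [injective_iff_map_eq_zero]
    intro x hx
    exact hnd x fun y => by rw [hx]; rfl
  have hd : Module.finrank F E = Module.finrank F (E →ₗ[F] F) :=
    (Subspace.dual_finrank_eq (K := F) (V := E)).symm
  let e : E ≃ₗ[F] (E →ₗ[F] F) := LinearEquiv.ofInjectiveOfFinrankEq B hinj hd
  have he : ∀ x, e x = B x := fun x => rfl
  refine ⟨e.symm.toLinearMap ∘ₗ (LinearMap.lcomp F F T) ∘ₗ B, fun x y => ?_⟩
  rw [← he]
  simp only [LinearMap.comp_apply, LinearEquiv.coe_coe, LinearEquiv.apply_symm_apply]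
  rfl

include hnd in
theorem ext_form {T T' : E →ₗ[F] E} (h : ∀ x y, B (T x) y = B (T' x) y) : T = T' := by
  apply LinearMap.ext
  intro x
  have : T x - T' x = 0 := by
    apply hnd
    intro y
    rw [map_sub, LinearMap.sub_apply, h, sub_self]
  exact sub_eq_zero.1 this

/-- the elementary operators -/
theorem elem_mem {ε : F} (hε : ε * ε = 1) (hB : ∀ x y, B x y = B y x) (x y : E) :
    (B y).smulRight x + ε • (B x).smulRight y ∈ adj B ε := by
  intro u v
  simp only [LinearMap.add_apply, LinearMap.smul_apply, LinearMap.smulRight_apply, map_add,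
    map_smul, smul_eq_mul]
  rw [hB u x, hB u y]
  linear_combination (-(B y u * B x v)) * hε

theorem trace_elem [FiniteDimensional F E] {ε : F} (hB : ∀ x y, B x y = B y x)
    (Y : E →ₗ[F] E) (x y : E) :
    trace F E (Y * ((B y).smulRight x + ε • (B x).smulRight y)) = B (Y x) y + ε * B (Y y) x := by
  have h1 : Y * ((B y).smulRight x + ε • (B x).smulRight y) =
      (B y).smulRight (Y x) + ε • (B x).smulRight (Y y) := by
    apply LinearMap.ext
    intro u
    simp only [Module.End.mul_apply, LinearMap.add_apply, LinearMap.smul_apply,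
      LinearMap.smulRight_apply, map_add, map_smul]
  rw [h1, map_add, map_smul, trace_smulRight, trace_smulRight, hB y, hB x, smul_eq_mul]

/-- the trace against the elementary operators, for an operator of the same parity -/
theorem trace_elem_adj [FiniteDimensional F E] {ε : F} (hε : ε * ε = 1)
    (hB : ∀ x y, B x y = B y x) {Y : E →ₗ[F] E} (hY : Y ∈ adj B ε) (x y : E) :
    trace F E (Y * ((B y).smulRight x + ε • (B x).smulRight y)) = 2 * B (Y x) y := by
  rw [trace_elem hB, hY y x, hB y (Y x)]
  linear_combination (B (Y x) y) * hε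

/-- operators of opposite parity are orthogonal -/
theorem trace_adj_mul [FiniteDimensional F E] (h2 : (2 : F) ≠ 0)
    (hnd : ∀ x, (∀ y, B x y = 0) → x = 0) {S T : E →ₗ[F] E} (hS : S ∈ adj B 1)
    (hT : T ∈ adj B (-1)) : trace F E (S * T) = 0 := by
  have h3 : trace F E (S * T) = -trace F E (S * T) := by
    have h4 : trace F E (S * T) = trace F E (-(S * T)) := by
      -- transpose through the form
      have hinj : Function.Injective B := by
        rw [injective_iff_map_eq_zero]
        intro x hx
        exact hnd x fun y => by rw [hx]; rfl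
      have hd : Module.finrank F E = Module.finrank F (E →ₗ[F] F) :=
        (Subspace.dual_finrank_eq (K := F) (V := E)).symm
      let e : E ≃ₗ[F] (E →ₗ[F] F) := LinearEquiv.ofInjectiveOfFinrankEq B hinj hd
      have h5 : Module.Dual.transpose (R := F) (S * T) = e.conj (-(T * S)) := by
        apply LinearMap.ext
        intro φ
        obtain ⟨x, rfl⟩ := e.surjective φ
        rw [LinearEquiv.conj_apply]
        simp only [LinearMap.comp_apply, LinearEquiv.coe_coe, LinearEquiv.symm_apply_apply]
        apply LinearMap.ext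
        intro y
        show B x (S (T y)) = B ((-(T * S)) x) y
        rw [LinearMap.neg_apply, map_neg, LinearMap.neg_apply, Module.End.mul_apply, hT, hS]
        ring
      have h6 := LinearMap.trace_transpose' (R := F) (M := E) (S * T)
      rw [h5, LinearMap.trace_conj', map_neg, trace_mul_comm] at h6
      rw [map_neg]
      exact h6.symm
    rwa [map_neg] at h4
  have h4 : (2 : F) * trace F E (S * T) = 0 := by linear_combination h3
  rcases mul_eq_zero.1 h4 with h | h
  · exact absurd h h2
  · exact h

end facts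

section filt

variable {B : LinearMap.BilinForm F E} {fil : ℤ → Submodule F E} {Θ : E →ₗ[F] E}

theorem Ef_mul {a b : ℤ} {S T : E →ₗ[F] E} (hS : S ∈ Ef fil a) (hT : T ∈ Ef fil b) :
    S * T ∈ Ef fil (a + b) := by
  intro i x hx
  have := hS _ _ (hT i x hx)
  rw [Module.End.mul_apply]
  rwa [show i + (a + b) = i + b + a by ring]

theorem Ef_mono (hf : Antitone fil) {a b : ℤ} (h : a ≤ b) : Ef fil b ≤ Ef fil a :=
  fun _ hT i x hx => hf (by omega) (hT i x hx)

/-- the trace of an operator of positive degree vanishes -/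
theorem trace_Ef [FiniteDimensional F E] (hf : Antitone fil)
    (hb : ∃ M : ℕ, fil (-M) = ⊤ ∧ fil (M + 1) = ⊥) {a : ℤ} (ha : 1 ≤ a) {T : E →ₗ[F] E}
    (hT : T ∈ Ef fil a) : trace F E T = 0 := by
  have h1 : T ∈ Ef fil 1 := Ef_mono hf ha hT
  have hpow : ∀ n : ℕ, T ^ n ∈ Ef fil n := by
    intro n
    induction n with
    | zero => intro i x hx; simpa using hx
    | succ n ih =>
      rw [pow_succ]
      exact_mod_cast Ef_mul ih h1
  obtain ⟨M, hM1, hM2⟩ := hb
  have hn : IsNilpotent T := by
    refine ⟨2 * M + 1, ?_⟩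
    apply LinearMap.ext
    intro x
    have h3 := hpow (2 * M + 1) (-M) x (hM1 ▸ trivial)
    have h4 : (-(M : ℤ)) + ((2 * M + 1 : ℕ) : ℤ) = M + 1 := by push_cast; ring
    rw [h4, hM2] at h3
    exact h3
  exact (LinearMap.isNilpotent_trace_of_isNilpotent hn).eq_zero

/-- the annihilator of the operators of degree at least `c` -/
theorem mem_Ef_of_trace [FiniteDimensional F E] (h2 : (2 : F) ≠ 0) {ε : F} (hε : ε * ε = 1)
    (hB : ∀ x y, B x y = B y x) (hf : Antitone fil)
    (hdual : ∀ i x, x ∈ fil i ↔ ∀ y ∈ fil (1 - i), B x y = 0) {Y : E →ₗ[F] E}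
    (hY : Y ∈ adj B ε) (c : ℤ)
    (h : ∀ T ∈ adj B ε, T ∈ Ef fil c → trace F E (Y * T) = 0) : Y ∈ Ef fil (1 - c) := by
  intro i x hx
  rw [hdual]
  intro y hy
  have hy' : y ∈ fil (c - i) := by
    rwa [show (1 : ℤ) - (i + (1 - c)) = c - i by ring] at hy
  have h3 := h _ (elem_mem hε hB x y) (by
    apply Submodule.add_mem
    · intro l z hz
      rw [LinearMap.smulRight_apply]
      by_cases hl : 1 ≤ l + (c - i)
      · have : B y z = 0 := by
          apply (hdual (c - i) y).1 hy'
          exact hf (by omega) hz
        rw [this, zero_smul]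
        exact Submodule.zero_mem _
      · exact Submodule.smul_mem _ _ (hf (by omega) hx)
    · apply Submodule.smul_mem
      intro l z hz
      rw [LinearMap.smulRight_apply]
      by_cases hl : 1 ≤ l + i
      · have : B x z = 0 := by
          apply (hdual i x).1 hx
          exact hf (by omega) hz
        rw [this, zero_smul]
        exact Submodule.zero_mem _
      · exact Submodule.smul_mem _ _ (hf (by omega) hy'))
  rw [trace_elem_adj hε hB hY] at h3
  rcases mul_eq_zero.1 h3 with h | h
  · exact absurd h h2
  · exact h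

/-- iterating the injectivity of `ad Θ` in negative degrees -/
theorem JM.inj' (J : JM B Θ fil) {c : ℤ} (hc : c ≤ 1) {T : E →ₗ[F] E}
    (hT : Θ * T - T * Θ ∈ Ef fil (c + 1)) : T ∈ Ef fil (c - 1) := by
  obtain ⟨M, hM1, hM2⟩ := J.bdd
  -- `T` has some degree
  have h0 : T ∈ Ef fil (-(2 * M + 1)) := by
    intro i x hx
    rcases le_or_gt i (M : ℤ) with hi | hi
    · have : fil (i + -(2 * M + 1)) = ⊤ := by
        rw [eq_top_iff, ← hM1]
        exact J.anti (by omega)
      rw [this]
      trivial
    · have : x = 0 := by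
        have := J.anti (show (M : ℤ) + 1 ≤ i by omega) hx
        rw [hM2] at this
        exact this
      rw [this, map_zero]
      exact Submodule.zero_mem _
  have key : ∀ n : ℕ, -(2 * (M : ℤ) + 1) + n ≤ c - 1 → T ∈ Ef fil (-(2 * M + 1) + n) := by
    intro n
    induction n with
    | zero => intro _; simpa using h0
    | succ n ih =>
      intro hn
      push_cast at hn
      have h3 := J.inj (-(2 * M + 1) + n) (by omega) T (ih (by omega))
        (Ef_mono J.anti (by omega) hT)
      push_cast
      rwa [← add_assoc]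
  rcases le_or_gt (-(2 * (M : ℤ) + 1)) (c - 1) with h | h
  · have := key (c - 1 + (2 * M + 1)).toNat (by omega)
    have e : -(2 * (M : ℤ) + 1) + ((c - 1 + (2 * M + 1)).toNat : ℤ) = c - 1 := by omega
    rwa [e] at this
  · exact Ef_mono J.anti h.le h0

end filt

end Vale.Agent.P182.H578
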